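import Vale.Agent.P159.H340.F2r
import Vale.Agent.P159.H159.FineN

/-!
P159, helper340, module AL, part 1: RELATIVE FINE IN THE NEUTRAL MODEL.

`fine_rel_N` : the drop of the neutral covariance when a fine mass is switched on, relative to the
bare Green function `(M₀ + b⁻¹ (-Δ))⁻¹`.
-/

namespace Vale.Agent.P159.H340

open Finset Matrix MeasureTheory Filter Topology
open Vale.Agent.P159.TM.H104 (EM Ex Cv li Gr)
open Vale.Agent.P159.TM.Spec (V)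
open Vale.Agent.P159.TM.SpecC (wT)
open Vale.Agent.P159.H37 (qf bf re wM Gm cellP Ev qf_eq)
open Vale.Agent.P159.H864 (lapM ti_lapM)
open Vale.Agent.P159.H963 (Neu ntr nM GW MF gw_wT)
open Vale.Agent.P159.H159 (Ms MasN lim_Gm)

set_option linter.unusedSectionVars false

noncomputable section

variable {N : ℕ} [NeZero N]

lemma mf_add_lap {M : Matrix (V N) (V N) ℝ} {m : ℝ} (hM : MF M m) {κ : ℝ} (hκ : 0 ≤ κ) :
    MF (M + κ • lapM) m := by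
  obtain ⟨m0, hm0, hc⟩ := hM.coer
  have hrl : ∀ x : V N, ∑ y, lapM x y = 0 := by
    intro x
    have h1 := lapM_mulVec (fun _ : V N => (1 : ℝ)) x
    simp only [Matrix.mulVec, dotProduct, mul_one] at h1
    rw [h1]
    ring
  refine ⟨?_, fun x => ?_, m0, hm0, fun u => ?_⟩
  · rw [Matrix.transpose_add, Matrix.transpose_smul, hM.symm, ti_lapM.transpose]
  · simp only [Matrix.add_apply, Matrix.smul_apply, smul_eq_mul, Finset.sum_add_distrib,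
      hM.row, ← Finset.mul_sum, hrl, mul_zero, add_zero]
  · rw [H37.qf_add_mat, H864.qf_smul_mat, H864.qf_lapM]
    have h0 : 0 ≤ TM.H764.grd u := add_nonneg (TM.H764.Q_nonneg _ _) (TM.H764.Q_nonneg _ _)
    have := mul_nonneg hκ h0
    linarith [hc u]

/-- the inverse form on neutral vectors does not see the mass on the constants -/
lemma qf_inv_Ms {A : Matrix (V N) (V N) ℝ} {m : ℝ} (hA : MF A m) {e : ℝ} (he : 0 < e)
    {u : V N → ℝ} (hu : Neu u) : qf (Ms A m e)⁻¹ u = qf A⁻¹ u := by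
  have hB := H159.MF.Ms hA he
  set w : V N → ℝ := A⁻¹ *ᵥ u with hw
  have hwn : Neu w := hA.neu_inv hu
  have h0 : A *ᵥ w = u := hA.mulVec_inv u
  have h1 : Ms A m e *ᵥ w = u := by
    unfold Vale.Agent.P159.H159.Ms
    rw [H963.ntr_of_neu A (m - e) hwn, h0]
  have h2 : (Ms A m e)⁻¹ *ᵥ u = w := by
    rw [← h1, Matrix.mulVec_mulVec, Matrix.nonsing_inv_mul _ hB.det, Matrix.one_mulVec]
  rw [qf_eq, qf_eq, h2]

lemma Ms_add (M Q : Matrix (V N) (V N) ℝ) (m e : ℝ) : Ms (M + Q) m e = Ms M m e + Q := by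
  ext x y
  unfold Vale.Agent.P159.H159.Ms
  rw [H963.ntr_apply, Matrix.add_apply, Matrix.add_apply, H963.ntr_apply]
  ring

/-- **(F2), relative form, neutral model** -/
theorem fine_rel_N {b : ℝ} (hb : 0 < b) : ∃ C c : ℝ, 0 < C ∧ 0 < c ∧
    ∀ (N : ℕ) [NeZero N] (t : ℝ), 0 < t → 9 ≤ t * (N : ℝ) ^ 2 →
    ∀ l : ℕ, l ∣ N → t * (l : ℝ) ^ 2 ≤ 1 →
    ∀ (a s : ℝ) (M₀ : Matrix (V N) (V N) ℝ) (m₀ : ℝ), 0 ≤ s → s ≤ t →
      MasN t a M₀ m₀ (M₀ + s • (1 - cellP N l)) m₀ → ∀ (x₀ : V N) (u : V N → ℝ), Neu u →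
      0 ≤ qf (Gm (nM (wT b N) M₀ m₀ x₀)) u -
        qf (Gm (nM (wT b N) (M₀ + s • (1 - cellP N l)) m₀ x₀)) u ∧
      qf (Gm (nM (wT b N) M₀ m₀ x₀)) u -
        qf (Gm (nM (wT b N) (M₀ + s • (1 - cellP N l)) m₀ x₀)) u ≤
        C * qf (M₀ + b⁻¹ • lapM)⁻¹ u * √(t * (N : ℝ) ^ 2) * (t * (l : ℝ) ^ 2) ^ c := by
  obtain ⟨C, c, hC, hc, hU⟩ := fine_rel (b := b) hb
  refine ⟨C, c, hC, hc, ?_⟩
  intro N _ t ht htN l hl htl a s M₀ m₀ hs hst hM x₀ u hu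
  have hw := gw_wT (N := N) hb.le
  have hlim := (lim_Gm hw hM.mf0 x₀ hu).sub (lim_Gm hw hM.mf1 x₀ hu)
  have hev := hM.ev ht
  have h1 : ∀ᶠ e in 𝓝[>] (0 : ℝ),
      0 ≤ qf (Gm (wM (wT b N) (Ms M₀ m₀ e))) u -
        qf (Gm (wM (wT b N) (Ms (M₀ + s • (1 - cellP N l)) m₀ e))) u ∧
      qf (Gm (wM (wT b N) (Ms M₀ m₀ e))) u -
        qf (Gm (wM (wT b N) (Ms (M₀ + s • (1 - cellP N l)) m₀ e))) u ≤
        C * qf (M₀ + b⁻¹ • lapM)⁻¹ u * √(t * (N : ℝ) ^ 2) * (t * (l : ℝ) ^ 2) ^ c := by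
    filter_upwards [hev, self_mem_nhdsWithin] with e he he0
    have h2 := hU N t ht htN l hl htl e s _ _ he.1 hs hst (Ms_add M₀ _ m₀ e) he.2 u
    have h3 : qf (Ms M₀ m₀ e + b⁻¹ • lapM)⁻¹ u = qf (M₀ + b⁻¹ • lapM)⁻¹ u := by
      rw [← Ms_add, qf_inv_Ms (mf_add_lap hM.mf0 (inv_nonneg.2 hb.le)) he0 hu]
    rw [h3] at h2
    exact h2
  exact ⟨ge_of_tendsto hlim (h1.mono fun s hs => hs.1), le_of_tendsto hlim (h1.mono fun s hs => hs.2)⟩

end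

end Vale.Agent.P159.H340
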