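import Vale.Agent.P159.H340.Kl1

/-!
P159, module K_l (helper340), part 3: trace and sup bounds of the low pass, symmetries.
-/

set_option linter.unusedSectionVars false

namespace Vale.Agent.P159.H340

open Finset Matrix
open Vale.Agent.P159.TM.H764 (Gh cN sN dt ch EE frm grd pw)
open Vale.Agent.P159.TM.Spec (V)
open Vale.Agent.P159.H37 (qf bf)
open Vale.Agent.P159.H864

noncomputable section

variable {N : ℕ} [NeZero N] {s : ℝ}

/-! ### one dimensional sums -/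

lemma N_pos' : (0 : ℝ) < N := by exact_mod_cast NeZero.pos N

/-- Jordan's inequality on `ZMod N` -/
lemma one_sub_cN_ge (j : ZMod N) : 16 * (j.valMinAbs : ℝ) ^ 2 / (N : ℝ) ^ 2 ≤ 2 * (1 - cN j) := by
  have hN := N_pos' (N := N)
  have h1 : |pw j| ≤ Real.pi := by
    unfold pw
    have h3 : |(j.valMinAbs : ℝ)| ≤ N / 2 := by
      have h4 := ZMod.natAbs_valMinAbs_le j
      have h5 : |(j.valMinAbs : ℝ)| = (j.valMinAbs.natAbs : ℝ) := by
        rw [Nat.cast_natAbs, Int.cast_abs]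
      have h6 : (j.valMinAbs.natAbs : ℝ) ≤ ((N / 2 : ℕ) : ℝ) := by exact_mod_cast h4
      have h7 : ((N / 2 : ℕ) : ℝ) ≤ (N : ℝ) / 2 := Nat.cast_div_le
      rw [h5]
      exact h6.trans h7
    rw [abs_div, abs_mul, abs_of_pos (by positivity : (0 : ℝ) < 2 * Real.pi), abs_of_pos hN,
      div_le_iff₀ hN]
    have := mul_le_mul_of_nonneg_left h3 (by positivity : (0 : ℝ) ≤ 2 * Real.pi)
    linarith
  have h2 := Real.cos_le_one_sub_mul_cos_sq h1
  rw [← TM.H764.cN_pw] at h2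
  have h3 : 2 / Real.pi ^ 2 * pw j ^ 2 = 8 * (j.valMinAbs : ℝ) ^ 2 / (N : ℝ) ^ 2 := by
    unfold pw
    have := Real.pi_pos
    field_simp
    ring
  rw [h3] at h2
  have h4 : 16 * (j.valMinAbs : ℝ) ^ 2 / (N : ℝ) ^ 2 =
    2 * (8 * (j.valMinAbs : ℝ) ^ 2 / (N : ℝ) ^ 2) := by ring
  rw [h4]
  linarith

/-- sums over `ZMod N` of a function of the representative -/
lemma sum_vma_le {g : ℕ → ℝ} (hg : ∀ n, 0 ≤ g n) :
    ∑ j : ZMod N, g j.valMinAbs.natAbs ≤ 2 * ∑ n ∈ range (N + 1), g n := by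
  classical
  have h1 : ∑ j : ZMod N, g j.valMinAbs.natAbs =
      ∑ m ∈ (univ : Finset (ZMod N)).image (fun j => j.valMinAbs), g m.natAbs := by
    rw [Finset.sum_image]
    intro a _ b _ h
    exact ZMod.injective_valMinAbs h
  have h2 : (univ : Finset (ZMod N)).image (fun j => j.valMinAbs) ⊆
      (range (N + 1)).image (fun n : ℕ => (n : ℤ)) ∪ (range (N + 1)).image (fun n : ℕ => -(n : ℤ)) := by
    intro m hm
    rw [Finset.mem_image] at hm
    obtain ⟨j, -, rfl⟩ := hm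
    have h3 := ZMod.natAbs_valMinAbs_le j
    rw [Finset.mem_union, Finset.mem_image, Finset.mem_image]
    have h4 : j.valMinAbs.natAbs < N + 1 := by omega
    rcases le_total 0 j.valMinAbs with h | h
    · left
      exact ⟨_, Finset.mem_range.2 h4, Int.natAbs_of_nonneg h⟩
    · right
      exact ⟨_, Finset.mem_range.2 h4, by rw [Int.ofNat_natAbs_of_nonpos h, neg_neg]⟩
  rw [h1]
  refine (Finset.sum_le_sum_of_subset_of_nonneg h2 fun _ _ _ => hg _).trans ?_
  have h5 := Finset.sum_union_inter (s₁ := (range (N + 1)).image (fun n : ℕ => (n : ℤ)))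
    (s₂ := (range (N + 1)).image (fun n : ℕ => -(n : ℤ))) (f := fun m : ℤ => g m.natAbs)
  have h6 : 0 ≤ ∑ m ∈ (range (N + 1)).image (fun n : ℕ => (n : ℤ)) ∩
      (range (N + 1)).image (fun n : ℕ => -(n : ℤ)), g m.natAbs :=
    Finset.sum_nonneg fun _ _ => hg _
  have h7 : ∑ m ∈ (range (N + 1)).image (fun n : ℕ => (n : ℤ)), g m.natAbs =
      ∑ n ∈ range (N + 1), g n := by
    rw [Finset.sum_image (fun a _ b _ h => by simpa using h)]
    simp only [Int.natAbs_natCast]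
  have h8 : ∑ m ∈ (range (N + 1)).image (fun n : ℕ => -(n : ℤ)), g m.natAbs =
      ∑ n ∈ range (N + 1), g n := by
    rw [Finset.sum_image (fun a _ b _ h => by simpa using h)]
    simp only [Int.natAbs_neg, Int.natAbs_natCast]
  linarith

/-- telescoping bound -/
lemma sum_inv_sq {r : ℝ} (hr : 0 < r) (n : ℕ) :
    ∑ i ∈ range n, 1 / (1 + (r * ((i : ℝ) + 1)) ^ 2) ≤ 2 / r := by
  have h1 : ∀ m : ℕ, ∑ i ∈ range m, 1 / (1 + (r * ((i : ℝ) + 1)) ^ 2) ≤
      2 / r * (1 - 1 / (1 + r * m)) := by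
    intro m
    induction m with
    | zero => simp
    | succ m ih =>
      rw [Finset.sum_range_succ]
      refine (add_le_add_left ih _).trans ?_
      have p1 : 0 < 1 + r * (m : ℝ) := by positivity
      have p2 : 0 < 1 + r * ((m : ℝ) + 1) := by positivity
      have h2 : 1 / (1 + (r * ((m : ℝ) + 1)) ^ 2) ≤ 2 / (1 + r * ((m : ℝ) + 1)) ^ 2 := by
        rw [div_le_div_iff₀ (by positivity) (by positivity)]
        nlinarith [sq_nonneg (1 - r * ((m : ℝ) + 1))]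
      have h3 : 2 / (1 + r * ((m : ℝ) + 1)) ^ 2 ≤
          2 / r * (1 / (1 + r * m) - 1 / (1 + r * ((m : ℝ) + 1))) := by
        have e : 2 / r * (1 / (1 + r * m) - 1 / (1 + r * ((m : ℝ) + 1))) =
            2 / ((1 + r * m) * (1 + r * ((m : ℝ) + 1))) := by
          field_simp
          ring
        rw [e, pow_two]
        apply div_le_div_of_nonneg_left (by norm_num) (by positivity)
        apply mul_le_mul_of_nonneg_right _ p2.le
        nlinarith
      have h4 := h2.trans h3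
      push_cast
      have e2 : 2 / r * (1 - 1 / (1 + r * ((m : ℝ) + 1))) = 2 / r * (1 - 1 / (1 + r * m)) +
          2 / r * (1 / (1 + r * m) - 1 / (1 + r * ((m : ℝ) + 1))) := by ring
      rw [e2]
      linarith
  refine (h1 n).trans ?_
  have h5 : 0 ≤ 1 / (1 + r * (n : ℝ)) := by positivity
  have h6 : 0 < 2 / r := by positivity
  nlinarith

/-- the one dimensional resolvent trace -/
lemma sum_one_dim {l : ℝ} (hl : 0 < l) :
    ∑ j : ZMod N, (1 + l ^ 2 * (2 * (1 - cN j)))⁻¹ ≤ 2 + N / l := by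
  have hN := N_pos' (N := N)
  obtain ⟨r, hr⟩ : ∃ r : ℝ, r = 4 * l / N := ⟨_, rfl⟩
  have hr0 : 0 < r := by rw [hr]; positivity
  obtain ⟨g, hg⟩ : ∃ g : ℕ → ℝ, g = fun n : ℕ => (1 : ℝ) / (1 + (r * (n : ℝ)) ^ 2) :=
    ⟨fun n : ℕ => (1 : ℝ) / (1 + (r * (n : ℝ)) ^ 2), rfl⟩
  have hg0 : ∀ n, 0 ≤ g n := by intro n; rw [hg]; positivity
  have h1 : ∀ j : ZMod N, (1 + l ^ 2 * (2 * (1 - cN j)))⁻¹ ≤ g j.valMinAbs.natAbs := by
    intro j
    rw [hg]
    simp only
    rw [one_div]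
    apply inv_anti₀ (by positivity)
    have h2 := mul_le_mul_of_nonneg_left (one_sub_cN_ge j) (sq_nonneg l)
    have h3 : (r * (j.valMinAbs.natAbs : ℝ)) ^ 2 = l ^ 2 * (16 * (j.valMinAbs : ℝ) ^ 2 / (N : ℝ) ^ 2) := by
      rw [Nat.cast_natAbs, Int.cast_abs, mul_pow, sq_abs, hr]
      field_simp
      ring
    rw [h3]
    linarith
  refine (Finset.sum_le_sum fun j _ => h1 j).trans ((sum_vma_le hg0).trans ?_)
  rw [Finset.sum_range_succ']
  have h4 : ∑ i ∈ range N, g (i + 1) ≤ 2 / r := by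
    rw [hg]
    have := sum_inv_sq hr0 N
    push_cast
    exact this
  have h5 : g 0 = 1 := by rw [hg]; simp
  rw [h5]
  have h6 : 2 * (2 / r + 1) = 2 + N / l := by
    rw [hr]
    field_simp
    ring
  linarith

/-! ### the trace -/

lemma EE_nonneg_parts (j : ZMod N) : 0 ≤ 2 * (1 - cN j) := by
  have h1 : cN j ≤ 1 := Real.cos_le_one _
  linarith

/-- **trace of the low pass** -/
theorem Kl_trace {l : ℝ} (hl : 0 < l) : (Kl (N := N) (l ^ 2)).trace ≤ (2 + N / l) ^ 2 := by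
  rw [(ti_Kl _).trace_eq]
  have h1 : ∀ k : V N, sym (Kl (l ^ 2)) k ≤
      (1 + l ^ 2 * (2 * (1 - cN k.1)))⁻¹ * (1 + l ^ 2 * (2 * (1 - cN k.2)))⁻¹ := by
    intro k
    rw [sym_Kl, inv_pow, ← mul_inv]
    have e1 := mul_nonneg (sq_nonneg l) (EE_nonneg_parts k.1)
    have e2 := mul_nonneg (sq_nonneg l) (EE_nonneg_parts k.2)
    have e3 : l ^ 2 * EE k = l ^ 2 * (2 * (1 - cN k.1)) + l ^ 2 * (2 * (1 - cN k.2)) := by
      unfold EE; ring
    rw [e3]
    apply inv_anti₀ (by positivity)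
    nlinarith [mul_nonneg e1 e2, sq_nonneg (l ^ 2 * (2 * (1 - cN k.1))),
      sq_nonneg (l ^ 2 * (2 * (1 - cN k.2)))]
  refine (Finset.sum_le_sum fun k _ => h1 k).trans ?_
  rw [Fintype.sum_prod_type]
  simp only
  simp_rw [← Finset.mul_sum, ← Finset.sum_mul]
  rw [← pow_two]
  apply pow_le_pow_left₀ _ (sum_one_dim hl)
  exact Finset.sum_nonneg fun j _ => inv_nonneg.2 (by
    have := mul_nonneg (sq_nonneg l) (EE_nonneg_parts j)
    linarith)

lemma abs_entry_le {A : Matrix (V N) (V N) ℝ} (hA : TI A) (h : ∀ k, 0 ≤ sym A k) (x y : V N) :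
    |A x y| ≤ A 0 0 := by
  rw [hA.inversion x y, hA.diag_eq 0, abs_mul, abs_of_pos (inv_pos.2 N_pos)]
  refine mul_le_mul_of_nonneg_left ?_ (inv_pos.2 N_pos).le
  refine (Finset.abs_sum_le_sum_abs _ _).trans (Finset.sum_le_sum fun k _ => ?_)
  rw [abs_mul, abs_of_nonneg (h k)]
  exact mul_le_of_le_one_right (h k) (Real.abs_cos_le_one _)

lemma diag_eq_trace {A : Matrix (V N) (V N) ℝ} (hA : TI A) (x : V N) :
    A x x = A.trace / (N : ℝ) ^ 2 := by
  rw [hA.diag_eq, hA.trace_eq]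
  ring

theorem Kl_diag_le {l : ℝ} (hl : 0 < l) (x : V N) : Kl (l ^ 2) x x ≤ (2 / N + 1 / l) ^ 2 := by
  have hN := N_pos' (N := N)
  rw [diag_eq_trace (ti_Kl _), div_le_iff₀ (by positivity)]
  refine (Kl_trace hl).trans (le_of_eq ?_)
  field_simp

theorem Kl_entry_le {l : ℝ} (hl : 0 < l) (x y : V N) : Kl (l ^ 2) x y ≤ (2 / N + 1 / l) ^ 2 :=
  (le_abs_self _).trans ((abs_entry_le (ti_Kl _) (fun k => (sym_Kl_pos (by positivity) k).le) x y).trans
    (Kl_diag_le hl 0))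

/-- Hilbert-Schmidt norm of a row -/
theorem Kl_row_sq {l : ℝ} (hl : 0 < l) (x : V N) :
    ∑ y, Kl (l ^ 2) x y ^ 2 ≤ (2 / N + 1 / l) ^ 2 := by
  have h1 : ∀ y, Kl (l ^ 2) x y ^ 2 ≤ (2 / N + 1 / l) ^ 2 * Kl (l ^ 2) x y := by
    intro y
    rw [pow_two]
    exact mul_le_mul_of_nonneg_right (Kl_entry_le hl x y) (Kl_nonneg (by positivity) x y)
  refine (Finset.sum_le_sum fun y _ => h1 y).trans ?_
  rw [← Finset.mul_sum, Kl_row, mul_one]

/-- the channel: Hilbert-Schmidt norm -/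
theorem Pl_hs {t t' l : ℝ} (hl : 0 < l) (h : t' ≤ t) :
    ((Pl (N := N) t t' (l ^ 2))ᵀ * Pl t t' (l ^ 2)).trace ≤ (t - t') * (2 + N / l) ^ 2 := by
  rw [Pl_gram h, Matrix.trace_smul, smul_eq_mul]
  exact mul_le_mul_of_nonneg_left (Kl_trace hl) (by linarith)

/-! ### symmetries -/

/-- a symmetry of the symbol gives a symmetry of the kernel -/
lemma mlt_perm (φ : V N → ℝ) (e : Equiv.Perm (V N)) (hs : ∀ x y, e (x - y) = e x - e y)
    (hd : ∀ k x, dt k (e x) = dt (e k) x) (hφ : ∀ k, φ (e k) = φ k) (x y : V N) :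
    mlt φ (e x) (e y) = mlt φ x y := by
  unfold mlt
  simp only [Matrix.of_apply]
  congr 1
  rw [← Equiv.sum_comp e (fun k => φ k * cN (dt k (y - x)))]
  refine Finset.sum_congr rfl fun k _ => ?_
  rw [hφ, ← hd, hs]

lemma EE_ref1 (k : V N) : EE (ref1 k) = EE k := by
  rw [ref1_apply]
  unfold EE
  simp only [TM.H764.cN_neg]

lemma EE_swp (k : V N) : EE (swp k) = EE k := by
  rw [swp_apply]
  unfold EE
  simp only
  ring

lemma ref1_sub (x y : V N) : ref1 (x - y) = ref1 x - ref1 y := by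
  rw [ref1_apply, ref1_apply, ref1_apply]
  ext <;> simp
  abel

lemma swp_sub (x y : V N) : swp (x - y) = swp x - swp y := by
  rw [swp_apply, swp_apply, swp_apply]
  ext <;> simp

lemma dt_ref1 (k x : V N) : dt k (ref1 x) = dt (ref1 k) x := by
  rw [ref1_apply, ref1_apply]
  unfold dt
  simp

lemma dt_swp (k x : V N) : dt k (swp x) = dt (swp k) x := by
  rw [swp_apply, swp_apply]
  unfold dt
  simp only
  ring

lemma Kl_ref1 (s : ℝ) (x y : V N) : Kl s (ref1 x) (ref1 y) = Kl s x y :=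
  mlt_perm _ ref1 ref1_sub dt_ref1 (fun k => by rw [EE_ref1]) x y

lemma Kl_swp (s : ℝ) (x y : V N) : Kl s (swp x) (swp y) = Kl s x y :=
  mlt_perm _ swp swp_sub dt_swp (fun k => by rw [EE_swp]) x y

lemma Rl_ref1 (s : ℝ) (x y : V N) : Rl s (ref1 x) (ref1 y) = Rl s x y :=
  mlt_perm _ ref1 ref1_sub dt_ref1 (fun k => by rw [EE_ref1]) x y

lemma Rl_swp (s : ℝ) (x y : V N) : Rl s (swp x) (swp y) = Rl s x y :=
  mlt_perm _ swp swp_sub dt_swp (fun k => by rw [EE_swp]) x y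

lemma Ml_perm (t t' s : ℝ) {e : Equiv.Perm (V N)} (h : ∀ x y, Kl s (e x) (e y) = Kl s x y)
    (x y : V N) : Ml t t' s (e x) (e y) = Ml t t' s x y := by
  unfold Ml
  simp only [Matrix.sub_apply, Matrix.smul_apply, smul_eq_mul, h, Matrix.one_apply,
    EmbeddingLike.apply_eq_iff_eq]

end

end Vale.Agent.P159.H340
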