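import Vale.Agent.P159.H864.Fou0

/-!
P159, module K_l (helper340, work row 60), part 1: the resolvent `Rl s = (1 + s (-Δ))⁻¹` and the
low pass matrix `Kl s = (1 + s (-Δ))⁻²` on the torus `V N` (`s = l²`), entries, row sums, forms.

* `lapM_mulVec` : `-Δ` explicitly; `max_pr` : minimum principle of `1 + s (-Δ)`.
* `Rl_nonneg, Kl_nonneg` : entries `≥ 0`; `Rl_row, Kl_row` : row sums `1`.
* `sym_Rl, sym_Kl`, `Kl_le_Rl`, `Rl_le_one`, `one_sub_Kl_le`.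
-/

set_option linter.unusedSectionVars false

namespace Vale.Agent.P159.H340

open Finset Matrix
open Vale.Agent.P159.TM.H764 (Gh cN sN dt ch EE frm grd)
open Vale.Agent.P159.TM.Spec (V)
open Vale.Agent.P159.H37 (qf bf)
open Vale.Agent.P159.H864

noncomputable section

variable {N : ℕ} [NeZero N]

/-! ### the Laplacian explicitly -/

/-- translation matrix -/
def shM (a : V N) : Matrix (V N) (V N) ℝ := Matrix.of fun x y => if y = x + a then 1 else 0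

lemma shM_mulVec (a : V N) (u : V N → ℝ) (x : V N) : (shM a *ᵥ u) x = u (x + a) := by
  unfold shM Matrix.mulVec dotProduct
  simp only [Matrix.of_apply, ite_mul, one_mul, zero_mul]
  rw [Finset.sum_ite_eq']
  simp

/-- symmetric pair of translations -/
def shP (a : V N) : Matrix (V N) (V N) ℝ := shM a + shM (-a)

lemma ti_shP (a : V N) : TI (shP a) where
  tr b x y := by
    have e1 : (y + b = x + b + a) ↔ (y = x + a) := by
      rw [add_right_comm]; exact add_left_inj b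
    have e2 : (y + b = x + b + -a) ↔ (y = x + -a) := by
      rw [add_right_comm]; exact add_left_inj b
    simp only [shP, shM, Matrix.add_apply, Matrix.of_apply, e1, e2]
  sy x y := by
    have e1 : (y = x + a) ↔ (x = y + -a) := by
      constructor
      · intro h; rw [h]; abel
      · intro h; rw [h]; abel
    have e2 : (y = x + -a) ↔ (x = y + a) := by
      constructor
      · intro h; rw [h]; abel
      · intro h; rw [h]; abel
    simp only [shP, shM, Matrix.add_apply, Matrix.of_apply, e1, e2]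
    rw [add_comm]

lemma sym_shP (a k : V N) : sym (shP a) k = 2 * cN (dt k a) := by
  rw [sym_eq_mulVec, shP, Matrix.add_mulVec, Pi.add_apply, shM_mulVec, shM_mulVec, zero_add,
    zero_add, dt_neg, TM.H764.cN_neg]
  ring

lemma dt_e1 (k : V N) : dt k (1, 0) = k.1 := by
  unfold dt; simp

lemma dt_e2 (k : V N) : dt k (0, 1) = k.2 := by
  unfold dt; simp

lemma lapM_eq : lapM (N := N) = (4 : ℝ) • (1 : Matrix (V N) (V N) ℝ) - (shP (1, 0) + shP (0, 1)) := by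
  refine sym_inj ti_lapM ((TI.one.smul _).sub ((ti_shP _).add (ti_shP _))) fun k => ?_
  rw [sym_lapM, sym_sub, sym_add, sym_smul_one, sym_shP, sym_shP, dt_e1, dt_e2]
  unfold EE
  ring

/-- `-Δ` explicitly -/
lemma lapM_mulVec (u : V N → ℝ) (x : V N) : (lapM *ᵥ u) x =
    4 * u x - (u (x + (1, 0)) + u (x - (1, 0)) + u (x + (0, 1)) + u (x - (0, 1))) := by
  rw [lapM_eq, Matrix.sub_mulVec, Matrix.add_mulVec, Pi.sub_apply, Pi.add_apply, shP, shP,
    Matrix.add_mulVec, Matrix.add_mulVec, Pi.add_apply, Pi.add_apply, shM_mulVec, shM_mulVec,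
    shM_mulVec, shM_mulVec, Matrix.smul_mulVec, Matrix.one_mulVec, Pi.smul_apply, smul_eq_mul,
    sub_eq_add_neg x, sub_eq_add_neg x]
  ring

/-- off-diagonal entries of `-Δ` are `≤ 0` -/
lemma lapM_offdiag {x y : V N} (h : x ≠ y) : lapM x y ≤ 0 := by
  rw [lapM_eq]
  simp only [Matrix.sub_apply, Matrix.smul_apply, Matrix.one_apply, if_neg h, smul_zero,
    Matrix.add_apply, shP, shM, Matrix.of_apply]
  split_ifs <;> norm_num

/-- minimum principle -/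
lemma max_pr {s : ℝ} (hs : 0 ≤ s) {u : V N → ℝ} (h : ∀ x, 0 ≤ u x + s * (lapM *ᵥ u) x) (x : V N) :
    0 ≤ u x := by
  obtain ⟨x0, -, h0⟩ := Finset.exists_min_image (univ : Finset (V N)) u ⟨0, mem_univ _⟩
  refine le_trans ?_ (h0 x (mem_univ _))
  have h1 : (lapM *ᵥ u) x0 ≤ 0 := by
    rw [lapM_mulVec]
    have a1 := h0 (x0 + (1, 0)) (mem_univ _)
    have a2 := h0 (x0 - (1, 0)) (mem_univ _)
    have a3 := h0 (x0 + (0, 1)) (mem_univ _)
    have a4 := h0 (x0 - (0, 1)) (mem_univ _)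
    linarith
  have h2 := h x0
  have h3 : s * (lapM *ᵥ u) x0 ≤ 0 := mul_nonpos_of_nonneg_of_nonpos hs h1
  linarith

/-! ### the resolvent and the low pass -/

lemma EE_nonneg (k : V N) : 0 ≤ EE k := by
  unfold EE
  have h1 : cN k.1 ≤ 1 := Real.cos_le_one _
  have h2 : cN k.2 ≤ 1 := Real.cos_le_one _
  linarith

lemma EE_zero : EE (0 : V N) = 0 := by
  unfold EE
  simp [TM.H764.cN_zero]

lemma EE_le_eight (k : V N) : EE k ≤ 8 := by
  unfold EE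
  have h1 : -1 ≤ cN k.1 := Real.neg_one_le_cos _
  have h2 : -1 ≤ cN k.2 := Real.neg_one_le_cos _
  linarith

/-- the resolvent `(1 + s (-Δ))⁻¹` -/
def Rl (s : ℝ) : Matrix (V N) (V N) ℝ := mlt fun k => (1 + s * EE k)⁻¹

/-- the low pass `(1 + s (-Δ))⁻²` -/
def Kl (s : ℝ) : Matrix (V N) (V N) ℝ := mlt fun k => ((1 + s * EE k)⁻¹) ^ 2

variable {s : ℝ}

lemma sym_Rl (s : ℝ) (k : V N) : sym (Rl s) k = (1 + s * EE k)⁻¹ :=
  sym_mlt _ (fun k => by rw [EE_neg]) k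

lemma sym_Kl (s : ℝ) (k : V N) : sym (Kl s) k = ((1 + s * EE k)⁻¹) ^ 2 :=
  sym_mlt _ (fun k => by rw [EE_neg]) k

lemma ti_Rl (s : ℝ) : TI (Rl (N := N) s) := ti_mlt _

lemma ti_Kl (s : ℝ) : TI (Kl (N := N) s) := ti_mlt _

lemma one_add_pos (hs : 0 ≤ s) (k : V N) : 0 < 1 + s * EE k := by
  have := mul_nonneg hs (EE_nonneg k)
  linarith

lemma Kl_eq (s : ℝ) : Kl (N := N) s = Rl s * Rl s := by
  refine sym_inj (ti_Kl s) ((ti_Rl s).mul (ti_Rl s)) fun k => ?_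
  rw [sym_mul (ti_Rl s) (ti_Rl s), sym_Kl, sym_Rl, pow_two]

lemma Rl_mul (hs : 0 ≤ s) : Rl (N := N) s * (1 + s • lapM) = 1 := by
  refine sym_inj ((ti_Rl s).mul (TI.one.add (ti_lapM.smul s))) TI.one fun k => ?_
  rw [sym_mul (ti_Rl s) (TI.one.add (ti_lapM.smul s)), sym_add, sym_smul, sym_lapM, sym_one, sym_Rl,
    inv_mul_cancel₀ (one_add_pos hs k).ne']

lemma mul_Rl (hs : 0 ≤ s) : (1 + s • lapM) * Rl (N := N) s = 1 := by
  rw [(TI.one.add (ti_lapM.smul s)).comm (ti_Rl s), Rl_mul hs]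

/-- the resolvent equation -/
lemma Rl_eqn (hs : 0 ≤ s) (f : V N → ℝ) (x : V N) :
    (Rl s *ᵥ f) x + s * (lapM *ᵥ (Rl s *ᵥ f)) x = f x := by
  have h0 : ((1 + s • lapM) * Rl (N := N) s) *ᵥ f = (1 : Matrix (V N) (V N) ℝ) *ᵥ f := by
    rw [mul_Rl hs]
  have h := congrFun h0 x
  rw [← Matrix.mulVec_mulVec, Matrix.add_mulVec, Matrix.one_mulVec, Pi.add_apply,
    Matrix.smul_mulVec, Pi.smul_apply, smul_eq_mul, Matrix.one_mulVec] at h
  exact h

/-- `Rl s f ≥ 0` for `f ≥ 0` -/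
lemma Rl_mulVec_nonneg (hs : 0 ≤ s) {f : V N → ℝ} (hf : ∀ x, 0 ≤ f x) (x : V N) :
    0 ≤ (Rl s *ᵥ f) x :=
  max_pr hs (fun y => by rw [Rl_eqn hs]; exact hf y) x

lemma mulVec_single (A : Matrix (V N) (V N) ℝ) (x y : V N) :
    (A *ᵥ (fun z => if z = y then 1 else 0)) x = A x y := by
  unfold Matrix.mulVec dotProduct
  simp only [mul_ite, mul_one, mul_zero]
  rw [Finset.sum_ite_eq']
  simp

lemma Rl_nonneg (hs : 0 ≤ s) (x y : V N) : 0 ≤ Rl s x y := by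
  rw [← mulVec_single (Rl s) x y]
  refine Rl_mulVec_nonneg hs (fun z => ?_) x
  split_ifs <;> norm_num

lemma Kl_nonneg (hs : 0 ≤ s) (x y : V N) : 0 ≤ Kl s x y := by
  rw [Kl_eq, Matrix.mul_apply]
  exact Finset.sum_nonneg fun z _ => mul_nonneg (Rl_nonneg hs _ _) (Rl_nonneg hs _ _)

lemma Kl_mulVec (s : ℝ) (f : V N → ℝ) : Kl s *ᵥ f = Rl s *ᵥ (Rl s *ᵥ f) := by
  rw [Kl_eq, Matrix.mulVec_mulVec]

lemma Kl_mulVec_nonneg (hs : 0 ≤ s) {f : V N → ℝ} (hf : ∀ x, 0 ≤ f x) (x : V N) :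
    0 ≤ (Kl s *ᵥ f) x := by
  rw [Kl_mulVec]
  exact Rl_mulVec_nonneg hs (Rl_mulVec_nonneg hs hf) x

/-- row sums and the symbol at `0` -/
lemma row_sum {A : Matrix (V N) (V N) ℝ} (hA : TI A) (x : V N) : ∑ y, A x y = sym A 0 := by
  rw [sym_def, ← Equiv.sum_comp (Equiv.addRight x)]
  refine Finset.sum_congr rfl fun z _ => ?_
  simp only [Equiv.coe_addRight]
  rw [hA.eq x, add_sub_cancel_right, dt_zero_left, TM.H764.cN_zero, mul_one]

lemma Rl_row (s : ℝ) (x : V N) : ∑ y, Rl s x y = 1 := by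
  rw [row_sum (ti_Rl s), sym_Rl, EE_zero, mul_zero, add_zero, inv_one]

lemma Kl_row (s : ℝ) (x : V N) : ∑ y, Kl s x y = 1 := by
  rw [row_sum (ti_Kl s), sym_Kl, EE_zero, mul_zero, add_zero, inv_one, one_pow]

lemma Rl_le_one_entry (hs : 0 ≤ s) (x y : V N) : Rl s x y ≤ 1 := by
  rw [← Rl_row s x]
  exact Finset.single_le_sum (f := fun y => Rl s x y) (fun z _ => Rl_nonneg hs x z) (mem_univ y)

lemma Kl_le_one_entry (hs : 0 ≤ s) (x y : V N) : Kl s x y ≤ 1 := by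
  rw [← Kl_row s x]
  exact Finset.single_le_sum (f := fun y => Kl s x y) (fun z _ => Kl_nonneg hs x z) (mem_univ y)

/-! ### symbols and forms -/

lemma sym_Rl_pos (hs : 0 ≤ s) (k : V N) : 0 < sym (Rl s) k := by
  rw [sym_Rl]
  exact inv_pos.2 (one_add_pos hs k)

lemma sym_Rl_le (hs : 0 ≤ s) (k : V N) : sym (Rl s) k ≤ 1 := by
  rw [sym_Rl]
  exact inv_le_one_of_one_le₀ (by have := mul_nonneg hs (EE_nonneg k); linarith)

lemma sym_Kl_eq (s : ℝ) (k : V N) : sym (Kl s) k = sym (Rl s) k ^ 2 := by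
  rw [sym_Kl, sym_Rl]

lemma sym_Kl_pos (hs : 0 ≤ s) (k : V N) : 0 < sym (Kl s) k := by
  rw [sym_Kl_eq]
  exact pow_pos (sym_Rl_pos hs k) 2

lemma sym_Kl_le_Rl (hs : 0 ≤ s) (k : V N) : sym (Kl s) k ≤ sym (Rl s) k := by
  rw [sym_Kl_eq]
  have h1 := sym_Rl_pos hs k
  have h2 := sym_Rl_le hs k
  nlinarith

lemma sym_Kl_le (hs : 0 ≤ s) (k : V N) : sym (Kl s) k ≤ 1 :=
  (sym_Kl_le_Rl hs k).trans (sym_Rl_le hs k)

lemma one_sub_sym_Rl (hs : 0 ≤ s) (k : V N) : 1 - sym (Rl s) k ≤ s * EE k := by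
  rw [sym_Rl]
  have h := one_add_pos hs k
  have h1 := mul_nonneg hs (EE_nonneg k)
  rw [sub_le_iff_le_add, ← sub_le_iff_le_add']
  rw [inv_eq_one_div, le_div_iff₀ h]
  nlinarith

lemma one_sub_sym_Kl (hs : 0 ≤ s) (k : V N) : 1 - sym (Kl s) k ≤ 2 * (s * EE k) := by
  have h1 := one_sub_sym_Rl hs k
  have h2 := sym_Rl_pos hs k
  have h3 := sym_Rl_le hs k
  rw [sym_Kl_eq]
  nlinarith

lemma sym_Kl_decay (hs : 0 ≤ s) (k : V N) : sym (Kl s) k * (s * EE k) ^ 2 ≤ 1 := by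
  rw [sym_Kl]
  have h := one_add_pos hs k
  have h1 := mul_nonneg hs (EE_nonneg k)
  rw [← mul_pow]
  refine pow_le_one₀ (mul_nonneg (inv_nonneg.2 h.le) h1) ?_
  rw [inv_mul_le_iff₀ h]
  linarith

lemma qf_Rl_nonneg (hs : 0 ≤ s) (u : V N → ℝ) : 0 ≤ qf (Rl s) u :=
  (psd_iff (ti_Rl s)).2 (fun k => (sym_Rl_pos hs k).le) u

lemma qf_Kl_nonneg (hs : 0 ≤ s) (u : V N → ℝ) : 0 ≤ qf (Kl s) u :=
  (psd_iff (ti_Kl s)).2 (fun k => (sym_Kl_pos hs k).le) u

lemma qf_one (u : V N → ℝ) : qf (1 : Matrix (V N) (V N) ℝ) u = ∑ x, u x ^ 2 := by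
  rw [← sum_hsq, qf_eq_sum TI.one]
  simp only [sym_one, one_mul]

lemma qf_Kl_le_Rl (hs : 0 ≤ s) (u : V N → ℝ) : qf (Kl s) u ≤ qf (Rl s) u :=
  (qf_le_iff (ti_Kl s) (ti_Rl s)).2 (sym_Kl_le_Rl hs) u

lemma qf_Rl_le (hs : 0 ≤ s) (u : V N → ℝ) : qf (Rl s) u ≤ ∑ x, u x ^ 2 := by
  rw [← qf_one]
  exact (qf_le_iff (ti_Rl s) TI.one).2 (fun k => by rw [sym_one]; exact sym_Rl_le hs k) u

lemma qf_Kl_le (hs : 0 ≤ s) (u : V N → ℝ) : qf (Kl s) u ≤ ∑ x, u x ^ 2 :=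
  (qf_Kl_le_Rl hs u).trans (qf_Rl_le hs u)

/-- `1 - Kl ≤ 2 s (-Δ)` -/
lemma qf_one_sub_Kl (hs : 0 ≤ s) (u : V N → ℝ) :
    ∑ x, u x ^ 2 - qf (Kl s) u ≤ 2 * s * grd u := by
  have h := (qf_le_iff (TI.one.sub (ti_Kl s)) (ti_lapM.smul (2 * s))).2 (fun k => by
    rw [sym_sub, sym_one, sym_smul, sym_lapM]
    have := one_sub_sym_Kl hs k
    linarith) u
  rw [qf_sub_mat, qf_one] at h
  have h2 : qf ((2 * s) • lapM) u = 2 * s * grd u := by
    rw [← qf_lapM]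
    unfold qf
    simp only [Matrix.smul_apply, smul_eq_mul, Finset.mul_sum]
    refine Finset.sum_congr rfl fun x _ => Finset.sum_congr rfl fun y _ => by ring
  rw [h2] at h
  exact h

/-- symmetries of the kernels under a permutation commuting with `-Δ` -/
lemma Rl_comm {A : Matrix (V N) (V N) ℝ} (hA : TI A) (s : ℝ) : Rl s * A = A * Rl s :=
  (ti_Rl s).comm hA

lemma Kl_comm {A : Matrix (V N) (V N) ℝ} (hA : TI A) (s : ℝ) : Kl s * A = A * Kl s :=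
  (ti_Kl s).comm hA

end

end Vale.Agent.P159.H340
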