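import Vale.Agent.P159.H340.Ed3c
import Vale.Agent.P159.H276.Es3

/-!
P159, row 6628 (helper270), Ed3 (iii), part 4 (helper340): `smooth_tail` in the letters of helper276
(`cav`) and helper513 (`|F - c| ≤ B`, gradient bound of `s • T P (h - f)`).
-/

namespace Vale.Agent.P159.H340

open Finset
open Vale.Agent.P159.TM.Spec (V)
open Vale.Agent.P159.H276 (bxT ExpD cav)
open Vale.Agent.P159.H770 (Ed eS eT wTD)
open Vale.Agent.P159.H817 (gr bD CG)
open Vale.Agent.P159.H963 (pin)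
open Vale.Agent.P159.H883 (Zp)

noncomputable section

variable {N : ℕ} [NeZero N]

lemma cP_cav (k : ℕ) (h : V N → ℝ) : cP N k h = cav N (2 ^ k) h := rfl

/-- **Ed3 (iii), probabilistic half** with an arbitrary factor `s` -/
theorem smooth_tail_cav {R k0 : ℕ} (hR : N = 2 ^ R) (hk : k0 ≤ R) {b : ℝ} (hb : 0 < b)
    {η : Ed N → ℤ} {f : V N → ℝ} {p q : V N} (hf : ∀ e, (η e : ℝ) + gr f e = bD p q e) {x₀ : V N}
    {Bad : Finset (Ed N)} {K K0 : ℝ} (hX : ExpB N b η x₀ Bad K)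
    (hX0 : ExpD N b η x₀ K0) (hK : 0 ≤ K) (hK0 : 0 ≤ K0)
    {l l' u v : ℝ} (hl : 0 ≤ l) (hl' : 0 ≤ l') (h1 : l ≤ 2 ^ k0) (h2 : l' ≤ 2 ^ k0) {B s : ℝ}
    (hs : 0 ≤ s) (hB : s * (((R : ℝ) - k0) * (u + v + (1 + 36 * CG))) ≤ B) :
    ∑' h, Set.indicator {h : V N → ℤ | ¬ ∃ c,
        (∀ x, |(s • bxT N (2 ^ k0) (cav N (2 ^ k0) fun y => (h y : ℝ) - f y)) x - c| ≤ B) ∧
        ∀ e, |gr (s • bxT N (2 ^ k0) (cav N (2 ^ k0) fun y => (h y : ℝ) - f y)) e| ≤
          2 * B / 2 ^ k0} (pin (wTD N b η) x₀) h ≤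
      6 * 4 ^ (R - k0) * (K * Real.exp (b * l ^ 2 - l * u) +
        K0 * Real.exp (b * (l' ^ 2 * (Bad.card / 4 ^ k0)) - l' * v)) * Zp (wTD N b η) x₀ := by
  have hwnn : ∀ h, 0 ≤ pin (wTD N b η) x₀ h :=
    H963.pin_nonneg (fun h => (H770.wTD_pos hb η h).le) x₀
  have hw : Summable (pin (wTD N b η) x₀) := by
    have := (H883.bw_wTD hb η).em0 x₀
    simpa using this.sum 0
  refine le_trans (Summable.tsum_le_tsum (fun h => ?_) (hw.indicator _) (hw.indicator _))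
    (smooth_tail hR hk hb hf hX hX0 hK hK0 (u := u) (v := v) hl hl' h1 h2 le_rfl)
  refine Set.indicator_le_indicator_of_subset ?_ (fun h => hwnn h) h
  intro h hh
  rw [Set.mem_ofPred_eq] at hh ⊢
  intro hG
  apply hh
  obtain ⟨c, _, hG2, hG3⟩ := hG
  refine ⟨s * c, fun x => ?_, fun e => ?_⟩
  · have e1 : (s • bxT N (2 ^ k0) (cav N (2 ^ k0) fun y => (h y : ℝ) - f y)) x - s * c =
        s * (bxT N (2 ^ k0) (cP N k0 fun y => (h y : ℝ) - f y) x - c) := by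
      rw [Pi.smul_apply, smul_eq_mul, cP_cav]
      ring
    rw [e1, abs_mul, abs_of_nonneg hs]
    exact (mul_le_mul_of_nonneg_left (hG2 x) hs).trans hB
  · have e1 : gr (s • bxT N (2 ^ k0) (cav N (2 ^ k0) fun y => (h y : ℝ) - f y)) e =
        s * gr (bxT N (2 ^ k0) (cP N k0 fun y => (h y : ℝ) - f y)) e := by
      rw [cP_cav]
      unfold gr
      simp only [Pi.smul_apply, smul_eq_mul]
      split_ifs <;> ring
    rw [e1, abs_mul, abs_of_nonneg hs]
    refine (mul_le_mul_of_nonneg_left (hG3 e) hs).trans ?_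
    rw [← mul_div_assoc]
    refine div_le_div_of_nonneg_right ?_ (by positivity)
    linarith

end

end Vale.Agent.P159.H340
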