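import Vale.Agent.P159.H340.Dlw
import Vale.Agent.P159.H270.Ed4
import Vale.Agent.P159.H816.St2
import Vale.Agent.P159.H37.Lq5

/-!
P159 (helper340), (E6): the zero background number on the tori of the window of a level; helper270's
`qb_lvl` (`Q` of the bad set) and helper816's `sit_flow` (typical sources) inserted.
-/

set_option linter.unusedSectionVars false

namespace Vale.Agent.P159.H340.Dlv

open Finset Matrix MeasureTheory Filter Topology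
open Vale.Agent.P159 Vale.Agent.P159.TM.H331 Vale.Agent.P159.H773 Vale.Agent.P159.H253.Rec
open Vale.Agent.P159.TM.Spec (V)
open Vale.Agent.P159.TM.SpecC (wT)
open Vale.Agent.P159.H817 (gr nrm eF sz bD CG IsPath v1 v2)
open Vale.Agent.P159.H770 (wTD Ed wTD_zero)
open Vale.Agent.P159.H883 (CT CT_pos Psi nuM)
open Vale.Agent.P159.H856.Dl (Del)
open Vale.Agent.P159.H270 (RT)
open Vale.Agent.P159.H972 (Par Good tn lg)
open Vale.Agent.P159.H801 (SFlow xa)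
open Vale.Agent.P159.H37.Sf (kf sf_TT sf_k3 sf_ub sf_lb0 sf_wt lg_le lb_eq lb_sub sf_var)
open Vale.Agent.P159.H145.Lw (KnW)
open Vale.Agent.P159.H27 (Rb)
open Vale.Agent.P159.H513 (LkS)

noncomputable section

section win

variable {P : Par} {b σ c c1 q2 qx : ℝ} {a y ε xs : ℕ → ℝ} {c' r' q' A : ℝ} {N0 : ℕ}

/-- the side of the tori of the window, small exponent -/
lemma win_pow2 (hthp : P.thp ≤ 1 / 96) (h : SFlow P b σ c c1 q2 qx a y ε xs c' r' q' A N0)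
    (hσ0 : 0 ≤ σ) (hσ : σ ≤ 1 / 4) {ck : ℝ} (hck : 0 < ck) (hck1 : ck ≤ P.thp) {κ : ℝ}
    (hκ : 1 / 20 ≤ κ) (i : ℕ) :
    ∀ᶠ n : ℕ in atTop, ∀ R : ℕ, R ≤ 2 ^ (n + P.w (ε n) + kf ck y (n + P.w (ε n))) →
      (2 : ℝ) ^ (i + Nat.clog 2 R - n) ≤ y n ^ (-κ) := by
  have hth := P.thp0
  have hη : 0 < Real.log 2 / ck := div_pos (Real.log_pos one_lt_two) hck
  have h1 := (H37.Sf.lb_tend h.fl.y0 h.fl.yt).eventually_ge_atTop (60 * ((i : ℝ) + 4))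
  have h0 := (H37.Sf.lb_tend h.fl.y0 h.fl.yt).eventually_ge_atTop 0
  have h0' : ∀ᶠ n in atTop, ∀ m, n ≤ m → 0 ≤ Real.logb 2 (1 / y m) := by
    obtain ⟨M, hM⟩ := eventually_atTop.1 h0
    filter_upwards [eventually_ge_atTop M] with n hn m hm using hM m (hn.trans hm)
  filter_upwards [sf_var h hη, h1, h0', eventually_ge_atTop N0] with n g1 g2 g3 hn R hR
  have hy := h.fl.y0 n
  have hl0 := sf_lb0 h hn
  have g4 : Nat.clog 2 R ≤ n + P.w (ε n) + kf ck y (n + P.w (ε n)) := by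
    have := Nat.clog_mono_right 2 hR
    rwa [Nat.clog_pow 2 _ one_lt_two] at this
  have g5 : i + Nat.clog 2 R - n ≤ i + P.w (ε n) + kf ck y (n + P.w (ε n)) := by omega
  have g6 : (P.w (ε n) : ℝ) ≤ 2 * P.thp * Real.logb 2 (1 / y n) + 1 := by
    have e2 := sf_ub h hn
    have e3 : (2 - σ) * Real.logb 2 (1 / y n) ≤ 2 * Real.logb 2 (1 / y n) :=
      mul_le_mul_of_nonneg_right (by linarith) hl0
    have e0 : 0 ≤ P.thp * Real.logb 2 (1 / ε n) := by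
      refine mul_nonneg hth.le ?_
      have e4 := H37.Sf.sf_lb h hn
      have e5 : 0 ≤ (2 - 3 * σ) * Real.logb 2 (1 / y n) := mul_nonneg (by linarith) hl0
      linarith
    have e1 : (P.w (ε n) : ℝ) ≤ P.thp * Real.logb 2 (1 / ε n) + 1 := lg_le e0
    have e6 : P.thp * Real.logb 2 (1 / ε n) ≤ P.thp * (2 * Real.logb 2 (1 / y n)) :=
      mul_le_mul_of_nonneg_left (e2.trans e3) hth.le
    linarith
  have g7 : (kf ck y (n + P.w (ε n)) : ℝ) ≤ P.thp * Real.logb 2 (1 / y n) + 2 := by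
    have a2 : (kf ck y (n + P.w (ε n)) : ℝ) ≤ ck * Real.logb 2 (1 / y (n + P.w (ε n))) + 1 :=
      lg_le (mul_nonneg hck.le (g3 _ (Nat.le_add_right _ _)))
    have a3 := lb_sub hck (by rw [abs_sub_comm]; exact g1.1 :
      |Real.log (y n) - Real.log (y (n + P.w (ε n)))| ≤ Real.log 2 / ck)
    have a4 : ck * Real.logb 2 (1 / y n) ≤ P.thp * Real.logb 2 (1 / y n) :=
      mul_le_mul_of_nonneg_right hck1 hl0
    linarith
  have g8 : ((i + Nat.clog 2 R - n : ℕ) : ℝ) ≤ κ * Real.logb 2 (1 / y n) := by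
    have e1 : ((i + Nat.clog 2 R - n : ℕ) : ℝ) ≤
        ((i + P.w (ε n) + kf ck y (n + P.w (ε n)) : ℕ) : ℝ) := by
      exact_mod_cast g5
    push_cast at e1
    have e2 : 3 * P.thp * Real.logb 2 (1 / y n) ≤ 1 / 32 * Real.logb 2 (1 / y n) :=
      mul_le_mul_of_nonneg_right (by linarith) hl0
    have e3 : 1 / 20 * Real.logb 2 (1 / y n) ≤ κ * Real.logb 2 (1 / y n) :=
      mul_le_mul_of_nonneg_right hκ hl0
    have hi : (0 : ℝ) ≤ i := Nat.cast_nonneg i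
    nlinarith
  have g9 : (2 : ℝ) ^ (κ * Real.logb 2 (1 / y n)) = y n ^ (-κ) := by
    rw [mul_comm, Real.rpow_mul two_pos.le, Real.rpow_logb two_pos (by norm_num) (by positivity),
      one_div, Real.inv_rpow hy.le, Real.rpow_neg hy.le]
  rw [← g9, ← Real.rpow_natCast]
  exact Real.rpow_le_rpow_of_exponent_le one_lt_two.le g8

/-- `exp (-n^(1/16)) n^3 ≤ 1` -/
lemma ev_exp16 : ∀ᶠ n : ℕ in atTop, Real.exp (-((n : ℝ) ^ (1 / 16 : ℝ))) * (n : ℝ) ^ 3 ≤ 1 := by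
  have h1 := tendsto_rpow_mul_exp_neg_mul_atTop_nhds_zero 48 1 one_pos
  have h2 : ∀ᶠ Z : ℝ in atTop, Z ^ (48 : ℝ) * Real.exp (-1 * Z) ≤ 1 :=
    h1.eventually (ge_mem_nhds one_pos)
  have h3 : Tendsto (fun n : ℕ => (n : ℝ) ^ (1 / 16 : ℝ)) atTop atTop :=
    (tendsto_rpow_atTop (by norm_num)).comp tendsto_natCast_atTop_atTop
  filter_upwards [h3.eventually h2] with n g
  have hn0 : (0 : ℝ) ≤ n := Nat.cast_nonneg _
  have e1 : ((n : ℝ) ^ (1 / 16 : ℝ)) ^ (48 : ℝ) = (n : ℝ) ^ 3 := by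
    rw [← Real.rpow_mul hn0, ← Real.rpow_natCast]
    norm_num
  rw [e1, neg_one_mul] at g
  linarith

/-- **`Q` of the bad set on the tori of the window** from typical sources -/
theorem qb_win {α C1 : ℝ} (hb : 0 < b) (h : SFlow P b σ c c1 q2 qx a y ε xs c' r' q' A N0)
    (hA : P.Adm) (hc : 0 ≤ c) (hc1 : c < 3 / 16) (hσ0 : 0 ≤ σ) (hσ : σ ≤ 1 / 6)
    (hpf : 2 / 3 ≤ P.pf) (hSi : ∀ i, 2 / Real.pi ≤ stiff (2 ^ i) b) (hL : LkS b (2 / Real.pi))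
    {ck : ℝ} (hck : 0 < ck) (hck1 : ck ≤ P.thp) (hck2 : 2 * P.th ≤ ck)
    (hα : 0 ≤ α) (hα1 : α ≤ 1) (hC1 : 1 ≤ C1) :
    ∃ i0 : ℕ, ∀ i, i0 ≤ i → ∀ s : ℝ, 0 ≤ s → ∀ᶠ n : ℕ in atTop,
      ∀ R : ℕ, 2 ^ (n + kf ck y n) ≤ R → R ≤ 2 ^ (n + P.w (ε n) + kf ck y (n + P.w (ε n))) →
      RecAt b α C1 R →
      ∀ (L : ℕ) (η : Ed (sd i R) → ℤ) (p q : V (sd i R)) (φ : V (sd i R) → ℝ),
      R ≤ 2 * sz (q - p) → sz (q - p) ≤ 4 * R → IsPath p q (v1 p q) (v2 p q) L η →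
      (∀ e, eF η φ e = bD p q e) →
      (nuM (wT b (sd i R)) (tn n • (1 : Matrix (V (sd i R)) (V (sd i R)) ℝ)) 0).real
        {F | 1 < RT (sd i R) b (tn n) 0 ((3 * (2 * s)) • F)} * (n : ℝ) ^ 3 ≤ 1 →
      QB (sd i R) b (tn n) η φ s (3 / (n : ℝ) ^ 3) := by
  obtain ⟨A0, hA0, hlo⟩ := H552.Lq.far_lo (b := b) (α := α) (C1 := C1) hb.le hα hα1 hC1
  have hk0 := H552.Lq.kF_pos hC1
  have hpw0 : 0 < (12 * C1) ^ (-(8 * (4 : ℝ) + 1)) := Real.rpow_pos_of_pos (by linarith) _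
  have hpw1 : (12 * C1) ^ (-(8 * (4 : ℝ) + 1)) ≤ 1 :=
    Real.rpow_le_one_of_one_le_of_nonpos (by linarith) (by norm_num)
  have hk1 : H552.Lq.kF C1 ≤ 1 := (half_le_self hpw0.le).trans hpw1
  have hC2 : 1 ≤ C1 / H552.Lq.kF C1 := by
    rw [le_div_iff₀ hk0]
    linarith
  obtain ⟨i1, hi1⟩ := pow_unbounded_of_one_lt A0 (one_lt_two (α := ℝ))
  have hthp : P.thp ≤ 1 / 96 := by
    have := hA.hx
    have := hA.x11
    have := P.th0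
    linarith
  have hkf : ∀ᶠ n : ℕ in atTop, 1 ≤ kf ck y n := by
    have h1 := (H37.Sf.lb_tend h.fl.y0 h.fl.yt).eventually_ge_atTop (1 / ck)
    filter_upwards [h1] with n g1
    have g2 := H37.Sf.le_lg ck (y n)
    have g3 : ck * (1 / ck) ≤ ck * Real.logb 2 (1 / y n) := mul_le_mul_of_nonneg_left g1 hck.le
    have g4 : ck * (1 / ck) = 1 := by field_simp
    have g5 : (1 : ℝ) ≤ (lg ck (y n) : ℝ) := by linarith
    exact_mod_cast g5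
  refine ⟨max 1 i1, fun i hi s hs => ?_⟩
  filter_upwards [H270.qb_lvl hb h hc hc1 hσ0 hσ hpf hSi hL (ρ := 1) (s := 2 * s) one_pos
      (by linarith) hC2,
    sf_TT h hA hσ0 (by linarith) hck hck1 hck2 ((le_max_left _ _).trans hi),
    win_pow2 hthp h hσ0 (by linarith) hck hck1 (by norm_num : (1 : ℝ) / 20 ≤ 1 / 16) i,
    ev_exp16, hkf, eventually_ge_atTop 5] with n g1 g2 g3 g4 g5 g6 R hR0 hR1 hrec L η p q φ hp1
    hp2 hpath hφ htyp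
  have hN : sd i R = 2 ^ (i + Nat.clog 2 R) := by
    unfold H773.sd
    rw [pow_add]
  have hnR : 2 ^ (n + 1) ≤ R := (Nat.pow_le_pow_right (by norm_num) (by omega)).trans hR0
  have hnR' : 2 * 2 ^ n ≤ R := by rw [pow_succ] at hnR; omega
  have hn5 : 2 ^ 5 ≤ 2 ^ n := Nat.pow_le_pow_right (by norm_num) g6
  have hAR : A0 * R ≤ (sd i R : ℝ) := by
    have h1 : 2 ^ i * R ≤ sd i R := H773.sd_ge i R
    have h4 : (2 : ℝ) ^ i * R ≤ sd i R := by exact_mod_cast h1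
    have h5 : A0 ≤ 2 ^ i := hi1.le.trans
      (pow_le_pow_right₀ one_lt_two.le ((le_max_right _ _).trans hi))
    exact (mul_le_mul_of_nonneg_right h5 (Nat.cast_nonneg R)).trans h4
  obtain ⟨l1, l2⟩ := hlo (sd i R) L R η p q (by omega) hrec hp1 hp2 hAR hpath
  have hCT := CT_pos hb η
  have hRN : R ≤ 2 ^ (i + Nat.clog 2 R) := by rw [← hN]; omega
  have hnm : XY.nm (H253.Sm.dsp p q) = sz (q - p) := rfl
  have hpr : ∀ s' : ℕ, 1 ≤ s' → s' ≤ R →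
      ua b s' ≤ C1 / H552.Lq.kF C1 * ((R : ℝ) / s') ^ α * CT (sd i R) b η := by
    intro s' h1 h2
    have h3 := hrec.2 s' h1 h2
    have hrp : 0 ≤ ((R : ℝ) / s') ^ α := Real.rpow_nonneg (by positivity) _
    have h4 : ga b R ≤ CT (sd i R) b η / H552.Lq.kF C1 := by
      rw [le_div_iff₀ hk0]
      linarith
    calc ua b s' ≤ C1 * ((R : ℝ) / s') ^ α * ga b R := h3
      _ ≤ C1 * ((R : ℝ) / s') ^ α * (CT (sd i R) b η / H552.Lq.kF C1) :=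
          mul_le_mul_of_nonneg_left h4 (by positivity)
      _ = _ := by ring
  have key := g1 _ (g2 R hR0 hR1) (g3 R hR1) (sd i R) hN p q (H253.Sm.dsp p q) L η φ hpath
    (fun e => hφ e) (by rw [hnm]; omega) (by rw [hnm]; omega) R α hα1 (by omega) hRN hpr
  unfold QB
  refine key.trans ?_
  rw [mul_comm (CT (sd i R) b η)]
  refine mul_le_mul_of_nonneg_right ?_ hCT.le
  have hn3 : (0 : ℝ) < (n : ℝ) ^ 3 := by
    have : (0 : ℝ) < n := by exact_mod_cast (by omega : 0 < n)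
    positivity
  rw [le_div_iff₀ hn3]
  linarith

/-- **the zero background number on the tori of the window** -/
theorem del_winT {α C1 : ℝ} (hb : 0 < b) (h : SFlow P b σ c c1 q2 qx a y ε xs c' r' q' A N0)
    (hA : P.Adm) (hh : 0 < helicity b) (hs : 1 / helicity b < 5 / 2) (hc : 0 ≤ c)
    (hc1 : c < 3 / 16) (hσ0 : 0 ≤ σ) (hσ : σ ≤ 1 / 6) (hpf : 2 / 3 ≤ P.pf)
    (hSi : ∀ i, 2 / Real.pi ≤ stiff (2 ^ i) b) (hL : LkS b (2 / Real.pi))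
    {ck : ℝ} (hck : 0 < ck) (hck1 : ck ≤ P.thp) (hck2 : 2 * P.th ≤ ck)
    (hα : 1 / 4 ≤ α) (hα2 : α < 1 / 2) (hC1 : 1 ≤ C1) :
    ∃ (C : ℝ) (i0 : ℕ), 1 ≤ C ∧ ∀ i, i0 ≤ i → ∀ s, C ≤ s → ∀ᶠ n : ℕ in atTop,
      ∀ R : ℕ, 2 ^ (n + kf ck y n) ≤ R → R ≤ 2 ^ (n + P.w (ε n) + kf ck y (n + P.w (ε n))) →
      RecAt b α C1 R →
      ∀ (L : ℕ) (η : Ed (sd i R) → ℤ) (p q : V (sd i R)) (φ : V (sd i R) → ℝ),
      R ≤ 2 * sz (q - p) → sz (q - p) ≤ 4 * R → IsPath p q (v1 p q) (v2 p q) L η →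
      (∀ e, eF η φ e = bD p q e) →
      (nuM (wT b (sd i R)) (tn n • (1 : Matrix (V (sd i R)) (V (sd i R)) ℝ)) 0).real
        {F | 1 < RT (sd i R) b (tn n) 0 ((3 * (2 * s)) • F)} * (n : ℝ) ^ 3 ≤ 1 →
      Del (wTD (sd i R) b) (tn n • (1 : Matrix (V (sd i R)) (V (sd i R)) ℝ)) (tn n) 0 η φ ≤
        C * (1 + Real.log (1 / y n)) ^ 2 := by
  obtain ⟨C, i0, hC, H⟩ := del_win (α := α) (C1 := C1) hb h hA hh hs hσ0 (by linarith) hck hck1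
    hck2 hα hα2 hC1
  obtain ⟨i1, hi1⟩ := qb_win (α := α) (C1 := C1) hb h hA hc hc1 hσ0 hσ hpf hSi hL hck hck1 hck2
    (by linarith) (by linarith) hC1
  refine ⟨C, max i0 i1, hC, fun i hi s hCs => ?_⟩
  filter_upwards [H i ((le_max_left _ _).trans hi), hi1 i ((le_max_right _ _).trans hi) s
    (by linarith), eventually_ge_atTop 1] with n g1 g2 g3 R hR0 hR1 hrec L η p q φ hp1 hp2 hpath hφ htyp
  have hn3 : (0 : ℝ) < (n : ℝ) ^ 3 := by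
    have : (0 : ℝ) < n := by exact_mod_cast (by omega : 0 < n)
    positivity
  exact g1 R hR0 hR1 hrec L s (3 / (n : ℝ) ^ 3) η p q φ hCs hp1 hp2 hpath hφ (by positivity)
    (div_mul_cancel₀ _ hn3.ne').le (g2 R hR0 hR1 hrec L η p q φ hp1 hp2 hpath hφ htyp)

/-- **the zero background number of the axis pair `R` of a level**, helper145's letters -/
theorem del_KnWT {β C2 : ℝ} (hb : 0 < b) (h : SFlow P b σ c c1 q2 qx a y ε xs c' r' q' A N0)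
    (hA : P.Adm) (hh : 0 < helicity b) (hs : 1 / helicity b < 5 / 2) (hc : 0 ≤ c)
    (hc1 : c < 3 / 16) (hσ0 : 0 ≤ σ) (hσ : σ ≤ 1 / 6) (hpf : 2 / 3 ≤ P.pf)
    (hSi : ∀ i, 2 / Real.pi ≤ stiff (2 ^ i) b) (hL : LkS b (2 / Real.pi))
    {ck : ℝ} (hck : 0 < ck) (hck1 : ck ≤ P.thp) (hck2 : 2 * P.th ≤ ck)
    (hβ : 1 / 4 ≤ β) (hβ2 : β < 1 / 2) (hC2 : 1 ≤ C2) :
    ∃ (C : ℝ) (i0 : ℕ), 1 ≤ C ∧ ∀ i, i0 ≤ i → ∀ s, C ≤ s → ∀ᶠ n : ℕ in atTop,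
      ∀ R : ℕ, 2 ^ (n + kf ck y n) ≤ R → R ≤ 2 ^ (n + P.w (ε n) + kf ck y (n + P.w (ε n))) →
      ∀ (A0 : ℝ) (Am : ℕ) (a' : ℕ → ℝ) (k w : ℕ → ℕ) (n0 j : ℕ), 1 ≤ Am →
      KnW b β C2 A0 Am i a' k w n0 j R → Rb k w n0 0 ≤ R →
      ∀ (η : ∀ R, Ed (sd i R) → ℤ) (φ : ∀ R, V (sd i R) → ℝ), Pth i η →
      (∀ R, 1 ≤ R → bD (0 : V (sd i R)) (R • (H817.e1 : V (sd i R))) = eF (η R) (φ R)) →
      (nuM (wT b (sd i R)) (tn n • (1 : Matrix (V (sd i R)) (V (sd i R)) ℝ)) 0).real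
        {F | 1 < RT (sd i R) b (tn n) 0 ((3 * (2 * s)) • F)} * (n : ℝ) ^ 3 ≤ 1 →
      Del (wTD (sd i R) b) (tn n • (1 : Matrix (V (sd i R)) (V (sd i R)) ℝ)) (tn n) 0 (η R) (φ R) ≤
        C * (1 + Real.log (1 / y n)) ^ 2 := by
  obtain ⟨C, i0, hC, H⟩ := del_winT (α := β) (C1 := C2) hb h hA hh hs hc hc1 hσ0 hσ hpf hSi hL
    hck hck1 hck2 hβ hβ2 hC2
  refine ⟨C, max 2 i0, hC, fun i hi s hCs => ?_⟩
  filter_upwards [H i ((le_max_right _ _).trans hi) s hCs] with n hn R hR0 hR1 A0 Am a' k w n0 j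
    hAm K hRb η φ hη hφ htyp
  have hR : 1 ≤ R := Nat.one_le_two_pow.trans hR0
  have hrec := K.rcd R hRb (Nat.le_mul_of_pos_left R hAm)
  obtain ⟨q1, L, hL'⟩ := H552.Lq.path_ax (i := i) ((le_max_left _ _).trans hi) hη hR
  have e1 : H773.ax0 (sd i R) R = R • (H817.e1 : V (sd i R)) := (H817.nsmul_e1 R).symm
  have hsz := H552.Lq.sz_ax (N := sd i R) q1
  rw [e1] at hL' hsz
  exact hn R hR0 hR1 hrec L (η R) 0 (R • H817.e1) (φ R) (by rw [hsz]; omega)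
    (by rw [hsz]; omega) hL' (fun e => by rw [hφ R hR]) htyp

end win

/-- the exponent of the flat profile -/
lemma ev_pf (b1 b2 pf : ℝ) (Q : ℕ) : H801.Ev b1 b2 pf Q fun P _ => P.pf = pf := by
  refine H801.Ev.of ⟨0, fun W hW => ⟨1, one_pos, fun ys _ _ => ⟨0, fun X0 hX0 =>
    ⟨1, one_pos, fun x1 hx1 hx1' => ⟨1, one_pos, fun thp ht1 ht2 => ⟨1, one_pos, fun th hs1 hs2 =>
    ⟨1, fun C0 hC0 => ⟨1, one_pos, fun c1 hc1 hc2 => ⟨1, one_pos, fun P hP => hP.epf⟩⟩⟩⟩⟩⟩⟩⟩⟩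

/-- **the zero background number of every far pair of the window, along the flow** (order of
constants of helper801; helper816's `sit_flow` and helper270's `qb_lvl` inserted) -/
theorem del_flow {b b1 b2 pf : ℝ} (hb1 : 0 < b1) (h1 : b1 ≤ b) (hpf : 2 / 3 ≤ pf) (Q : ℕ)
    (hh : 0 < helicity b) (hs : 1 / helicity b < 5 / 2)
    (hSi : ∀ i, 2 / Real.pi ≤ stiff (2 ^ i) b) (hL : LkS b (2 / Real.pi)) :
    H801.Ev b1 b2 pf Q fun P c1 =>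
      ∀ {σ c q2 qx : ℝ} {a y ε xs : ℕ → ℝ} {c' r q A : ℝ} {N : ℕ},
      SFlow P b σ c c1 q2 qx a y ε xs c' r q A N → 0 ≤ σ → σ ≤ 1 / 6 → 0 ≤ c → c < 3 / 16 →
      ∀ ck : ℝ, 0 < ck → 2 * P.th ≤ ck → ck ≤ P.thp →
      ∀ α C1 : ℝ, 1 / 4 ≤ α → α < 1 / 2 → 1 ≤ C1 →
      ∃ (C : ℝ) (i0 : ℕ), 1 ≤ C ∧ ∀ i, i0 ≤ i → ∀ᶠ n : ℕ in atTop,
        ∀ R : ℕ, 2 ^ (n + kf ck y n) ≤ R → R ≤ 2 ^ (n + P.w (ε n) + kf ck y (n + P.w (ε n))) →
        RecAt b α C1 R →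
        ∀ (L : ℕ) (η : Ed (sd i R) → ℤ) (p q : V (sd i R)) (φ : V (sd i R) → ℝ),
        R ≤ 2 * sz (q - p) → sz (q - p) ≤ 4 * R → IsPath p q (v1 p q) (v2 p q) L η →
        (∀ e, eF η φ e = bD p q e) →
        Del (wTD (sd i R) b) (tn n • (1 : Matrix (V (sd i R)) (V (sd i R)) ℝ)) (tn n) 0 η φ ≤
          C * (1 + Real.log (1 / y n)) ^ 2 := by
  have hb : 0 < b := hb1.trans_le h1
  refine ((H816.sit_flow (b2 := b2) hb1 h1 (by linarith : (0 : ℝ) < pf) Q).and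
    (ev_pf b1 b2 pf Q)).mono fun P c1 hA hT => ?_
  obtain ⟨⟨hc1, -, hsit⟩, hPf⟩ := hT
  intro σ c q2 qx a y ε xs c' r q A N h hσ0 hσ hc hc3 ck hck hck2 hck1 α C1 hα hα2 hC1
  obtain ⟨C, i0, hC, H⟩ := del_winT (α := α) (C1 := C1) hb h hA hh hs hc hc3 hσ0 hσ
    (by rw [hPf]; exact hpf) hSi hL hck hck1 hck2 hα hα2 hC1
  refine ⟨C, max 1 i0, hC, fun i hi => ?_⟩
  filter_upwards [H i ((le_max_right _ _).trans hi) C le_rfl,
    hsit h hσ0 (by linarith) ck hck hck2 hck1 i ((le_max_left _ _).trans hi) c1 (by linarith)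
      1 1 1 1 (3 * C) one_pos one_pos, H816.sf_expn h hc1 3] with n g1 g2 g3 R hR0 hR1 hrec L η p
    q' φ hp1 hp2 hpath hφ
  refine g1 R hR0 hR1 hrec L η p q' φ hp1 hp2 hpath hφ ?_
  have h2 := (g2.2 R hR0 hR1).2.1
  rw [Ag_compl, one_mul] at h2
  have e : (3 * (2 * C) : ℝ) = 2 * (3 * C) := by ring
  rw [e]
  exact (mul_le_mul_of_nonneg_right h2 (by positivity)).trans g3

/-- **the zero background number of the axis pairs of the window, along the flow**, in helper37's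
form `Win` -/
theorem del_flowW {b b1 b2 pf : ℝ} (hb1 : 0 < b1) (h1 : b1 ≤ b) (hpf : 2 / 3 ≤ pf) (Q : ℕ)
    (hh : 0 < helicity b) (hs : 1 / helicity b < 5 / 2)
    (hSi : ∀ i, 2 / Real.pi ≤ stiff (2 ^ i) b) (hL : LkS b (2 / Real.pi)) :
    H801.Ev b1 b2 pf Q fun P c1 =>
      ∀ {σ c q2 qx : ℝ} {a y ε xs : ℕ → ℝ} {c' r q A : ℝ} {N : ℕ},
      SFlow P b σ c c1 q2 qx a y ε xs c' r q A N → 0 ≤ σ → σ ≤ 1 / 6 → 0 ≤ c → c < 3 / 16 →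
      ∀ ck : ℝ, 0 < ck → 2 * P.th ≤ ck → ck ≤ P.thp →
      ∀ (β C2 A0 : ℝ) (Am : ℕ), 1 / 4 ≤ β → β < 1 / 2 → 1 ≤ C2 → 1 ≤ Am →
      ∃ (C : ℝ) (i0 : ℕ), 1 ≤ C ∧ ∀ i, i0 ≤ i →
        ∀ (η : ∀ R, Ed (sd i R) → ℤ) (φ : ∀ R, V (sd i R) → ℝ), H145.Sp.AxP i η φ →
        H37.Sf.Win P b β C2 A0 Am i ck a y ε fun n R =>
          Del (wTD (sd i R) b) (tn n • (1 : Matrix (V (sd i R)) (V (sd i R)) ℝ)) (tn n) 0 (η R)
            (φ R) ≤ C * (1 + Real.log (1 / y n)) ^ 2 := by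
  refine (del_flow (b2 := b2) hb1 h1 hpf Q hh hs hSi hL).mono fun P c1 hA hT => ?_
  intro σ c q2 qx a y ε xs c' r q A N h hσ0 hσ hc hc3 ck hck hck2 hck1 β C2 A0 Am hβ hβ2 hC2 hAm
  obtain ⟨C, i0, hC, H⟩ := hT h hσ0 hσ hc hc3 ck hck hck2 hck1 β C2 hβ hβ2 hC2
  refine ⟨C, max 2 i0, hC, fun i hi η φ hη => ?_⟩
  unfold H37.Sf.Win
  filter_upwards [H i ((le_max_right _ _).trans hi)] with n hn n0 j hnj R hR0 hR1 K
  obtain ⟨κ, slo⟩ := K.slo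
  have r0 : Rb (kf ck y) (fun n => P.w (ε n)) n0 0 ≤ Rb (kf ck y) (fun n => P.w (ε n)) n0 j :=
    slo.Rb_mono (Nat.zero_le j)
  have r1 : Rb (kf ck y) (fun n => P.w (ε n)) n0 j = 2 ^ (n + kf ck y n) := by
    unfold H27.Rb H552.Dx7.kk
    rw [← hnj]
  have hRb : Rb (kf ck y) (fun n => P.w (ε n)) n0 0 ≤ R := by
    rw [r1] at r0
    exact r0.trans hR0
  have hR : 1 ≤ R := Nat.one_le_two_pow.trans hR0
  have hrec := K.rcd R hRb (Nat.le_mul_of_pos_left R hAm)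
  obtain ⟨q1, L, hL'⟩ := H552.Lq.path_ax (i := i) ((le_max_left _ _).trans hi) hη.pth hR
  have e1 : H773.ax0 (sd i R) R = R • (H817.e1 : V (sd i R)) := (H817.nsmul_e1 R).symm
  have hsz := H552.Lq.sz_ax (N := sd i R) q1
  rw [e1] at hL' hsz
  exact hn R hR0 hR1 hrec L (η R) 0 (R • H817.e1) (φ R) (by rw [hsz]; omega)
    (by rw [hsz]; omega) hL' (fun e => by rw [hη.bd R hR])

end

end Vale.Agent.P159.H340.Dlv
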