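import Vale.Agent.P159.H340.Al3
import Vale.Agent.P159.H363.Acl
import Vale.Agent.P159.H462.In3Sum

/-!
P159, helper340, module AL, part 4: **the coarse form of the flow against the neutral form of the larger
cells.** `acl N l b t τ` = neutral form at cells `l` (mass `t` on the scales below `l`, `τ ≤ t` on the
cells), `Ac ρ` = the form of the averages over `ρ × ρ` cells, `anw N l ρ b τ` = neutral form at cells
`l ρ`, mass `τ`, read on the torus `N / l / ρ`.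

`rel_ratio` : the sum of the squares of the relative differences of the symbols is at most
`C ((τ N²)² (t N²) (t l²)^c + (τ N²) (τ (l ρ)²))`.
-/

namespace Vale.Agent.P159.H340

open Finset Matrix MeasureTheory
open Vale.Agent.P159.TM.H764 (EE cN sN dt)
open Vale.Agent.P159.TM.Spec (V)
open Vale.Agent.P159.TM.SpecC (wT)
open Vale.Agent.P159.H37 (qf Gm cellP)
open Vale.Agent.P159.H864 (TI sym cobV Gc MC lapM als rd)
open Vale.Agent.P159.H963 (Neu Gnc)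
open Vale.Agent.P159.H859 (Gnck_dom)
open Vale.Agent.P159.H363 (Nf acl sym_acl rel)
open Vale.Agent.P159.H708 (Ac pI Kc)

set_option linter.unusedSectionVars false

noncomputable section

/-! ### scalars -/

lemma scal_inv {τ e g : ℝ} (hτ : 0 < τ) (he : 0 < e) (hg : g ≤ (τ + e)⁻¹) :
    e / (τ + e) ≤ 1 - τ * g := by
  have h1 : τ * g ≤ τ * (τ + e)⁻¹ := mul_le_mul_of_nonneg_left hg hτ.le
  have h2 : e / (τ + e) = 1 - τ * (τ + e)⁻¹ := by
    have : τ + e ≠ 0 := by positivity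
    field_simp
    ring
  linarith

lemma scal_inv' {τ e g : ℝ} (hτ : 0 < τ) (he : 0 < e) (hg : g ≤ (τ + e)⁻¹) :
    (1 - τ * g)⁻¹ ≤ 1 + τ / e := by
  have h1 := scal_inv hτ he hg
  have h2 : 0 < e / (τ + e) := by positivity
  refine (inv_anti₀ h2 h1).trans (le_of_eq ?_)
  field_simp
  ring

/-- the two factors of the ratio -/
lemma scal_ratio {w v a r₁ r₂ : ℝ} (hw : 0 < w) (hwv : w ≤ v) (h₁ : v - w ≤ r₁ * w)
    (ha : 1 ≤ v * a) (ha' : v * a ≤ 1 + r₂) : (w * a - 1) ^ 2 ≤ r₁ ^ 2 + r₂ ^ 2 := by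
  have hv : 0 < v := hw.trans_le hwv
  have ha0 : 0 < a := by
    by_contra hc
    have : v * a ≤ 0 := mul_nonpos_of_nonneg_of_nonpos hv.le (not_lt.1 hc)
    linarith
  have hr2 : 0 ≤ r₂ := by linarith
  have hr1 : 0 ≤ r₁ := by
    by_contra hc
    have := mul_neg_of_neg_of_pos (not_le.1 hc) hw
    linarith
  have hup : w * a - 1 ≤ r₂ := by
    have := mul_le_mul_of_nonneg_right hwv ha0.le
    linarith
  have hlo : -r₁ ≤ w * a - 1 := by
    have h2 := mul_le_mul_of_nonneg_right h₁ ha0.le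
    rcases le_total 1 (w * a) with h3 | h3
    · linarith
    · have h4 : r₁ * (w * a) ≤ r₁ * 1 := mul_le_mul_of_nonneg_left h3 hr1
      have e1 : (v - w) * a = v * a - w * a := by ring
      have e2 : r₁ * w * a = r₁ * (w * a) := by ring
      rw [e1, e2] at h2
      linarith
  rcases le_total 0 (w * a - 1) with h | h
  · have : (w * a - 1) ^ 2 ≤ r₂ ^ 2 := pow_le_pow_left₀ h hup 2
    linarith [pow_two_nonneg r₁]
  · have : (w * a - 1) ^ 2 ≤ r₁ ^ 2 := by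
      rw [← neg_sq]
      exact pow_le_pow_left₀ (by linarith) (by linarith) 2
    linarith [pow_two_nonneg r₂]

/-! ### the symbols -/

section syms

variable {N l ρ : ℕ} [NeZero N] [NeZero (N / l)] [NeZero (N / l / ρ)] [NeZero (N / (l * ρ))]
  {b t τ : ℝ}

/-- the symbol of the neutral form in units of `l² τ` -/
def uc (N l : ℕ) [NeZero N] [NeZero (N / l)] (b t τ : ℝ) (q : V (N / l)) : ℝ :=
  1 - τ * sym (Gnc N l b t τ) q

lemma sym_acl_ne {q : V (N / l)} (hq : q ≠ 0) :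
    sym (acl N l b t τ) q = (l : ℝ) ^ 2 * τ * uc N l b t τ q := by
  rw [sym_acl, if_neg hq]
  unfold uc
  ring

lemma uc_le_one (hb : 0 ≤ b) (hl : l ∣ N) (hτ : 0 < τ) (h : τ ≤ t) (q : V (N / l)) :
    uc N l b t τ q ≤ 1 := by
  have := mul_nonneg hτ.le (H963.sym_Gnc_nonneg hb hl hτ h q)
  unfold uc
  linarith

lemma bare_pos (hb : 0 < b) (hl : l ∣ N) {q : V (N / l)} (hq : q ≠ 0) :
    0 < b⁻¹ / (l : ℝ) ^ 2 * EE q := by
  have hl0 : (0 : ℝ) < l := by exact_mod_cast H864.l_pos hl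
  have := H462.EE_pos hq
  positivity

lemma Gnc_dom' (hb : 0 < b) (hl : l ∣ N) (hτ : 0 < τ) (h : τ ≤ t) (q : V (N / l)) :
    sym (Gnc N l b t τ) q ≤ (τ + b⁻¹ / (l : ℝ) ^ 2 * EE q)⁻¹ :=
  Gnck_dom hb.le hl hτ h (inv_nonneg.2 hb.le) (by rw [mul_inv_cancel₀ hb.ne']) q

lemma uc_ge (hb : 0 < b) (hl : l ∣ N) (hτ : 0 < τ) (h : τ ≤ t) {q : V (N / l)} (hq : q ≠ 0) :
    b⁻¹ / (l : ℝ) ^ 2 * EE q / (τ + b⁻¹ / (l : ℝ) ^ 2 * EE q) ≤ uc N l b t τ q :=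
  scal_inv hτ (bare_pos hb hl hq) (Gnc_dom' hb hl hτ h q)

lemma uc_pos (hb : 0 < b) (hl : l ∣ N) (hτ : 0 < τ) (h : τ ≤ t) {q : V (N / l)} (hq : q ≠ 0) :
    0 < uc N l b t τ q := by
  have h1 := bare_pos hb hl hq
  exact lt_of_lt_of_le (by positivity) (uc_ge hb hl hτ h hq)

lemma uc_inv (hb : 0 < b) (hl : l ∣ N) (hτ : 0 < τ) (h : τ ≤ t) {q : V (N / l)} (hq : q ≠ 0) :
    (uc N l b t τ q)⁻¹ ≤ 1 + τ * b * (l : ℝ) ^ 2 / EE q := by
  refine (scal_inv' hτ (bare_pos hb hl hq) (Gnc_dom' hb hl hτ h q)).trans (le_of_eq ?_)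
  have hl0 : (0 : ℝ) < l := by exact_mod_cast H864.l_pos hl
  have := H462.EE_pos hq
  field_simp

lemma ne_of_rd (hρ : ρ ∣ N / l) {k : V (N / l / ρ)} (hk : k ≠ 0) {q : V (N / l)}
    (hq : (rd q : V (N / l / ρ)) = k) : q ≠ 0 := by
  rintro rfl
  exact hk (hq.symm.trans (H864.rd_zero hρ))

/-- the average of `uc` over the aliases -/
lemma als_uc (hb : 0 ≤ b) (hl : l ∣ N) (hρ : ρ ∣ N / l) (hτ : 0 < τ) (h : τ ≤ t)
    (k : V (N / l / ρ)) :
    als ρ (uc N l b t τ) k = 1 - τ * sym (Gmd N l ρ b t τ) k := by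
  unfold Gmd
  rw [H864.sym_Gc hρ (H963.ti_Gnc hb hl hτ h), ← H864.sum_Wl hρ k]
  unfold H864.als uc
  rw [Finset.mul_sum, ← Finset.sum_sub_distrib]
  refine Finset.sum_congr rfl fun q _ => ?_
  ring

/-- the symbol of the coarse form -/
lemma sym_Ac (hρ : ρ ∣ N / l) {k : V (N / l / ρ)} (hk : k ≠ 0) :
    sym (Ac ρ (acl N l b t τ)) k =
      ((l : ℝ) * ρ) ^ 2 * τ / als ρ (fun q => (uc N l b t τ q)⁻¹) k := by
  unfold Vale.Agent.P159.H708.Ac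
  rw [H708.sym_pI, H708.sym_Kc hρ]
  have e : als ρ (fun q => (sym (acl N l b t τ) q)⁻¹) k =
      ((l : ℝ) ^ 2 * τ)⁻¹ * als ρ (fun q => (uc N l b t τ q)⁻¹) k := by
    unfold H864.als
    rw [Finset.mul_sum]
    refine Finset.sum_congr rfl fun q hq => ?_
    beta_reduce
    rw [sym_acl_ne (ne_of_rd hρ hk (Finset.mem_filter.1 hq).2), mul_inv]
    ring
  rw [e, mul_inv, mul_inv, inv_inv, inv_inv]
  ring

/-- the neutral form of the cells `l ρ` on the torus `N / l / ρ` -/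
def anw (N l ρ : ℕ) [NeZero N] [NeZero (N / l)] [NeZero (N / l / ρ)] [NeZero (N / (l * ρ))]
    (b τ : ℝ) : Matrix (V (N / l / ρ)) (V (N / l / ρ)) ℝ :=
  (acl N (l * ρ) b τ τ).submatrix (tce (Nat.div_div_eq_div_mul N l ρ))
    (tce (Nat.div_div_eq_div_mul N l ρ))

lemma sym_anw {k : V (N / l / ρ)} (hk : k ≠ 0) :
    sym (anw N l ρ b τ) k = ((l : ℝ) * ρ) ^ 2 * τ * (1 - τ * sym (Gnw N l ρ b τ) k) := by
  unfold anw Gnw
  rw [sym_tce, sym_tce, sym_acl_ne (fun h => hk ((tce_eq_zero _).1 h))]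
  unfold uc
  push_cast
  rfl

lemma nf_acl (hb : 0 < b) (hl : l ∣ N) (hτ : 0 < τ) (h : τ ≤ t) : Nf (acl N l b t τ) where
  ti := H363.ti_acl hb.le hl hτ h
  pos := fun k hk => by
    have hl0 : (0 : ℝ) < l := by exact_mod_cast H864.l_pos hl
    have := uc_pos hb hl hτ h hk
    rw [sym_acl_ne hk]
    positivity
  zero := H363.sym_acl_zero hl hb.le hτ h

lemma nf_anw (hb : 0 < b) (hl : l ∣ N) (hρ : ρ ∣ N / l) (hτ : 0 < τ) : Nf (anw N l ρ b τ) where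
  ti := ti_tce _ (H363.ti_acl hb.le (dvd_lr hl hρ) hτ le_rfl)
  pos := fun k hk => by
    unfold anw
    rw [sym_tce]
    exact (nf_acl hb (dvd_lr hl hρ) hτ le_rfl).pos _ fun h => hk ((tce_eq_zero _).1 h)
  zero := by
    unfold anw
    rw [sym_tce, tce_zero]
    exact (nf_acl hb (dvd_lr hl hρ) hτ le_rfl).zero

lemma nf_coarse (hb : 0 < b) (hl : l ∣ N) (hρ : ρ ∣ N / l) (hτ : 0 < τ) (h : τ ≤ t) :
    Nf (Ac ρ (acl N l b t τ)) := H708.nf_Ac hρ (nf_acl hb hl hτ h)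

/-- **one momentum** -/
theorem rel_le (hb : 0 < b) (hl : l ∣ N) (hρ : ρ ∣ N / l) (hτ : 0 < τ) (h : τ ≤ t)
    {D : ℝ} {k : V (N / l / ρ)} (hk : k ≠ 0)
    (h1 : sym (Gmd N l ρ b t τ) k ≤ sym (Gnw N l ρ b τ) k)
    (h2 : sym (Gnw N l ρ b τ) k ≤ sym (Gmd N l ρ b t τ) k +
      D * (τ + b⁻¹ / ((l : ℝ) * ρ) ^ 2 * EE k)⁻¹) :
    rel (anw N l ρ b τ) (Ac ρ (acl N l b t τ)) k ^ 2 ≤
      (D * (τ * b * ((l : ℝ) * ρ) ^ 2 / EE k)) ^ 2 +
        (5 / 4 * (τ * b * ((l : ℝ) * ρ) ^ 2)) ^ 2 := by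
  have hL := dvd_lr hl hρ
  have hl0 : (0 : ℝ) < l := by exact_mod_cast H864.l_pos hl
  have hρ0 : (0 : ℝ) < ρ := by exact_mod_cast H864.l_pos hρ
  have hEk : 0 < EE k := H462.EE_pos hk
  have hk' : tce (Nat.div_div_eq_div_mul N l ρ) k ≠ 0 := fun h => hk ((tce_eq_zero _).1 h)
  set e : ℝ := b⁻¹ / ((l : ℝ) * ρ) ^ 2 * EE k with he
  have he0 : 0 < e := by positivity
  -- the new cells
  have hdom : sym (Gnw N l ρ b τ) k ≤ (τ + e)⁻¹ := by
    have := Gnc_dom' (t := τ) hb hL hτ le_rfl (tce (Nat.div_div_eq_div_mul N l ρ) k)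
    rw [EE_tce] at this
    unfold Gnw
    rw [sym_tce]
    push_cast at this
    exact this
  have hw := scal_inv hτ he0 hdom
  have hw0 : 0 < 1 - τ * sym (Gnw N l ρ b τ) k := lt_of_lt_of_le (by positivity) hw
  -- the middle
  have hv := als_uc hb.le hl hρ hτ h k
  have hwv : 1 - τ * sym (Gnw N l ρ b τ) k ≤ als ρ (uc N l b t τ) k := by
    rw [hv]
    have := mul_le_mul_of_nonneg_left h1 hτ.le
    linarith
  have hD0 : 0 ≤ D := by
    have h3 : 0 ≤ D * (τ + e)⁻¹ := by linarith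
    exact nonneg_of_mul_nonneg_left h3 (by positivity)
  have hvw : als ρ (uc N l b t τ) k - (1 - τ * sym (Gnw N l ρ b τ) k) ≤
      D * (τ / e) * (1 - τ * sym (Gnw N l ρ b τ) k) := by
    rw [hv]
    have h3 := mul_le_mul_of_nonneg_left h2 hτ.le
    have h4 : D * (τ / e) * (e / (τ + e)) ≤ D * (τ / e) * (1 - τ * sym (Gnw N l ρ b τ) k) :=
      mul_le_mul_of_nonneg_left hw (by positivity)
    have h5 : D * (τ / e) * (e / (τ + e)) = τ * (D * (τ + e)⁻¹) := by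
      field_simp
    rw [h5] at h4
    rw [mul_add] at h3
    linarith
  have ham := am_hm hρ (u := uc N l b t τ) (k := k) (fun q hq => uc_pos hb hl hτ h (ne_of_rd hρ hk hq))
    (fun q _ => uc_le_one hb.le hl hτ h q) (B := τ * b * (l : ℝ) ^ 2) (by positivity)
    (fun q hq => H462.EE_pos (ne_of_rd hρ hk hq)) (fun q hq => uc_inv hb hl hτ h (ne_of_rd hρ hk hq))
  have hhm := hm_le_am hρ (u := uc N l b t τ) (k := k)
    (fun q hq => uc_pos hb hl hτ h (ne_of_rd hρ hk hq))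
  have key := scal_ratio hw0 hwv hvw hhm ham
  have hals : 0 < als ρ (fun q => (uc N l b t τ q)⁻¹) k := by
    by_contra hc
    have h3 : 0 < als ρ (uc N l b t τ) k := hw0.trans_le hwv
    have := mul_nonpos_of_nonneg_of_nonpos h3.le (not_lt.1 hc)
    linarith
  have hrel : rel (anw N l ρ b τ) (Ac ρ (acl N l b t τ)) k =
      (1 - τ * sym (Gnw N l ρ b τ) k) * als ρ (fun q => (uc N l b t τ q)⁻¹) k - 1 := by
    unfold Vale.Agent.P159.H363.rel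
    rw [if_neg hk, sym_anw hk, sym_Ac hρ hk]
    field_simp
  rw [hrel]
  refine key.trans (le_of_eq ?_)
  have e1 : D * (τ / e) = D * (τ * b * ((l : ℝ) * ρ) ^ 2 / EE k) := by
    rw [he]
    field_simp
  rw [e1]
  ring

end syms

/-- sum of the inverse squares of the bare symbol -/
lemma sum_EE_inv_sq (n : ℕ) [NeZero n] :
    ∑ k ∈ univ.filter (fun k : V n => k ≠ 0), (EE k ^ 2)⁻¹ ≤ 5 / 4 * (n : ℝ) ^ 4 := by
  have hn : (0 : ℝ) < n := by exact_mod_cast NeZero.pos n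
  have h := H462.sum_high (N := n) (ν := 16 / (n : ℝ) ^ 2) (by positivity)
  refine (Finset.sum_le_sum_of_subset_of_nonneg ?_ fun k _ _ => by positivity).trans
    (h.trans (le_of_eq ?_))
  · intro k hk
    rw [Finset.mem_filter] at hk ⊢
    exact ⟨hk.1, H462.EE_gap hk.2⟩
  · field_simp
    ring

/-- **THE AL RATIO** -/
theorem rel_ratio {b : ℝ} (hb : 0 < b) : ∃ C c : ℝ, 0 < C ∧ 0 < c ∧
    ∀ (N : ℕ) [NeZero N] (t τ : ℝ), 0 < τ → τ ≤ t → 9 ≤ t * (N : ℝ) ^ 2 →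
    ∀ (l ρ : ℕ) [NeZero (N / l)] [NeZero (N / l / ρ)] [NeZero (N / (l * ρ))], l ∣ N → ρ ∣ N / l →
      t * (l : ℝ) ^ 2 ≤ 1 →
      ∑ k, rel (anw N l ρ b τ) (Ac ρ (acl N l b t τ)) k ^ 2 ≤
        C * ((τ * (N : ℝ) ^ 2) ^ 2 * (t * (N : ℝ) ^ 2) * (t * (l : ℝ) ^ 2) ^ c +
          (τ * (N : ℝ) ^ 2) * (τ * ((l : ℝ) * ρ) ^ 2)) := by
  obtain ⟨C, c, hC, hc, hU⟩ := sym_cmp hb
  refine ⟨(5 / 4 * C ^ 2 + 25 / 16) * b ^ 2, 2 * c, by positivity, by positivity, ?_⟩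
  intro N _ t τ hτ hτt htN l ρ _ _ _ hl hρ htl
  have ht : 0 < t := hτ.trans_le hτt
  have hN0 : (0 : ℝ) < N := by exact_mod_cast NeZero.pos N
  have hl0 : (0 : ℝ) < l := by exact_mod_cast H864.l_pos hl
  have hρ0 : (0 : ℝ) < ρ := by exact_mod_cast H864.l_pos hρ
  have hn0 : (0 : ℝ) < ((N / l / ρ : ℕ) : ℝ) := by exact_mod_cast NeZero.pos (N / l / ρ)
  have hNn : ((N / l / ρ : ℕ) : ℝ) * ((l : ℝ) * ρ) = N := by
    have h1 := H864.Nl hl
    have h2 := H864.Nl hρ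
    rw [← h1, ← h2]
    ring
  set n : ℝ := ((N / l / ρ : ℕ) : ℝ) with hn
  set D : ℝ := C * (√(t * (N : ℝ) ^ 2) * (t * (l : ℝ) ^ 2) ^ c) with hD
  set L : ℝ := (l : ℝ) * ρ with hLdef
  have hL0 : 0 < L := by positivity
  have h1 : ∀ k : V (N / l / ρ), rel (anw N l ρ b τ) (Ac ρ (acl N l b t τ)) k ^ 2 ≤
      (if k ≠ 0 then (D * (τ * b * L ^ 2)) ^ 2 * (EE k ^ 2)⁻¹ else 0) +
        (5 / 4 * (τ * b * L ^ 2)) ^ 2 := by
    intro k
    by_cases hk : k = 0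
    · have : rel (anw N l ρ b τ) (Ac ρ (acl N l b t τ)) k = 0 := by
        unfold Vale.Agent.P159.H363.rel
        rw [if_pos hk]
      rw [this, if_neg (not_not.2 hk), zero_pow (by norm_num), zero_add]
      exact pow_two_nonneg _
    · rw [if_pos hk]
      obtain ⟨h2, h3⟩ := hU N t τ hτ hτt htN l ρ hl hρ htl k hk
      refine (rel_le hb hl hρ hτ hτt hk h2 h3).trans (le_of_eq ?_)
      rw [← hLdef, mul_pow D, mul_pow D, div_pow]
      ring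
  refine (Finset.sum_le_sum fun k _ => h1 k).trans ?_
  rw [Finset.sum_add_distrib, ← Finset.sum_filter, ← Finset.mul_sum, Finset.sum_const,
    Finset.card_univ, nsmul_eq_mul, TM.H764.card_V, ← hn]
  have h4 : (D * (τ * b * L ^ 2)) ^ 2 *
      ∑ k ∈ univ.filter (fun k : V (N / l / ρ) => k ≠ 0), (EE k ^ 2)⁻¹ ≤
      (D * (τ * b * L ^ 2)) ^ 2 * (5 / 4 * n ^ 4) :=
    mul_le_mul_of_nonneg_left (sum_EE_inv_sq _) (by positivity)
  have hx : 0 ≤ t * (l : ℝ) ^ 2 := by positivity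
  have hD2 : D ^ 2 = C ^ 2 * (t * (N : ℝ) ^ 2) * (t * (l : ℝ) ^ 2) ^ (2 * c) := by
    rw [hD, mul_pow, mul_pow, Real.sq_sqrt (by positivity), mul_comm 2 c, Real.rpow_mul hx,
      ← Real.rpow_natCast ((t * (l : ℝ) ^ 2) ^ c) 2]
    push_cast
    ring
  have h5 : (D * (τ * b * L ^ 2)) ^ 2 * (5 / 4 * n ^ 4) =
      5 / 4 * C ^ 2 * b ^ 2 * ((τ * (N : ℝ) ^ 2) ^ 2 * (t * (N : ℝ) ^ 2) *
        (t * (l : ℝ) ^ 2) ^ (2 * c)) := by
    have e1 : (D * (τ * b * L ^ 2)) ^ 2 * (5 / 4 * n ^ 4) =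
        5 / 4 * b ^ 2 * D ^ 2 * (τ * (n * L) ^ 2) ^ 2 := by ring
    rw [e1, hD2, hNn]
    ring
  have h6 : n ^ 2 * (5 / 4 * (τ * b * L ^ 2)) ^ 2 =
      25 / 16 * b ^ 2 * ((τ * (N : ℝ) ^ 2) * (τ * L ^ 2)) := by
    have e1 : n ^ 2 * (5 / 4 * (τ * b * L ^ 2)) ^ 2 =
        25 / 16 * b ^ 2 * ((τ * (n * L) ^ 2) * (τ * L ^ 2)) := by ring
    rw [e1, hNn]
  rw [h5] at h4
  rw [h6]
  set X : ℝ := (τ * (N : ℝ) ^ 2) ^ 2 * (t * (N : ℝ) ^ 2) * (t * (l : ℝ) ^ 2) ^ (2 * c) with hX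
  set Y : ℝ := (τ * (N : ℝ) ^ 2) * (τ * L ^ 2) with hY
  have hX0 : 0 ≤ X := by positivity
  have hY0 : 0 ≤ Y := by positivity
  have h7 : 0 ≤ 25 / 16 * b ^ 2 * X := by positivity
  have h8 : 0 ≤ 5 / 4 * C ^ 2 * b ^ 2 * Y := by positivity
  nlinarith

/-! ### the inverse ratio -/

/-- the relative difference in the other order -/
theorem rel_swap {n : ℕ} [NeZero n] {A₁ A₂ : Matrix (V n) (V n) ℝ} (h₁ : Nf A₁) (h₂ : Nf A₂)
    {k : V n} (h : rel A₁ A₂ k ^ 2 ≤ 1 / 4) : rel A₂ A₁ k ^ 2 ≤ 4 * rel A₁ A₂ k ^ 2 := by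
  by_cases hk : k = 0
  · have e : rel A₂ A₁ k = 0 := by
      unfold Vale.Agent.P159.H363.rel
      rw [if_pos hk]
    rw [e]
    have := pow_two_nonneg (rel A₁ A₂ k)
    linarith
  · have p1 := h₁.pos k hk
    have p2 := h₂.pos k hk
    have e1 : rel A₂ A₁ k = -(rel A₁ A₂ k) * (sym A₂ k / sym A₁ k) := by
      unfold Vale.Agent.P159.H363.rel
      rw [if_neg hk, if_neg hk]
      field_simp
      ring
    have e2 : sym A₁ k / sym A₂ k = 1 + rel A₁ A₂ k := by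
      unfold Vale.Agent.P159.H363.rel
      rw [if_neg hk]
      ring
    have h3 : -(1 / 2) ≤ rel A₁ A₂ k := by nlinarith
    have h4 : 1 / 2 ≤ sym A₁ k / sym A₂ k := by rw [e2]; linarith
    have h5 : sym A₂ k / sym A₁ k ≤ 2 := by
      rw [div_le_iff₀ p1]
      rw [le_div_iff₀ p2] at h4
      linarith
    have h6 : 0 ≤ sym A₂ k / sym A₁ k := by positivity
    have h7 : (sym A₂ k / sym A₁ k) ^ 2 ≤ 4 := by nlinarith
    rw [e1, mul_pow, neg_sq, mul_comm]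
    exact mul_le_mul_of_nonneg_right h7 (pow_two_nonneg _)

theorem sum_rel_swap {n : ℕ} [NeZero n] {A₁ A₂ : Matrix (V n) (V n) ℝ} (h₁ : Nf A₁) (h₂ : Nf A₂)
    (h : ∑ k, rel A₁ A₂ k ^ 2 ≤ 1 / 4) :
    ∑ k, rel A₂ A₁ k ^ 2 ≤ 4 * ∑ k, rel A₁ A₂ k ^ 2 := by
  rw [Finset.mul_sum]
  refine Finset.sum_le_sum fun k _ => rel_swap h₁ h₂ (le_trans ?_ h)
  exact Finset.single_le_sum (f := fun k => rel A₁ A₂ k ^ 2) (fun _ _ => pow_two_nonneg _)
    (Finset.mem_univ k)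

end

end Vale.Agent.P159.H340
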