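import Vale.Agent.P159.H340.Kl0
import Vale.Agent.P159.H864.Fou1

/-!
P159, module K_l (helper340), part 2: exponential decay of `Rl`, `Kl`, and the ferromagnetic mass
matrix `Ml t t' s = t - (t - t') Kl s` together with the channel `Pl`.
-/

set_option linter.unusedSectionVars false

namespace Vale.Agent.P159.H340

open Finset Matrix
open Vale.Agent.P159.TM.H764 (Gh cN sN dt ch EE frm grd)
open Vale.Agent.P159.TM.Spec (V)
open Vale.Agent.P159.H37 (qf bf)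
open Vale.Agent.P159.H864

noncomputable section

variable {N : ℕ} [NeZero N] {s : ℝ}

/-! ### supersolutions -/

lemma mulVec_TI (A : Matrix (V N) (V N) ℝ) (f : V N → ℝ) (x : V N) :
    (A *ᵥ f) x = ∑ y, A x y * f y := rfl

lemma Rl_mono (hs : 0 ≤ s) {f g : V N → ℝ} (h : ∀ x, f x ≤ g x) (x : V N) :
    (Rl s *ᵥ f) x ≤ (Rl s *ᵥ g) x := by
  rw [mulVec_TI, mulVec_TI]
  exact Finset.sum_le_sum fun y _ => mul_le_mul_of_nonneg_left (h y) (Rl_nonneg hs x y)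

/-- a supersolution bounds the resolvent -/
lemma Rl_super (hs : 0 ≤ s) {c : ℝ} {w : V N → ℝ}
    (h : ∀ x, c * w x ≤ w x + s * (lapM *ᵥ w) x) (x : V N) : c * (Rl s *ᵥ w) x ≤ w x := by
  have h1 : 0 ≤ (w - c • (Rl s *ᵥ w)) x := by
    refine max_pr hs (fun y => ?_) x
    rw [Matrix.mulVec_sub, Matrix.mulVec_smul, Pi.sub_apply, Pi.sub_apply, Pi.smul_apply,
      Pi.smul_apply, smul_eq_mul, smul_eq_mul]
    have h2 := Rl_eqn hs w y
    have h3 := h y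
    have h4 : w y - c * (Rl s *ᵥ w) y + s * ((lapM *ᵥ w) y - c * (lapM *ᵥ (Rl s *ᵥ w)) y) =
        w y + s * (lapM *ᵥ w) y - c * ((Rl s *ᵥ w) y + s * (lapM *ᵥ (Rl s *ᵥ w)) y) := by ring
    rw [h4, h2]
    linarith
  rw [Pi.sub_apply, Pi.smul_apply, smul_eq_mul] at h1
  linarith

lemma Kl_super (hs : 0 ≤ s) {c : ℝ} (hc : 0 ≤ c) {w : V N → ℝ}
    (h : ∀ x, c * w x ≤ w x + s * (lapM *ᵥ w) x) (x : V N) : c ^ 2 * (Kl s *ᵥ w) x ≤ w x := by
  have h1 := Rl_super hs h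
  have h2 : (Rl s *ᵥ (c • (Rl s *ᵥ w))) x ≤ (Rl s *ᵥ w) x :=
    Rl_mono hs (fun y => by rw [Pi.smul_apply, smul_eq_mul]; exact h1 y) x
  rw [Matrix.mulVec_smul, Pi.smul_apply, smul_eq_mul] at h2
  rw [Kl_mulVec]
  calc c ^ 2 * (Rl s *ᵥ (Rl s *ᵥ w)) x = c * (c * (Rl s *ᵥ (Rl s *ᵥ w)) x) := by ring
    _ ≤ c * (Rl s *ᵥ w) x := mul_le_mul_of_nonneg_left h2 hc
    _ ≤ w x := h1 x

/-! ### the weight -/

lemma vma_le (m : ℤ) : |(((m : ZMod N).valMinAbs : ℤ) : ℝ)| ≤ |(m : ℝ)| := by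
  have h := ZMod.natAbs_min_of_le_div_two N ((m : ZMod N).valMinAbs) m
    (ZMod.coe_valMinAbs _) (ZMod.natAbs_valMinAbs_le _)
  have h1 : (((m : ZMod N).valMinAbs.natAbs : ℕ) : ℝ) ≤ ((m.natAbs : ℕ) : ℝ) := by exact_mod_cast h
  rwa [Nat.cast_natAbs, Nat.cast_natAbs, Int.cast_abs, Int.cast_abs] at h1

/-- `cosh (a |z|)` on `ZMod N` -/
def cW (a : ℝ) (z : ZMod N) : ℝ := Real.cosh (a * (z.valMinAbs : ℝ))

lemma cW_pos (a : ℝ) (z : ZMod N) : 0 < cW a z := Real.cosh_pos _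

lemma one_le_cW (a : ℝ) (z : ZMod N) : 1 ≤ cW a z := Real.one_le_cosh _

lemma cW_zero (a : ℝ) : cW a (0 : ZMod N) = 1 := by
  unfold cW; simp

lemma cW_int (a : ℝ) (m : ℤ) : cW a (m : ZMod N) ≤ Real.cosh (a * m) := by
  unfold cW
  rw [Real.cosh_le_cosh, abs_mul, abs_mul]
  exact mul_le_mul_of_nonneg_left (vma_le m) (abs_nonneg a)

lemma cW_step (a : ℝ) (z : ZMod N) : cW a (z + 1) + cW a (z - 1) ≤ 2 * Real.cosh a * cW a z := by
  have h1 : z + 1 = ((z.valMinAbs + 1 : ℤ) : ZMod N) := by simp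
  have h2 : z - 1 = ((z.valMinAbs - 1 : ℤ) : ZMod N) := by simp
  have h3 := cW_int (N := N) a (z.valMinAbs + 1)
  have h4 := cW_int (N := N) a (z.valMinAbs - 1)
  rw [← h1] at h3
  rw [← h2] at h4
  refine (add_le_add h3 h4).trans (le_of_eq ?_)
  unfold cW
  push_cast
  rw [mul_add, mul_sub, mul_one, Real.cosh_add, Real.cosh_sub]
  ring

/-- submultiplicativity -/
lemma cW_add_le (a : ℝ) (y z : ZMod N) : cW a (y + z) ≤ 2 * (cW a y * cW a z) := by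
  have h1 : y + z = ((y.valMinAbs + z.valMinAbs : ℤ) : ZMod N) := by simp
  have h3 := cW_int (N := N) a (y.valMinAbs + z.valMinAbs)
  rw [← h1] at h3
  refine h3.trans ?_
  unfold cW
  push_cast
  rw [mul_add, Real.cosh_add]
  obtain ⟨p, hp⟩ : ∃ p, p = a * (y.valMinAbs : ℝ) := ⟨_, rfl⟩
  obtain ⟨q, hq⟩ : ∃ q, q = a * (z.valMinAbs : ℝ) := ⟨_, rfl⟩
  rw [← hp, ← hq]
  have h5 : 0 < Real.cosh (p - q) := Real.cosh_pos _
  rw [Real.cosh_sub] at h5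
  linarith

lemma exp_le_cW {a : ℝ} (ha : 0 ≤ a) (z : ZMod N) :
    Real.exp (a * |(z.valMinAbs : ℝ)|) / 2 ≤ cW a z := by
  unfold cW
  rw [← Real.cosh_abs, abs_mul, abs_of_nonneg ha, Real.cosh_eq]
  have := Real.exp_pos (-(a * |(z.valMinAbs : ℝ)|))
  linarith

lemma cW_le_exp {a : ℝ} (ha : 0 ≤ a) (z : ZMod N) :
    cW a z ≤ Real.exp (a * |(z.valMinAbs : ℝ)|) := by
  unfold cW
  rw [← Real.cosh_abs, abs_mul, abs_of_nonneg ha, Real.cosh_eq]
  have h : 0 ≤ a * |(z.valMinAbs : ℝ)| := mul_nonneg ha (abs_nonneg _)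
  have h1 : Real.exp (-(a * |(z.valMinAbs : ℝ)|)) ≤ Real.exp (a * |(z.valMinAbs : ℝ)|) :=
    Real.exp_le_exp.2 (by linarith)
  linarith

/-- the weight on the torus -/
def WW (a : ℝ) (x : V N) : ℝ := cW a x.1 * cW a x.2

lemma WW_pos (a : ℝ) (x : V N) : 0 < WW a x := mul_pos (cW_pos a _) (cW_pos a _)

lemma one_le_WW (a : ℝ) (x : V N) : 1 ≤ WW a x := by
  unfold WW
  have h1 := one_le_cW a x.1
  have h2 := one_le_cW a x.2
  nlinarith

lemma WW_zero (a : ℝ) : WW a (0 : V N) = 1 := by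
  unfold WW
  simp [cW_zero]

lemma WW_neg (a : ℝ) (x : V N) : WW a (-x) = WW a x := by
  have h : ∀ z : ZMod N, cW a (-z) = cW a z := by
    intro z
    apply le_antisymm
    · have h1 : -z = ((-z.valMinAbs : ℤ) : ZMod N) := by simp
      have h2 := cW_int (N := N) a (-z.valMinAbs)
      rw [← h1] at h2
      refine h2.trans (le_of_eq ?_)
      unfold cW
      push_cast
      rw [mul_neg, Real.cosh_neg]
    · have h1 : z = ((-((-z).valMinAbs) : ℤ) : ZMod N) := by simp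
      have h2 := cW_int (N := N) a (-((-z).valMinAbs))
      rw [← h1] at h2
      refine h2.trans (le_of_eq ?_)
      unfold cW
      push_cast
      rw [mul_neg, Real.cosh_neg]
  unfold WW
  rw [Prod.fst_neg, Prod.snd_neg, h, h]

lemma WW_add_le (a : ℝ) (x y : V N) : WW a (x + y) ≤ 4 * (WW a x * WW a y) := by
  unfold WW
  have h1 := cW_add_le a x.1 y.1
  have h2 := cW_add_le a x.2 y.2
  have h3 := mul_le_mul h1 h2 (cW_pos a _).le
    (by have := mul_pos (cW_pos a x.1) (cW_pos a y.1); linarith)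
  rw [Prod.fst_add, Prod.snd_add]
  refine h3.trans (le_of_eq ?_)
  ring

/-- `exp (a (|x₁| + |x₂|)) / 4 ≤ W x` -/
lemma exp_le_WW {a : ℝ} (ha : 0 ≤ a) (x : V N) :
    Real.exp (a * (|(x.1.valMinAbs : ℝ)| + |(x.2.valMinAbs : ℝ)|)) / 4 ≤ WW a x := by
  have h1 := exp_le_cW ha x.1
  have h2 := exp_le_cW ha x.2
  unfold WW
  refine le_trans (le_of_eq ?_) (mul_le_mul h1 h2 (by positivity) (cW_pos a _).le)
  rw [mul_add, Real.exp_add]
  ring

lemma WW_le_exp {a : ℝ} (ha : 0 ≤ a) (x : V N) :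
    WW a x ≤ Real.exp (a * (|(x.1.valMinAbs : ℝ)| + |(x.2.valMinAbs : ℝ)|)) := by
  unfold WW
  refine (mul_le_mul (cW_le_exp ha x.1) (cW_le_exp ha x.2) (cW_pos a _).le
    (Real.exp_pos _).le).trans (le_of_eq ?_)
  rw [mul_add, Real.exp_add]

lemma lapM_WW (a : ℝ) (x : V N) : -(4 * (Real.cosh a - 1)) * WW a x ≤ (lapM *ᵥ WW a) x := by
  rw [lapM_mulVec]
  unfold WW
  simp only [Prod.fst_add, Prod.snd_add, Prod.fst_sub, Prod.snd_sub, add_zero, sub_zero]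
  have h1 := cW_step a x.1
  have h2 := cW_step a x.2
  have h3 := mul_le_mul_of_nonneg_right h1 (cW_pos a x.2).le
  have h4 := mul_le_mul_of_nonneg_left h2 (cW_pos a x.1).le
  linarith

lemma WW_super (hs : 0 ≤ s) {a c : ℝ} (hc : c ≤ 1 - 4 * s * (Real.cosh a - 1)) (x : V N) :
    c * WW a x ≤ WW a x + s * (lapM *ᵥ WW a) x := by
  have h1 := mul_le_mul_of_nonneg_left (lapM_WW a x) hs
  have h2 := mul_le_mul_of_nonneg_right hc (WW_pos a x).le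
  linarith

lemma Rl_WW (hs : 0 ≤ s) {a c : ℝ} (hc : c ≤ 1 - 4 * s * (Real.cosh a - 1)) (x : V N) :
    c * (Rl s *ᵥ WW a) x ≤ WW a x := Rl_super hs (WW_super hs hc) x

lemma Kl_WW (hs : 0 ≤ s) {a c : ℝ} (hc0 : 0 ≤ c) (hc : c ≤ 1 - 4 * s * (Real.cosh a - 1))
    (x : V N) : c ^ 2 * (Kl s *ᵥ WW a) x ≤ WW a x := Kl_super hs hc0 (WW_super hs hc) x

lemma num_cosh {l : ℝ} (hl : 1 ≤ l) :
    (1 / 3 : ℝ) ≤ 1 - 4 * l ^ 2 * (Real.cosh (1 / (2 * l)) - 1) := by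
  have hl0 : 0 < l := by linarith
  have h1 : Real.cosh (1 / (2 * l)) ≤ Real.exp ((1 / (2 * l)) ^ 2 / 2) := Real.cosh_le_exp_half_sq _
  obtain ⟨y, hy⟩ : ∃ y, y = (1 / (2 * l)) ^ 2 / 2 := ⟨_, rfl⟩
  have hy1 : y * (8 * l ^ 2) = 1 := by
    rw [hy]; field_simp; ring
  have hy0 : 0 < y := by rw [hy]; positivity
  have hl2 : 1 ≤ l ^ 2 := one_le_pow₀ hl
  have hy2 : y ≤ 1 / 8 := by nlinarith
  rw [← hy] at h1
  have h2 := Real.abs_exp_sub_one_sub_id_le (x := y) (by rw [abs_of_pos hy0]; linarith)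
  have h3 := (abs_le.1 h2).2
  have h4 : Real.cosh (1 / (2 * l)) - 1 ≤ y + y ^ 2 := by linarith
  have h5 : 4 * l ^ 2 * (Real.cosh (1 / (2 * l)) - 1) ≤ 4 * l ^ 2 * (y + y ^ 2) :=
    mul_le_mul_of_nonneg_left h4 (by positivity)
  have h6 : 4 * l ^ 2 * (y + y ^ 2) = (1 + y) / 2 := by
    have : 4 * l ^ 2 * (y + y ^ 2) = (y * (8 * l ^ 2)) * (1 + y) / 2 := by ring
    rw [this, hy1, one_mul]
  rw [h6] at h5
  linarith

/-- **decay of the resolvent** -/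
theorem Rl_decay {l : ℝ} (hl : 1 ≤ l) (x : V N) :
    ∑ y, Rl (l ^ 2) x y * WW (1 / (2 * l)) (y - x) ≤ 3 := by
  have h1 := Rl_WW (N := N) (s := l ^ 2) (by positivity) (num_cosh hl) 0
  rw [WW_zero, mulVec_TI] at h1
  have h2 : ∑ y : V N, Rl (l ^ 2) x y * WW (1 / (2 * l)) (y - x) =
      ∑ y : V N, Rl (l ^ 2) 0 y * WW (1 / (2 * l)) y := by
    rw [← Equiv.sum_comp (Equiv.addRight x)]
    refine Finset.sum_congr rfl fun y _ => ?_
    simp only [Equiv.coe_addRight]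
    rw [(ti_Rl _).eq x, add_sub_cancel_right]
  rw [h2]
  linarith

/-- **decay of the low pass** -/
theorem Kl_decay {l : ℝ} (hl : 1 ≤ l) (x : V N) :
    ∑ y, Kl (l ^ 2) x y * WW (1 / (2 * l)) (y - x) ≤ 9 := by
  have h1 := Kl_WW (N := N) (s := l ^ 2) (by positivity) (by norm_num : (0 : ℝ) ≤ 1 / 3)
    (num_cosh hl) 0
  rw [WW_zero, mulVec_TI] at h1
  have h2 : ∑ y, Kl (l ^ 2) x y * WW (1 / (2 * l)) (y - x) =
      ∑ y : V N, Kl (l ^ 2) 0 y * WW (1 / (2 * l)) y := by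
    rw [← Equiv.sum_comp (Equiv.addRight x)]
    refine Finset.sum_congr rfl fun y _ => ?_
    simp only [Equiv.coe_addRight]
    rw [(ti_Kl _).eq x, add_sub_cancel_right]
  rw [h2]
  linarith

/-- pointwise decay -/
theorem Rl_pt {l : ℝ} (hl : 1 ≤ l) (x y : V N) :
    Rl (l ^ 2) x y * WW (1 / (2 * l)) (y - x) ≤ 3 :=
  le_trans (Finset.single_le_sum (f := fun y => Rl (l ^ 2) x y * WW (1 / (2 * l)) (y - x))
    (fun z _ => mul_nonneg (Rl_nonneg (by positivity) _ _) (WW_pos _ _).le) (mem_univ y))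
    (Rl_decay hl x)

theorem Kl_pt {l : ℝ} (hl : 1 ≤ l) (x y : V N) :
    Kl (l ^ 2) x y * WW (1 / (2 * l)) (y - x) ≤ 9 :=
  le_trans (Finset.single_le_sum (f := fun y => Kl (l ^ 2) x y * WW (1 / (2 * l)) (y - x))
    (fun z _ => mul_nonneg (Kl_nonneg (by positivity) _ _) (WW_pos _ _).le) (mem_univ y))
    (Kl_decay hl x)

/-- tail mass outside a set on which `W` is large -/
theorem Kl_tail {l : ℝ} (hl : 1 ≤ l) (x : V N) (S : Finset (V N)) {w : ℝ} (hw : 0 < w)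
    (hS : ∀ y ∈ S, w ≤ WW (1 / (2 * l)) (y - x)) : ∑ y ∈ S, Kl (l ^ 2) x y ≤ 9 / w := by
  rw [le_div_iff₀ hw, Finset.sum_mul]
  refine le_trans (Finset.sum_le_sum fun y hy => mul_le_mul_of_nonneg_left (hS y hy)
    (Kl_nonneg (by positivity) x y)) ?_
  refine le_trans (Finset.sum_le_univ_sum_of_nonneg fun y => mul_nonneg
    (Kl_nonneg (by positivity) x y) (WW_pos _ _).le) (Kl_decay hl x)

/-! ### the ferromagnetic mass matrix -/

/-- `t - (t - t') Kl s` -/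
def Ml (t t' s : ℝ) : Matrix (V N) (V N) ℝ :=
  t • (1 : Matrix (V N) (V N) ℝ) - (t - t') • Kl s

variable {t t' : ℝ}

lemma ti_Ml (t t' s : ℝ) : TI (Ml (N := N) t t' s) :=
  (TI.one.smul _).sub ((ti_Kl s).smul _)

lemma sym_Ml (t t' s : ℝ) (k : V N) : sym (Ml t t' s) k = t - (t - t') * sym (Kl s) k := by
  unfold Ml
  rw [sym_sub, sym_smul_one, sym_smul]

lemma Ml_offdiag (hs : 0 ≤ s) (h : t' ≤ t) {x y : V N} (hxy : x ≠ y) : Ml t t' s x y ≤ 0 := by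
  unfold Ml
  simp only [Matrix.sub_apply, Matrix.smul_apply, Matrix.one_apply, if_neg hxy, mul_zero,
    smul_eq_mul, zero_sub, neg_nonpos]
  exact mul_nonneg (by linarith) (Kl_nonneg hs x y)

lemma Ml_row (t t' s : ℝ) (x : V N) : ∑ y, Ml t t' s x y = t' := by
  rw [row_sum (ti_Ml t t' s), sym_Ml, ← row_sum (ti_Kl s) x, Kl_row]
  ring

lemma Ml_diag_le (hs : 0 ≤ s) (h : t' ≤ t) (x : V N) : Ml t t' s x x ≤ t := by
  unfold Ml
  simp only [Matrix.sub_apply, Matrix.smul_apply, Matrix.one_apply_eq, smul_eq_mul, mul_one]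
  have := mul_nonneg (by linarith : 0 ≤ t - t') (Kl_nonneg hs x x)
  linarith

lemma le_Ml_diag (hs : 0 ≤ s) (h : t' ≤ t) (x : V N) : t' ≤ Ml t t' s x x := by
  unfold Ml
  simp only [Matrix.sub_apply, Matrix.smul_apply, Matrix.one_apply_eq, smul_eq_mul, mul_one]
  have := mul_le_mul_of_nonneg_left (Kl_le_one_entry hs x x) (by linarith : 0 ≤ t - t')
  linarith

lemma le_sym_Ml (hs : 0 ≤ s) (h : t' ≤ t) (k : V N) : t' ≤ sym (Ml t t' s) k := by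
  rw [sym_Ml]
  have := mul_le_mul_of_nonneg_left (sym_Kl_le hs k) (by linarith : 0 ≤ t - t')
  linarith

lemma sym_Ml_le (hs : 0 ≤ s) (h : t' ≤ t) (k : V N) : sym (Ml t t' s) k ≤ t := by
  rw [sym_Ml]
  have := mul_nonneg (by linarith : 0 ≤ t - t') (sym_Kl_pos hs k).le
  linarith

lemma sym_Ml_le_EE (hs : 0 ≤ s) (h : t' ≤ t) (k : V N) :
    sym (Ml t t' s) k ≤ t' + 2 * (t - t') * s * EE k := by
  rw [sym_Ml]
  have := mul_le_mul_of_nonneg_left (one_sub_sym_Kl hs k) (by linarith : 0 ≤ t - t')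
  linarith

/-- monotone in `t'` -/
lemma sym_Ml_mono (hs : 0 ≤ s) {t'' : ℝ} (h : t'' ≤ t') (t : ℝ) (k : V N) :
    sym (Ml t t'' s) k ≤ sym (Ml t t' s) k := by
  rw [sym_Ml, sym_Ml]
  have := mul_le_mul_of_nonneg_right h (sym_Kl_pos hs k).le
  linarith

lemma qf_smul_one (c : ℝ) (u : V N → ℝ) :
    qf (c • (1 : Matrix (V N) (V N) ℝ)) u = c * ∑ x, u x ^ 2 := by
  rw [← qf_one]
  unfold qf
  simp only [Matrix.smul_apply, smul_eq_mul, Finset.mul_sum]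
  exact Finset.sum_congr rfl fun x _ => Finset.sum_congr rfl fun y _ => by ring

lemma qf_smul (c : ℝ) (A : Matrix (V N) (V N) ℝ) (u : V N → ℝ) : qf (c • A) u = c * qf A u := by
  unfold qf
  simp only [Matrix.smul_apply, smul_eq_mul, Finset.mul_sum]
  exact Finset.sum_congr rfl fun x _ => Finset.sum_congr rfl fun y _ => by ring

lemma le_qf_Ml (hs : 0 ≤ s) (h : t' ≤ t) (u : V N → ℝ) : t' * ∑ x, u x ^ 2 ≤ qf (Ml t t' s) u := by
  rw [← qf_smul_one]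
  exact (qf_le_iff (TI.one.smul _) (ti_Ml _ _ _)).2
    (fun k => by rw [sym_smul_one]; exact le_sym_Ml hs h k) u

lemma qf_Ml_le (hs : 0 ≤ s) (h : t' ≤ t) (u : V N → ℝ) : qf (Ml t t' s) u ≤ t * ∑ x, u x ^ 2 := by
  rw [← qf_smul_one]
  exact (qf_le_iff (ti_Ml _ _ _) (TI.one.smul _)).2
    (fun k => by rw [sym_smul_one]; exact sym_Ml_le hs h k) u

lemma qf_add_mat (A B : Matrix (V N) (V N) ℝ) (u : V N → ℝ) : qf (A + B) u = qf A u + qf B u := by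
  unfold qf
  simp only [Matrix.add_apply, mul_add, add_mul, Finset.sum_add_distrib]

lemma qf_Ml_le_grd (hs : 0 ≤ s) (h : t' ≤ t) (u : V N → ℝ) :
    qf (Ml t t' s) u ≤ t' * (∑ x, u x ^ 2) + 2 * (t - t') * s * grd u := by
  have h1 := (qf_le_iff (ti_Ml t t' s) ((TI.one.smul t').add (ti_lapM.smul (2 * (t - t') * s)))).2
    (fun k => by
      rw [sym_add, sym_smul_one, sym_smul, sym_lapM]
      exact sym_Ml_le_EE hs h k) u
  rw [qf_add_mat, qf_smul_one, qf_smul, qf_lapM] at h1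
  exact h1

lemma qf_Ml_mono (hs : 0 ≤ s) {t'' : ℝ} (h : t'' ≤ t') (t : ℝ) (u : V N → ℝ) :
    qf (Ml t t'' s) u ≤ qf (Ml t t' s) u :=
  (qf_le_iff (ti_Ml _ _ _) (ti_Ml _ _ _)).2 (sym_Ml_mono hs h t) u

/-! ### the channel -/

/-- the observation matrix: `Plᵀ Pl = (t - t') Kl s` -/
def Pl (t t' s : ℝ) : Matrix (V N) (V N) ℝ := Real.sqrt (t - t') • Rl s

lemma ti_Pl (t t' s : ℝ) : TI (Pl (N := N) t t' s) := (ti_Rl s).smul _

lemma tip_Pl (t t' s : ℝ) : TIP (Pl (N := N) t t' s) := (ti_Pl t t' s).tip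

lemma Pl_nonneg (hs : 0 ≤ s) (x y : V N) : 0 ≤ Pl t t' s x y := by
  unfold Pl
  rw [Matrix.smul_apply, smul_eq_mul]
  exact mul_nonneg (Real.sqrt_nonneg _) (Rl_nonneg hs x y)

lemma Pl_gram (h : t' ≤ t) (s : ℝ) : (Pl (N := N) t t' s)ᵀ * Pl t t' s = (t - t') • Kl s := by
  rw [(ti_Pl t t' s).transpose]
  unfold Pl
  rw [Matrix.smul_mul, Matrix.mul_smul, smul_smul, Real.mul_self_sqrt (by linarith), ← Kl_eq]

/-- prior mass `Ml t t' s`, posterior mass `t` -/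
lemma Ml_add_gram (h : t' ≤ t) (s : ℝ) :
    Ml (N := N) t t' s + (Pl t t' s)ᵀ * Pl t t' s = t • (1 : Matrix (V N) (V N) ℝ) := by
  rw [Pl_gram h]
  unfold Ml
  rw [sub_add_cancel]

/-- prior mass `Ml t t'' s`, posterior mass `Ml t t' s` -/
lemma Ml_add_gram' {t'' : ℝ} (h : t'' ≤ t') (t s : ℝ) :
    Ml (N := N) t t'' s + (Pl t' t'' s)ᵀ * Pl t' t'' s = Ml t t' s := by
  rw [Pl_gram h]
  unfold Ml
  rw [sub_add_eq_add_sub, sub_eq_sub_iff_add_eq_add]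
  rw [add_assoc, ← add_smul]
  congr 2
  ring

end

end Vale.Agent.P159.H340
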