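import Vale.Agent.P159.H340.Kl0
import Vale.Agent.P159.H817.Ang5

/-!
P159 (helper340), resolvent gradient bound: if `w + κ (-Δ) w = F` on a torus of even side and
`|F - c| ≤ B`, then every difference of neighbours of `w` is at most `4 B / m` for every natural
`m ≥ 1` with `m ^ 2 ≤ 2 κ`.  Reflection in a line and a barrier; no kernels.
-/

set_option linter.unusedSectionVars false

open Finset Matrix

namespace Vale.Agent.P159.H340

open Vale.Agent.P159
open Vale.Agent.P159.TM.Spec (V)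
open Vale.Agent.P159.H864 (lapM)
open Vale.Agent.P159.H817 (gr)

noncomputable section

/-- the barrier -/
def rq (B : ℝ) (m u : ℕ) : ℝ := 2 * B * (1 - (1 - (min u m : ℕ) / (m : ℝ)) ^ 2)

lemma rq_nonneg {B : ℝ} (hB : 0 ≤ B) {m : ℕ} (hm : 1 ≤ m) (u : ℕ) : 0 ≤ rq B m u := by
  unfold rq
  have hm0 : (0 : ℝ) < m := by exact_mod_cast hm
  have h1 : (0 : ℝ) ≤ (min u m : ℕ) / (m : ℝ) := by positivity
  have h2 : ((min u m : ℕ) : ℝ) / (m : ℝ) ≤ 1 := by
    rw [div_le_one hm0]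
    exact_mod_cast min_le_right u m
  have h3 : (1 - ((min u m : ℕ) : ℝ) / (m : ℝ)) ^ 2 ≤ 1 := by nlinarith
  nlinarith

lemma rq_zero (B : ℝ) (m : ℕ) : rq B m 0 = 0 := by
  unfold rq
  simp

lemma rq_one {B : ℝ} (hB : 0 ≤ B) {m : ℕ} (hm : 1 ≤ m) : rq B m 1 ≤ 4 * B / m := by
  unfold rq
  have hm0 : (0 : ℝ) < m := by exact_mod_cast hm
  rw [min_eq_left hm]
  have e : 2 * B * (1 - (1 - ((1 : ℕ) : ℝ) / (m : ℝ)) ^ 2) =
      4 * B / m - 2 * B * (1 / m) ^ 2 := by
    push_cast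
    field_simp
    ring
  rw [e]
  have : 0 ≤ 2 * B * (1 / (m : ℝ)) ^ 2 := by positivity
  linarith

/-- the barrier is a supersolution -/
lemma rq_super {B κ : ℝ} (hB : 0 ≤ B) {m : ℕ} (hm : 1 ≤ m) (hκ : (m : ℝ) ^ 2 ≤ 2 * κ) (u : ℕ) :
    2 * B ≤ rq B m (u + 1) + κ * (2 * rq B m (u + 1) - rq B m (u + 2) - rq B m u) := by
  have hm0 : (0 : ℝ) < m := by exact_mod_cast hm
  have hκ0 : 0 ≤ κ := by nlinarith [sq_nonneg (m : ℝ)]
  rcases Nat.lt_or_ge (u + 1) m with h | h
  · have e1 : min (u + 1) m = u + 1 := by omega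
    have e2 : min (u + 2) m = u + 2 := by omega
    have e3 : min u m = u := by omega
    have h1 := rq_nonneg hB hm (u + 1)
    have h2 : 2 * rq B m (u + 1) - rq B m (u + 2) - rq B m u = 4 * B / m ^ 2 := by
      unfold rq
      rw [e1, e2, e3]
      push_cast
      field_simp
      ring
    rw [h2]
    have h3 : 2 * B ≤ κ * (4 * B / m ^ 2) := by
      rw [← mul_div_assoc, le_div_iff₀ (by positivity)]
      nlinarith
    linarith
  · have e1 : min (u + 1) m = m := by omega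
    have e2 : min (u + 2) m = m := by omega
    have h1 : rq B m (u + 1) = 2 * B := by
      unfold rq
      rw [e1, div_self hm0.ne']
      ring
    have h2 : rq B m (u + 2) = 2 * B := by
      unfold rq
      rw [e2, div_self hm0.ne']
      ring
    have h3 : rq B m u ≤ 2 * B := by
      unfold rq
      have : 0 ≤ (1 - ((min u m : ℕ) : ℝ) / (m : ℝ)) ^ 2 := sq_nonneg _
      nlinarith
    rw [h1, h2]
    have h4 : 0 ≤ κ * (2 * (2 * B) - 2 * B - rq B m u) := mul_nonneg hκ0 (by linarith)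
    linarith

variable {N : ℕ} [NeZero N]

/-- the index of the half torus -/
def ri (x1 : ZMod N) (y : V N) : ℕ := (y.1 - (x1 + 1)).val

/-- reflection -/
def rsg (x1 : ZMod N) (y : V N) : V N := (x1 + (x1 + 1) - y.1, y.2)

lemma rsg_e1 (x1 : ZMod N) (y : V N) : rsg x1 (y + (1, 0)) = rsg x1 y - (1, 0) := by
  unfold rsg
  ext
  · simp only [Prod.fst_add, Prod.fst_sub]
    ring
  · simp

lemma rsg_e1' (x1 : ZMod N) (y : V N) : rsg x1 (y - (1, 0)) = rsg x1 y + (1, 0) := by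
  unfold rsg
  ext
  · simp only [Prod.fst_add, Prod.fst_sub]
    ring
  · simp

lemma rsg_e2 (x1 : ZMod N) (y : V N) : rsg x1 (y + (0, 1)) = rsg x1 y + (0, 1) := by
  unfold rsg
  ext
  · simp
  · simp

lemma rsg_e2' (x1 : ZMod N) (y : V N) : rsg x1 (y - (0, 1)) = rsg x1 y - (0, 1) := by
  unfold rsg
  ext
  · simp
  · simp

lemma rsg_rsg (x1 : ZMod N) (y : V N) : rsg x1 (rsg x1 y) = y := by
  unfold rsg
  ext
  · simp
  · rfl

lemma ri_e2 (x1 : ZMod N) (y : V N) : ri x1 (y + (0, 1)) = ri x1 y := by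
  unfold ri
  simp

lemma ri_e2' (x1 : ZMod N) (y : V N) : ri x1 (y - (0, 1)) = ri x1 y := by
  unfold ri
  simp

lemma ri_zero {x1 : ZMod N} {y : V N} (h : ri x1 y = 0) : y - (1, 0) = rsg x1 y := by
  unfold ri at h
  rw [ZMod.val_eq_zero, sub_eq_zero] at h
  unfold rsg
  ext
  · simp only [Prod.fst_sub, h]
    ring
  · simp

variable {L : ℕ}

lemma val_add_one' (hN : N = 2 * L) {z : ZMod N} (h : z.val + 1 < N) : (z + 1).val = z.val + 1 := by
  have : Fact (1 < N) := ⟨by omega⟩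
  rw [ZMod.val_add_of_lt (by rw [ZMod.val_one]; exact h), ZMod.val_one]

lemma val_sub_one' (hN : N = 2 * L) {z : ZMod N} (h : 1 ≤ z.val) : (z - 1).val = z.val - 1 := by
  have : Fact (1 < N) := ⟨by have := ZMod.val_lt z; omega⟩
  rw [ZMod.val_sub (by rw [ZMod.val_one]; exact h), ZMod.val_one]

lemma ri_add (hN : N = 2 * L) {x1 : ZMod N} {y : V N} (h : ri x1 y + 1 < N) :
    ri x1 (y + (1, 0)) = ri x1 y + 1 := by
  unfold ri at *
  rw [← val_add_one' hN h]
  congr 1
  simp only [Prod.fst_add]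
  ring

lemma ri_sub (hN : N = 2 * L) {x1 : ZMod N} {y : V N} (h : 1 ≤ ri x1 y) :
    ri x1 (y - (1, 0)) = ri x1 y - 1 := by
  unfold ri at *
  rw [← val_sub_one' hN h]
  congr 1
  simp only [Prod.fst_sub]
  ring

lemma ri_last (hN : N = 2 * L) {x1 : ZMod N} {y : V N} (h : ri x1 y + 1 = L) :
    y + (1, 0) = rsg x1 y := by
  unfold ri at h
  set z : ZMod N := y.1 - (x1 + 1) with hz
  have h1 : (z + 1) + (z + 1) = 0 := by
    have h2 : z = ((z.val : ℕ) : ZMod N) := (ZMod.natCast_zmod_val z).symm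
    have h3 : (z + 1) + (z + 1) = ((2 * (z.val + 1) : ℕ) : ZMod N) := by
      conv_lhs => rw [h2]
      push_cast
      ring
    rw [h3, h, ← hN]
    exact ZMod.natCast_self N
  unfold rsg
  have hy : y.1 = z + (x1 + 1) := by rw [hz]; ring
  ext
  · simp only [Prod.fst_add, hy]
    have : z + (x1 + 1) + 1 - (x1 + (x1 + 1) - (z + (x1 + 1))) = (z + 1) + (z + 1) := by ring
    rw [← sub_eq_zero, this, h1]
  · simp

/-- one sided bound in direction 1 -/
theorem rsv_one (hN : N = 2 * L) {κ B c : ℝ} {m : ℕ} (hm : 1 ≤ m) (hκ : (m : ℝ) ^ 2 ≤ 2 * κ)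
    {w F : V N → ℝ} (h : ∀ x, w x + κ * (lapM *ᵥ w) x = F x) (hB : ∀ x, |F x - c| ≤ B) (x : V N) :
    w (x + (1, 0)) - w x ≤ 4 * B / m := by
  have hB0 : 0 ≤ B := (abs_nonneg _).trans (hB x)
  have hNp := NeZero.pos N
  have hκ0 : 0 ≤ κ := by nlinarith [sq_nonneg (m : ℝ)]
  set x1 := x.1 with hx1
  set D : V N → ℝ := fun y => w y - w (rsg x1 y) with hD
  have hodd : ∀ y, D (rsg x1 y) = -D y := fun y => by
    simp only [hD, rsg_rsg]
    ring
  have hlap : ∀ y, (lapM *ᵥ w) y - (lapM *ᵥ w) (rsg x1 y) =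
      4 * D y - (D (y + (1, 0)) + D (y - (1, 0)) + D (y + (0, 1)) + D (y - (0, 1))) := fun y => by
    rw [lapM_mulVec, lapM_mulVec]
    simp only [hD, rsg_e1, rsg_e1', rsg_e2, rsg_e2']
    ring
  have hDe : ∀ y, D y + κ * (4 * D y - (D (y + (1, 0)) + D (y - (1, 0)) + D (y + (0, 1)) +
      D (y - (0, 1)))) ≤ 2 * B := fun y => by
    rw [← hlap]
    have h1 := h y
    have h2 := h (rsg x1 y)
    have h3 := (abs_le.1 (hB y)).2
    have h4 := (abs_le.1 (hB (rsg x1 y))).1
    have e : D y + κ * ((lapM *ᵥ w) y - (lapM *ᵥ w) (rsg x1 y)) = F y - F (rsg x1 y) := by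
      rw [← h1, ← h2]
      simp only [hD]
      ring
    rw [e]
    linarith
  -- the maximum on the half torus
  set H : Finset (V N) := univ.filter fun y => ri x1 y < L with hH
  have hy0 : (x1 + 1, x.2) ∈ H := by
    rw [hH, mem_filter]
    refine ⟨mem_univ _, ?_⟩
    have e0 : ri x1 (x1 + 1, x.2) = 0 := by
      unfold ri
      simp
    rw [e0]
    omega
  obtain ⟨y, hyH, hmax⟩ := Finset.exists_max_image H (fun y => D y - rq B m (ri x1 y + 1)) ⟨_, hy0⟩
  have hyL : ri x1 y < L := (mem_filter.1 hyH).2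
  set M0 := D y - rq B m (ri x1 y + 1) with hM0
  have hle : ∀ z, ri x1 z < L → D z ≤ rq B m (ri x1 z + 1) + M0 := fun z hz => by
    have h1 : D z - rq B m (ri x1 z + 1) ≤ M0 := hmax z (mem_filter.2 ⟨mem_univ _, hz⟩)
    linarith
  have key : M0 ≤ 0 := by
    by_contra hcon
    push Not at hcon
    have hDy : D y = rq B m (ri x1 y + 1) + M0 := by rw [hM0]; ring
    have a3 : D (y + (0, 1)) ≤ rq B m (ri x1 y + 1) + M0 := by
      have := hle (y + (0, 1)) (by rw [ri_e2]; exact hyL)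
      rwa [ri_e2] at this
    have a4 : D (y - (0, 1)) ≤ rq B m (ri x1 y + 1) + M0 := by
      have := hle (y - (0, 1)) (by rw [ri_e2']; exact hyL)
      rwa [ri_e2'] at this
    have q0 := rq_nonneg hB0 hm (ri x1 y + 1)
    have a1 : D (y + (1, 0)) ≤ rq B m (ri x1 y + 2) + M0 := by
      rcases Nat.lt_or_ge (ri x1 y + 1) L with h1 | h1
      · have e := ri_add hN (x1 := x1) (y := y) (by omega)
        have := hle (y + (1, 0)) (by rw [e]; exact h1)
        rwa [e] at this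
      · rw [ri_last (x1 := x1) (y := y) hN (by omega), hodd, hDy]
        have := rq_nonneg hB0 hm (ri x1 y + 2)
        linarith
    have a2 : D (y - (1, 0)) ≤ rq B m (ri x1 y) + M0 := by
      rcases Nat.eq_zero_or_pos (ri x1 y) with h1 | h1
      · rw [ri_zero h1, hodd, hDy, h1]
        have := rq_nonneg hB0 hm 0
        have := rq_nonneg hB0 hm (0 + 1)
        linarith
      · have e := ri_sub hN (x1 := x1) (y := y) h1
        have := hle (y - (1, 0)) (by rw [e]; omega)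
        rw [e, Nat.sub_add_cancel h1] at this
        exact this
    have h5 := hDe y
    have h6 := rq_super hB0 hm hκ (ri x1 y)
    have h7 : κ * (2 * rq B m (ri x1 y + 1) - rq B m (ri x1 y + 2) - rq B m (ri x1 y)) ≤
        κ * (4 * D y - (D (y + (1, 0)) + D (y - (1, 0)) + D (y + (0, 1)) + D (y - (0, 1)))) :=
      mul_le_mul_of_nonneg_left (by rw [hDy]; linarith) hκ0
    linarith
  have h8 := hle (x1 + 1, x.2) (mem_filter.1 hy0).2
  have e1 : ri x1 (x1 + 1, x.2) = 0 := by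
    unfold ri
    simp
  have e2 : D (x1 + 1, x.2) = w (x + (1, 0)) - w x := by
    simp only [hD]
    congr 1
    · congr 1
      ext <;> simp [hx1]
    · congr 1
      unfold rsg
      ext <;> simp [hx1]
  rw [e1, e2] at h8
  have h9 := rq_one hB0 hm
  simp only [zero_add] at h8
  linarith

/-- two sided bound in direction 1 -/
theorem rsv_abs (hN : N = 2 * L) {κ B c : ℝ} {m : ℕ} (hm : 1 ≤ m) (hκ : (m : ℝ) ^ 2 ≤ 2 * κ)
    {w F : V N → ℝ} (h : ∀ x, w x + κ * (lapM *ᵥ w) x = F x) (hB : ∀ x, |F x - c| ≤ B) (x : V N) :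
    |w (x + (1, 0)) - w x| ≤ 4 * B / m := by
  rw [abs_le]
  refine ⟨?_, rsv_one hN hm hκ h hB x⟩
  have h1 := rsv_one (w := -w) (F := -F) (c := -c) hN hm hκ (fun x => by
    rw [Matrix.mulVec_neg, Pi.neg_apply, Pi.neg_apply, Pi.neg_apply, ← h x]
    ring) (fun x => by
    have e : (-F) x - -c = -(F x - c) := by
      rw [Pi.neg_apply]
      ring
    rw [e, abs_neg]
    exact hB x) x
  rw [Pi.neg_apply, Pi.neg_apply] at h1
  linarith

lemma lapM_swap (w : V N → ℝ) (x : V N) :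
    (lapM *ᵥ fun y : V N => w (y.2, y.1)) x = (lapM *ᵥ w) (x.2, x.1) := by
  rw [lapM_mulVec, lapM_mulVec]
  simp only [Prod.fst_add, Prod.snd_add, Prod.fst_sub, Prod.snd_sub, Prod.mk_add_mk,
    Prod.mk_sub_mk, add_zero, sub_zero]
  ring

/-- **the resolvent gradient bound** -/
theorem rsv_grad (hN : N = 2 * L) {κ B c : ℝ} {m : ℕ} (hm : 1 ≤ m) (hκ : (m : ℝ) ^ 2 ≤ 2 * κ)
    {w F : V N → ℝ} (h : ∀ x, w x + κ * (lapM *ᵥ w) x = F x) (hB : ∀ x, |F x - c| ≤ B)
    (e : V N × Bool) : |gr w e| ≤ 4 * B / m := by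
  obtain ⟨x, t⟩ := e
  cases t
  · exact rsv_abs hN hm hκ h hB x
  · have h1 := rsv_abs (w := fun y => w (y.2, y.1)) (F := fun y => F (y.2, y.1)) (c := c) hN hm hκ
      (fun x => by
        rw [lapM_swap]
        exact h (x.2, x.1)) (fun x => hB (x.2, x.1)) (x.2, x.1)
    have e1 : (x + H817.e2 : V N) = (x.1 + 0, x.2 + 1) := by
      unfold H817.e2
      ext <;> simp
    have e2 : gr w (x, true) = w (x.1 + 0, x.2 + 1) - w x := by
      rw [H817.gr_true, e1]
    rw [e2]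
    simpa using h1

lemma lapM_tr (w : V N → ℝ) (a x : V N) :
    (lapM *ᵥ fun y : V N => w (y + a)) x = (lapM *ᵥ w) (x + a) := by
  rw [lapM_mulVec, lapM_mulVec]
  have e1 : x + (1, 0) + a = x + a + (1, 0) := by abel
  have e2 : x - (1, 0) + a = x + a - (1, 0) := by abel
  have e3 : x + (0, 1) + a = x + a + (0, 1) := by abel
  have e4 : x - (0, 1) + a = x + a - (0, 1) := by abel
  rw [e1, e2, e3, e4]

/-- **second differences**: differences of the gradient along a shift `a` with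
`|F (x + a) - F x| ≤ G` -/
theorem rsv_grad2 (hN : N = 2 * L) {κ G : ℝ} {m : ℕ} (hm : 1 ≤ m) (hκ : (m : ℝ) ^ 2 ≤ 2 * κ)
    {w F : V N → ℝ} (h : ∀ x, w x + κ * (lapM *ᵥ w) x = F x) {a : V N}
    (hG : ∀ x, |F (x + a) - F x| ≤ G) (x : V N) (t : Bool) :
    |gr w (x + a, t) - gr w (x, t)| ≤ 4 * G / m := by
  have h1 := rsv_grad (w := fun y => w (y + a) - w y) (F := fun y => F (y + a) - F y) (c := 0)
    hN hm hκ (fun x => by
      have e : (fun y : V N => w (y + a) - w y) = (fun y => w (y + a)) - w := rfl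
      rw [e, Matrix.mulVec_sub, Pi.sub_apply, lapM_tr, ← h x, ← h (x + a)]
      ring) (fun x => by
      rw [sub_zero]
      exact hG x) (x, t)
  refine le_trans (le_of_eq ?_) h1
  congr 1
  cases t
  · simp only [H817.gr_false]
    have e1 : x + a + H817.e1 = x + H817.e1 + a := by abel
    rw [e1]
    ring
  · simp only [H817.gr_true]
    have e1 : x + a + H817.e2 = x + H817.e2 + a := by abel
    rw [e1]
    ring

end

end Vale.Agent.P159.H340
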