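import Vale.Agent.P159.H340.Ed3a
import Vale.Agent.P159.H276.Es2
import Vale.Agent.P159.H817.St3

/-!
P159, row 6628 (helper270), Ed3 (iii), part 2 (helper340): the flow between adjacent boxes of side `q`:
`|j| ≤ 1 / q`, `∑ j ^ 2 ≤ 1`, and its pairing with the harmonic field of a pair of charges is at most
`1 + 36 CG`.
-/

namespace Vale.Agent.P159.H340

open Finset
open Vale.Agent.P159.TM.Spec (V)
open Vale.Agent.P159.H276 (bxT)
open Vale.Agent.P159.H817 (gr bD sz CG CG_pos)

noncomputable section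

variable {N : ℕ} [NeZero N]

/-- the flow between adjacent boxes of side `q` -/
def jB (N q : ℕ) [NeZero N] (x : V N) (t : Bool) (e : V N × Bool) : ℝ :=
  ((q : ℝ) ^ 2)⁻¹ * ∑ a ∈ range q, ∑ b ∈ range q, ∑ c ∈ range q,
    if (x + a • dr N t + b • dr N (!t) + c • dr N t, t) = e then 1 else 0

lemma jB_nonneg (q : ℕ) (x : V N) (t : Bool) (e : V N × Bool) : 0 ≤ jB N q x t e := by
  unfold jB
  refine mul_nonneg (by positivity) ?_
  refine sum_nonneg fun a _ => sum_nonneg fun b _ => sum_nonneg fun c _ => ?_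
  split_ifs <;> norm_num

/-- pairing with the flow -/
lemma sum_jB (q : ℕ) (x : V N) (t : Bool) (F : V N × Bool → ℝ) :
    ∑ e, jB N q x t e * F e = ((q : ℝ) ^ 2)⁻¹ * ∑ a ∈ range q, ∑ b ∈ range q, ∑ c ∈ range q,
      F (x + a • dr N t + b • dr N (!t) + c • dr N t, t) := by
  unfold jB
  simp only [mul_assoc, ← mul_sum, sum_mul]
  congr 1
  rw [sum_comm]
  refine sum_congr rfl fun a _ => ?_
  rw [sum_comm]
  refine sum_congr rfl fun b _ => ?_
  rw [sum_comm]
  refine sum_congr rfl fun c _ => ?_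
  simp only [ite_mul, one_mul, zero_mul, sum_ite_eq, mem_univ, if_true]

lemma gr_dr (u : V N → ℝ) (x : V N) (t : Bool) : gr u (x, t) = u (x + dr N t) - u x := by
  cases t <;> rfl

/-- **the flow transports the difference of the box averages** -/
theorem jB_gr (q : ℕ) (x : V N) (t : Bool) (u : V N → ℝ) :
    ∑ e, jB N q x t e * gr u e = dB N q u x t := by
  rw [sum_jB]
  have tel : ∀ y : V N, ∑ c ∈ range q, gr u (y + c • dr N t, t) = u (y + q • dr N t) - u y := by
    intro y
    have h1 : ∀ c : ℕ, gr u (y + c • dr N t, t) =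
        u (y + (c + 1) • dr N t) - u (y + c • dr N t) := by
      intro c
      rw [gr_dr, add_smul, one_smul, add_assoc]
    simp only [h1]
    rw [sum_range_sub fun k => u (y + k • dr N t)]
    simp
  simp only [tel]
  unfold dB bxT
  rw [← mul_sub]
  congr 1
  cases t
  · rw [← sum_sub_distrib]
    refine sum_congr rfl fun i _ => ?_
    rw [← sum_sub_distrib]
    refine sum_congr rfl fun j _ => ?_
    congr 2
    · ext <;> simp [dr]
      ring
    · ext <;> simp [dr]
  · rw [sum_comm, ← sum_sub_distrib]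
    refine sum_congr rfl fun i _ => ?_
    rw [← sum_sub_distrib]
    refine sum_congr rfl fun j _ => ?_
    congr 2
    · ext <;> simp [dr]
      ring
    · ext <;> simp [dr]

lemma sum_jB_one {q : ℕ} (hq : 1 ≤ q) (x : V N) (t : Bool) : ∑ e, jB N q x t e = q := by
  have hq0 : (q : ℝ) ≠ 0 := by
    have : (0 : ℝ) < q := by exact_mod_cast hq
    exact this.ne'
  have h := sum_jB q x t (fun _ => (1 : ℝ))
  simp only [mul_one] at h
  rw [h]
  simp only [sum_const, card_range, nsmul_eq_mul, mul_one]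
  field_simp

omit [NeZero N] in
lemma nat_cast_inj {q : ℕ} (hq : q ≤ N) {a b : ℕ} (ha : a < q) (hb : b < q)
    (h : (a : ZMod N) = (b : ZMod N)) : a = b := by
  have h1 := congrArg ZMod.val h
  rwa [ZMod.val_natCast, ZMod.val_natCast, Nat.mod_eq_of_lt (ha.trans_le hq),
    Nat.mod_eq_of_lt (hb.trans_le hq)] at h1

lemma box_inj {q : ℕ} (hq : q ≤ N) (y : V N) (t : Bool) {b c b' c' : ℕ} (hb : b < q) (hc : c < q)
    (hb' : b' < q) (hc' : c' < q) (h : y + b • dr N (!t) + c • dr N t =
      y + b' • dr N (!t) + c' • dr N t) : b = b' ∧ c = c' := by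
  have h1 := congrArg Prod.fst h
  have h2 := congrArg Prod.snd h
  cases t
  · simp [dr] at h1 h2
    exact ⟨nat_cast_inj hq hb hb' h2, nat_cast_inj hq hc hc' h1⟩
  · simp [dr] at h1 h2
    exact ⟨nat_cast_inj hq hb hb' h1, nat_cast_inj hq hc hc' h2⟩

/-- sup bound -/
theorem jB_le {q : ℕ} (h1 : 1 ≤ q) (hq : q ≤ N) (x : V N) (t : Bool) (e : V N × Bool) :
    jB N q x t e ≤ 1 / q := by
  classical
  have hq0 : (0 : ℝ) < q := by exact_mod_cast h1
  have key : ∀ a ∈ range q, (∑ b ∈ range q, ∑ c ∈ range q,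
      if (x + a • dr N t + b • dr N (!t) + c • dr N t, t) = e then (1 : ℝ) else 0) ≤ 1 := by
    intro a _
    rw [← sum_product', sum_boole]
    have h2 : (filter (fun z : ℕ × ℕ =>
        (x + a • dr N t + z.1 • dr N (!t) + z.2 • dr N t, t) = e) (range q ×ˢ range q)).card ≤ 1 := by
      rw [card_le_one]
      intro z hz w hw
      rw [mem_filter, mem_product, mem_range, mem_range] at hz hw
      have h3 : x + a • dr N t + z.1 • dr N (!t) + z.2 • dr N t =
          x + a • dr N t + w.1 • dr N (!t) + w.2 • dr N t := by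
        have := hz.2.trans hw.2.symm
        exact congrArg Prod.fst this
      obtain ⟨h4, h5⟩ := box_inj hq _ t hz.1.1 hz.1.2 hw.1.1 hw.1.2 h3
      exact Prod.ext h4 h5
    exact_mod_cast h2
  unfold jB
  refine (mul_le_mul_of_nonneg_left (sum_le_sum key)
    (by positivity : 0 ≤ ((q : ℝ) ^ 2)⁻¹)).trans (le_of_eq ?_)
  simp only [sum_const, card_range, nsmul_eq_mul, mul_one]
  field_simp

/-- energy of the flow -/
theorem sum_jB_sq {q : ℕ} (h1 : 1 ≤ q) (hq : q ≤ N) (x : V N) (t : Bool) :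
    ∑ e, jB N q x t e ^ 2 ≤ 1 := by
  have hq0 : (0 : ℝ) < q := by exact_mod_cast h1
  have h2 : ∀ e : V N × Bool, jB N q x t e ^ 2 ≤ 1 / q * jB N q x t e := by
    intro e
    rw [pow_two]
    exact mul_le_mul_of_nonneg_right (jB_le h1 hq x t e) (jB_nonneg q x t e)
  refine (sum_le_sum fun e _ => h2 e).trans (le_of_eq ?_)
  rw [← mul_sum, sum_jB_one h1]
  field_simp

/-! ### pairing with the field of a pair of charges -/

lemma ball_inv (q : ℕ) (p : V N) :
    ∑ z ∈ (univ : Finset (V N)).filter (fun z => sz (z - p) < q), 1 / (1 + (sz (z - p) : ℝ)) ≤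
      8 * q := by
  classical
  have h1 : (univ : Finset (V N)).filter (fun z => sz (z - p) < q) =
      (range q).biUnion fun k => (univ : Finset (V N)).filter fun z => sz (z - p) = k := by
    ext z
    simp
  rw [h1, sum_biUnion]
  · have h2 : ∀ k ∈ range q, ∑ z ∈ (univ : Finset (V N)).filter (fun z => sz (z - p) = k),
        1 / (1 + (sz (z - p) : ℝ)) ≤ 8 := by
      intro k _
      have h3 : ∑ z ∈ (univ : Finset (V N)).filter (fun z => sz (z - p) = k),
          1 / (1 + (sz (z - p) : ℝ)) =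
          ∑ _z ∈ (univ : Finset (V N)).filter (fun z => sz (z - p) = k), 1 / (1 + (k : ℝ)) :=
        sum_congr rfl fun z hz => by rw [(mem_filter.1 hz).2]
      rw [h3, sum_const, nsmul_eq_mul]
      have h4 : ((univ : Finset (V N)).filter fun z => sz (z - p) = k).card =
          ((univ : Finset (V N)).filter fun z => sz z = k).card := by
        refine card_bij (fun z _ => z - p) (fun z hz => ?_) (fun z _ w _ h => ?_) fun z hz => ?_
        · rw [mem_filter] at hz ⊢
          exact ⟨mem_univ _, hz.2⟩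
        · exact sub_left_injective h
        · rw [mem_filter] at hz
          refine ⟨z + p, ?_, ?_⟩
          · rw [mem_filter]
            refine ⟨mem_univ _, ?_⟩
            rw [add_sub_cancel_right]
            exact hz.2
          · exact add_sub_cancel_right z p
      rw [h4]
      have h5 := H817.card_sz (N := N) k
      have h6 : (((univ : Finset (V N)).filter fun x => sz x = k).card : ℝ) ≤ 8 * (k + 1) := by
        exact_mod_cast h5
      rw [mul_one_div, div_le_iff₀ (by positivity)]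
      linarith
    refine (sum_le_sum h2).trans (le_of_eq ?_)
    rw [sum_const, card_range, nsmul_eq_mul, mul_comm]
  · intro i _ j _ hij
    rw [Function.onFun, disjoint_left]
    intro x hx hy
    rw [mem_filter] at hx hy
    exact hij (hx.2.symm.trans hy.2)

/-- `∑_box 1 / (1 + |z - p|) ≤ 9 q` -/
theorem box_inv {q : ℕ} (hq : q ≤ N) (p y : V N) (t : Bool) :
    ∑ b ∈ range q, ∑ c ∈ range q,
      1 / (1 + (sz (y + b • dr N (!t) + c • dr N t - p) : ℝ)) ≤ 9 * q := by
  classical
  set f : ℕ × ℕ → V N := fun z => y + z.1 • dr N (!t) + z.2 • dr N t with hf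
  have hinj : Set.InjOn f (range q ×ˢ range q : Finset (ℕ × ℕ)) := by
    intro z hz w hw h
    rw [mem_coe, mem_product, mem_range, mem_range] at hz hw
    obtain ⟨h4, h5⟩ := box_inj hq y t hz.1 hz.2 hw.1 hw.2 h
    exact Prod.ext h4 h5
  have h1 : ∑ b ∈ range q, ∑ c ∈ range q,
      1 / (1 + (sz (y + b • dr N (!t) + c • dr N t - p) : ℝ)) =
      ∑ z ∈ (range q ×ˢ range q).image f, 1 / (1 + (sz (z - p) : ℝ)) := by
    rw [sum_image hinj, sum_product]
  rw [h1]
  set S := (range q ×ˢ range q).image f with hS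
  have hcard : (S.card : ℝ) ≤ (q : ℝ) ^ 2 := by
    have : S.card ≤ q ^ 2 := by
      refine card_image_le.trans (le_of_eq ?_)
      rw [card_product, card_range, pow_two]
    exact_mod_cast this
  have h2 : ∑ z ∈ S, 1 / (1 + (sz (z - p) : ℝ)) =
      ∑ z ∈ S.filter (fun z => sz (z - p) < q), 1 / (1 + (sz (z - p) : ℝ)) +
      ∑ z ∈ S.filter (fun z => ¬ sz (z - p) < q), 1 / (1 + (sz (z - p) : ℝ)) :=
    (sum_filter_add_sum_filter_not S _ _).symm
  rw [h2]
  have h3 : ∑ z ∈ S.filter (fun z => sz (z - p) < q), 1 / (1 + (sz (z - p) : ℝ)) ≤ 8 * q := by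
    refine (sum_le_sum_of_subset_of_nonneg ?_ fun z _ _ => by positivity).trans (ball_inv q p)
    intro z hz
    rw [mem_filter] at hz ⊢
    exact ⟨mem_univ _, hz.2⟩
  have h4 : ∑ z ∈ S.filter (fun z => ¬ sz (z - p) < q), 1 / (1 + (sz (z - p) : ℝ)) ≤ q := by
    rcases Nat.eq_zero_or_pos q with h0 | h0
    · have : S = ∅ := by
        rw [hS, h0]
        simp
      rw [this, filter_empty, sum_empty]
      positivity
    have hq0 : (0 : ℝ) < q := by exact_mod_cast h0
    have h5 : ∀ z ∈ S.filter (fun z => ¬ sz (z - p) < q), 1 / (1 + (sz (z - p) : ℝ)) ≤ 1 / q := by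
      intro z hz
      rw [mem_filter] at hz
      have h6 : (q : ℝ) ≤ sz (z - p) := by exact_mod_cast not_lt.1 hz.2
      exact one_div_le_one_div_of_le hq0 (by linarith)
    refine (sum_le_sum h5).trans ?_
    rw [sum_const, nsmul_eq_mul]
    have h7 : ((S.filter (fun z => ¬ sz (z - p) < q)).card : ℝ) ≤ (q : ℝ) ^ 2 := by
      refine le_trans ?_ hcard
      exact_mod_cast card_filter_le _ _
    calc ((S.filter (fun z => ¬ sz (z - p) < q)).card : ℝ) * (1 / q)
        ≤ (q : ℝ) ^ 2 * (1 / q) := mul_le_mul_of_nonneg_right h7 (by positivity)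
      _ = q := by field_simp
  linarith

/-- pointwise bound of the field of a pair -/
lemma bD_ptw (p q z : V N) (t : Bool) : |bD p q (z, t)| ≤ 1 / N +
    2 * CG * (1 / (1 + (sz (z - q) : ℝ)) + 1 / (1 + (sz (z - p) : ℝ))) := by
  have hN := H817.N_pos_real (N := N)
  have h1 := H817.jD_near p q (-(H817.v2 p q : ℝ) / (N : ℝ) ^ 2)
    ((H817.v1 p q : ℝ) / (N : ℝ) ^ 2) z t
  refine h1.trans (add_le_add ?_ le_rfl)
  rw [abs_div, abs_div, abs_neg, abs_of_pos (by positivity : (0 : ℝ) < (N : ℝ) ^ 2), ← add_div,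
    div_le_div_iff₀ (by positivity) hN]
  have b1 := H817.half_ge (q - p).1
  have b2 := H817.half_ge (q - p).2
  have b3 : |(H817.v2 p q : ℝ)| = ((q - p).2.valMinAbs.natAbs : ℝ) := by
    rw [Nat.cast_natAbs, Int.cast_abs]; rfl
  have b4 : |(H817.v1 p q : ℝ)| = ((q - p).1.valMinAbs.natAbs : ℝ) := by
    rw [Nat.cast_natAbs, Int.cast_abs]; rfl
  have b5 : ((q - p).2.valMinAbs.natAbs : ℝ) + ((q - p).1.valMinAbs.natAbs : ℝ) ≤ N := by
    have : (q - p).2.valMinAbs.natAbs + (q - p).1.valMinAbs.natAbs ≤ N := by omega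
    exact_mod_cast this
  rw [b3, b4]
  nlinarith

/-- **the flow between boxes hardly sees the charges** -/
theorem jB_bD {m : ℕ} (h1 : 1 ≤ m) (hm : m ≤ N) (x : V N) (t : Bool) (p q : V N) :
    |∑ e, jB N m x t e * bD p q e| ≤ 1 + 36 * CG := by
  have hm0 : (0 : ℝ) < m := by exact_mod_cast h1
  have hN : (0 : ℝ) < N := H817.N_pos_real
  have hmN : (m : ℝ) ≤ N := by exact_mod_cast hm
  have hC : 0 < CG := CG_pos
  rw [sum_jB, abs_mul, abs_of_pos (by positivity : 0 < ((m : ℝ) ^ 2)⁻¹)]
  have h2 : |∑ a ∈ range m, ∑ b ∈ range m, ∑ c ∈ range m,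
      bD p q (x + a • dr N t + b • dr N (!t) + c • dr N t, t)| ≤
      ∑ _a ∈ range m, ((m : ℝ) ^ 2 * (1 / N) + 36 * CG * m) := by
    refine (abs_sum_le_sum_abs _ _).trans (sum_le_sum fun a _ => ?_)
    have h3 : |∑ b ∈ range m, ∑ c ∈ range m,
        bD p q (x + a • dr N t + b • dr N (!t) + c • dr N t, t)| ≤
        ∑ b ∈ range m, ∑ c ∈ range m, (1 / (N : ℝ) + 2 * CG *
          (1 / (1 + (sz (x + a • dr N t + b • dr N (!t) + c • dr N t - q) : ℝ)) +
          1 / (1 + (sz (x + a • dr N t + b • dr N (!t) + c • dr N t - p) : ℝ)))) := by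
      refine (abs_sum_le_sum_abs _ _).trans (sum_le_sum fun b _ => ?_)
      refine (abs_sum_le_sum_abs _ _).trans (sum_le_sum fun c _ => ?_)
      exact bD_ptw p q _ t
    refine h3.trans ?_
    simp only [sum_add_distrib, ← mul_sum]
    have h4 := box_inv hm q (x + a • dr N t) t
    have h5 := box_inv hm p (x + a • dr N t) t
    have h7 : ∑ _b ∈ range m, ∑ _c ∈ range m, (1 / (N : ℝ)) = (m : ℝ) ^ 2 * (1 / N) := by
      simp only [sum_const, card_range, nsmul_eq_mul]
      ring
    have h6 := mul_le_mul_of_nonneg_left (add_le_add h4 h5) (by positivity : 0 ≤ 2 * CG)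
    linarith
  refine (mul_le_mul_of_nonneg_left h2 (by positivity : 0 ≤ ((m : ℝ) ^ 2)⁻¹)).trans ?_
  rw [sum_const, card_range, nsmul_eq_mul]
  have e : ((m : ℝ) ^ 2)⁻¹ * (m * ((m : ℝ) ^ 2 * (1 / N) + 36 * CG * m)) = m / N + 36 * CG := by
    field_simp
  rw [e]
  have : (m : ℝ) / N ≤ 1 := by
    rw [div_le_one hN]
    exact hmN
  linarith

end

end Vale.Agent.P159.H340
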