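import Vale.Agent.P159.H340.Ed3b

/-!
P159, row 6628 (helper270), Ed3 (iii), part 3 (helper340): under the massless dislocated law all the
differences of the averages of `h - f` over adjacent aligned boxes are small: price `K` for flows which
vanish on the bad edges, price `K0` for all flows.
-/

namespace Vale.Agent.P159.H340

open Finset
open Vale.Agent.P159.TM.Spec (V)
open Vale.Agent.P159.H276 (bxT ExpD)
open Vale.Agent.P159.H770 (Ed eS eT wTD)
open Vale.Agent.P159.H817 (gr bD CG)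
open Vale.Agent.P159.H963 (pin)
open Vale.Agent.P159.H883 (Zp)

noncomputable section

/-- exponential Chebyshev and union bound -/
theorem chern {ι H : Type*} (I : Finset ι) {μ : H → ℝ} (hμ : ∀ h, 0 ≤ μ h) (E : Set H)
    (f : ι → H → ℝ) (a C : ι → ℝ) (hE : ∀ h ∈ E, ∃ i ∈ I, a i ≤ f i h)
    (hS : ∀ i ∈ I, (Summable fun h => μ h * Real.exp (f i h)) ∧
      ∑' h, μ h * Real.exp (f i h) ≤ C i) :
    ∑' h, Set.indicator E μ h ≤ ∑ i ∈ I, Real.exp (-a i) * C i := by
  have hpt : ∀ h, Set.indicator E μ h ≤ ∑ i ∈ I, Real.exp (-a i) * (μ h * Real.exp (f i h)) := by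
    intro h
    have hnn : ∀ i ∈ I, 0 ≤ Real.exp (-a i) * (μ h * Real.exp (f i h)) := fun i _ =>
      mul_nonneg (Real.exp_pos _).le (mul_nonneg (hμ h) (Real.exp_pos _).le)
    by_cases hh : h ∈ E
    · rw [Set.indicator_of_mem hh]
      obtain ⟨i, hi, hi2⟩ := hE h hh
      refine le_trans ?_ (single_le_sum hnn hi)
      have e : Real.exp (-a i) * (μ h * Real.exp (f i h)) = μ h * Real.exp (f i h - a i) := by
        rw [sub_eq_add_neg, Real.exp_add]
        ring
      rw [e]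
      calc μ h = μ h * 1 := (mul_one _).symm
        _ ≤ μ h * Real.exp (f i h - a i) :=
          mul_le_mul_of_nonneg_left (Real.one_le_exp (by linarith)) (hμ h)
    · rw [Set.indicator_of_notMem hh]
      exact sum_nonneg hnn
  have hsm : Summable fun h => ∑ i ∈ I, Real.exp (-a i) * (μ h * Real.exp (f i h)) :=
    summable_sum fun i hi => (hS i hi).1.mul_left _
  have h1 := Summable.tsum_le_tsum hpt (Summable.of_nonneg_of_le
    (fun h => Set.indicator_nonneg (fun h _ => hμ h) h) hpt hsm) hsm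
  refine h1.trans ?_
  rw [Summable.tsum_finsetSum fun i hi => (hS i hi).1.mul_left _]
  refine sum_le_sum fun i hi => ?_
  rw [tsum_mul_left]
  exact mul_le_mul_of_nonneg_left (hS i hi).2 (Real.exp_pos _).le

variable {N : ℕ} [NeZero N]

/-- the exponential bound for flows which vanish on the bad edges, with the price `K` -/
def ExpB (N : ℕ) [NeZero N] (b : ℝ) (η : Ed N → ℤ) (x₀ : V N) (Bad : Finset (Ed N)) (K : ℝ) :
    Prop :=
  ∀ j : Ed N → ℝ, (∀ e ∈ Bad, j e = 0) →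
    (Summable fun h => pin (wTD N b η) x₀ h *
      Real.exp (∑ e, j e * ((h (eT N e) - h (eS N e) + η e : ℤ) : ℝ))) ∧
    ∑' h, pin (wTD N b η) x₀ h * Real.exp (∑ e, j e * ((h (eT N e) - h (eS N e) + η e : ℤ) : ℝ)) ≤
      K * Real.exp (b * ∑ e, (Real.cosh (j e) - 1)) * Zp (wTD N b η) x₀

/-- the flow off / at the bad edges, with a sign and a factor -/
def jK (N q : ℕ) [NeZero N] (Bad : Finset (Ed N)) (x : V N) (t σ τ : Bool) (l : ℝ) (e : Ed N) : ℝ :=
  (if σ then l else -l) * (if (e ∈ Bad ↔ τ = true) then jB N q x t e else 0)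

lemma jK_cosh {q : ℕ} (h1 : 1 ≤ q) (hq : q ≤ N) (Bad : Finset (Ed N)) (x : V N) (t σ τ : Bool)
    {l : ℝ} (h0 : 0 ≤ l) (hl : l ≤ q) : ∑ e, (Real.cosh (jK N q Bad x t σ τ l e) - 1) ≤
      l ^ 2 * ∑ e, if (e ∈ Bad ↔ τ = true) then jB N q x t e ^ 2 else 0 := by
  have hq0 : (0 : ℝ) < q := by exact_mod_cast h1
  rw [mul_sum]
  refine sum_le_sum fun e _ => ?_
  have hs : ∀ y : ℝ, |(if σ then l else -l) * y| = l * |y| := by
    intro y
    rw [abs_mul]
    cases σ
    · simp [abs_of_nonneg h0]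
    · simp [abs_of_nonneg h0]
  have h2 : |jK N q Bad x t σ τ l e| ≤ 1 := by
    unfold jK
    rw [hs]
    split_ifs
    · rw [abs_of_nonneg (jB_nonneg q x t e)]
      have h3 := jB_le h1 hq x t e
      calc l * jB N q x t e ≤ q * (1 / q) := mul_le_mul hl h3 (jB_nonneg q x t e) hq0.le
        _ = 1 := by field_simp
    · simp
  refine (TM.H77.cosh_sub_one_le h2).trans (le_of_eq ?_)
  rw [← sq_abs]
  unfold jK
  rw [hs, mul_pow, sq_abs]
  split_ifs <;> simp

lemma cosh_off {q : ℕ} (h1 : 1 ≤ q) (hq : q ≤ N) (Bad : Finset (Ed N)) (x : V N) (t σ : Bool)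
    {l : ℝ} (h0 : 0 ≤ l) (hl : l ≤ q) :
    ∑ e, (Real.cosh (jK N q Bad x t σ false l e) - 1) ≤ l ^ 2 := by
  refine (jK_cosh h1 hq Bad x t σ false h0 hl).trans ?_
  calc l ^ 2 * ∑ e, (if (e ∈ Bad ↔ false = true) then jB N q x t e ^ 2 else 0)
      ≤ l ^ 2 * ∑ e, jB N q x t e ^ 2 := by
        refine mul_le_mul_of_nonneg_left (sum_le_sum fun e _ => ?_) (sq_nonneg l)
        by_cases he : e ∈ Bad
        · simp [he, sq_nonneg]
        · simp [he]
    _ ≤ l ^ 2 * 1 := mul_le_mul_of_nonneg_left (sum_jB_sq h1 hq x t) (sq_nonneg l)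
    _ = l ^ 2 := mul_one _

lemma cosh_in {q : ℕ} (h1 : 1 ≤ q) (hq : q ≤ N) (Bad : Finset (Ed N)) (x : V N) (t σ : Bool)
    {l : ℝ} (h0 : 0 ≤ l) (hl : l ≤ q) :
    ∑ e, (Real.cosh (jK N q Bad x t σ true l e) - 1) ≤ l ^ 2 * (Bad.card / (q : ℝ) ^ 2) := by
  classical
  have hq0 : (0 : ℝ) < q := by exact_mod_cast h1
  refine (jK_cosh h1 hq Bad x t σ true h0 hl).trans ?_
  refine mul_le_mul_of_nonneg_left ?_ (sq_nonneg l)
  have h2 : ∑ e, (if (e ∈ Bad ↔ true = true) then jB N q x t e ^ 2 else 0) =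
      ∑ e ∈ Bad, jB N q x t e ^ 2 := by
    simp only [iff_true]
    rw [sum_ite_mem, univ_inter]
  rw [h2]
  have h3 : ∀ e ∈ Bad, jB N q x t e ^ 2 ≤ 1 / (q : ℝ) ^ 2 := by
    intro e _
    have := pow_le_pow_left₀ (jB_nonneg q x t e) (jB_le h1 hq x t e) 2
    refine this.trans (le_of_eq ?_)
    rw [div_pow, one_pow]
  refine (sum_le_sum h3).trans (le_of_eq ?_)
  rw [sum_const, nsmul_eq_mul, mul_one_div]

/-- the difference of the box averages in terms of the edge field -/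
lemma dB_eq (q : ℕ) (η : Ed N → ℤ) (f : V N → ℝ) (h : V N → ℤ) (x : V N) (t : Bool) :
    dB N q (fun y => (h y : ℝ) - f y) x t =
      ∑ e, jB N q x t e * ((h (eT N e) - h (eS N e) + η e : ℤ) : ℝ) -
        ∑ e, jB N q x t e * ((η e : ℝ) + gr f e) := by
  rw [← jB_gr, ← sum_sub_distrib]
  refine sum_congr rfl fun e _ => ?_
  have g3 : gr (fun y => (h y : ℝ) - f y) e =
      ((h (eT N e) : ℝ) - (h (eS N e) : ℝ)) - gr f e := by
    rw [← H276.gr_eq, ← H276.gr_eq]
    ring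
  rw [g3]
  push_cast
  ring

/-- the splitting of a large difference -/
lemma big_split {q : ℕ} (Bad : Finset (Ed N)) {η : Ed N → ℤ} {f : V N → ℝ} {cD u v : ℝ}
    {x : V N} {t : Bool} (hc : |∑ e, jB N q x t e * ((η e : ℝ) + gr f e)| ≤ cD) {l l' : ℝ}
    (hl : 0 ≤ l) (hl' : 0 ≤ l') {h : V N → ℤ}
    (hh : u + v + cD < |dB N q (fun y => (h y : ℝ) - f y) x t|) :
    ∃ σ τ : Bool, (if τ then l' * v else l * u) ≤
      ∑ e, jK N q Bad x t σ τ (if τ then l' else l) e *
        ((h (eT N e) - h (eS N e) + η e : ℤ) : ℝ) := by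
  classical
  set X : Ed N → ℝ := fun e => ((h (eT N e) - h (eS N e) + η e : ℤ) : ℝ) with hX
  set S : Bool → ℝ := fun τ => ∑ e, (if (e ∈ Bad ↔ τ = true) then jB N q x t e else 0) * X e with hS
  have h1 : ∑ e, jB N q x t e * X e = S false + S true := by
    rw [hS]
    simp only
    rw [← sum_add_distrib]
    refine sum_congr rfl fun e _ => ?_
    by_cases he : e ∈ Bad <;> simp [he]
  have h2 : dB N q (fun y => (h y : ℝ) - f y) x t = S false + S true -
      ∑ e, jB N q x t e * ((η e : ℝ) + gr f e) := by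
    rw [dB_eq q η f h x t, ← h1]
  have h3 : u + v < |S false + S true| := by
    rw [h2] at hh
    have := abs_sub (S false + S true) (∑ e, jB N q x t e * ((η e : ℝ) + gr f e))
    linarith
  have h4 : u < |S false| ∨ v < |S true| := by
    by_contra hcon
    rw [not_or, not_lt, not_lt] at hcon
    have := abs_add_le (S false) (S true)
    linarith [hcon.1, hcon.2]
  have hJ : ∀ (σ τ : Bool) (m : ℝ), ∑ e, jK N q Bad x t σ τ m e * X e =
      (if σ then m else -m) * S τ := by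
    intro σ τ m
    rw [hS]
    simp only
    rw [mul_sum]
    refine sum_congr rfl fun e _ => ?_
    unfold jK
    ring
  rcases h4 with h5 | h5
  · rcases le_total 0 (S false) with h6 | h6
    · refine ⟨true, false, ?_⟩
      rw [abs_of_nonneg h6] at h5
      have := hJ true false l
      simp only [Bool.false_eq_true, if_false, if_true] at this ⊢
      rw [this]
      exact mul_le_mul_of_nonneg_left h5.le hl
    · refine ⟨false, false, ?_⟩
      rw [abs_of_nonpos h6] at h5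
      have := hJ false false l
      simp only [Bool.false_eq_true, if_false] at this ⊢
      rw [this]
      nlinarith
  · rcases le_total 0 (S true) with h6 | h6
    · refine ⟨true, true, ?_⟩
      rw [abs_of_nonneg h6] at h5
      have := hJ true true l'
      simp only [if_true] at this ⊢
      rw [this]
      exact mul_le_mul_of_nonneg_left h5.le hl'
    · refine ⟨false, true, ?_⟩
      rw [abs_of_nonpos h6] at h5
      have := hJ false true l'
      simp only [Bool.false_eq_true, if_false, if_true] at this ⊢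
      rw [this]
      nlinarith

lemma geo4 {k0 R : ℕ} (h : k0 ≤ R) :
    ∑ k ∈ Ico k0 R, (4 : ℝ) ^ (R - k) ≤ 4 / 3 * 4 ^ (R - k0) := by
  have key : ∀ m : ℕ, ∑ i ∈ range m, (4 : ℝ) ^ (i + 1) ≤ 4 / 3 * 4 ^ m := by
    intro m
    induction m with
    | zero => norm_num
    | succ m ih =>
      rw [sum_range_succ, pow_succ]
      linarith
  have h1 : ∑ k ∈ Ico k0 R, (4 : ℝ) ^ (R - k) = ∑ i ∈ range (R - k0), (4 : ℝ) ^ (i + 1) := by
    rw [sum_Ico_eq_sum_range, ← sum_range_reflect]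
    refine sum_congr rfl fun i hi => ?_
    rw [mem_range] at hi
    congr 1
    omega
  rw [h1]
  exact key _

/-- **the cell averages of `h - f` under the massless dislocated law** -/
theorem gd_tail {R k0 : ℕ} (hR : N = 2 ^ R) (hk : k0 ≤ R) {b : ℝ} (hb : 0 < b) {η : Ed N → ℤ}
    {f : V N → ℝ} {x₀ : V N} {Bad : Finset (Ed N)} {K K0 : ℝ} (hX : ExpB N b η x₀ Bad K)
    (hX0 : ExpD N b η x₀ K0) (hK : 0 ≤ K) (hK0 : 0 ≤ K0) {cD : ℝ}
    (hc : ∀ k ≤ R, ∀ x t, |∑ e, jB N (2 ^ k) x t e * ((η e : ℝ) + gr f e)| ≤ cD)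
    {l l' u v : ℝ} (hl : 0 ≤ l) (hl' : 0 ≤ l') (h1 : l ≤ 2 ^ k0) (h2 : l' ≤ 2 ^ k0) :
    ∑' h, Set.indicator {h : V N → ℤ | ¬ Gd N k0 R (fun y => (h y : ℝ) - f y) (u + v + cD)}
        (pin (wTD N b η) x₀) h ≤
      6 * 4 ^ (R - k0) * (K * Real.exp (b * l ^ 2 - l * u) +
        K0 * Real.exp (b * (l' ^ 2 * (Bad.card / 4 ^ k0)) - l' * v)) * Zp (wTD N b η) x₀ := by
  classical
  set Z := Zp (wTD N b η) x₀ with hZ
  have hwnn : ∀ h, 0 ≤ pin (wTD N b η) x₀ h :=
    H963.pin_nonneg (fun h => (H770.wTD_pos hb η h).le) x₀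
  have hZ0 : 0 ≤ Z := tsum_nonneg hwnn
  set A : ℝ := K * Real.exp (b * l ^ 2 - l * u) * Z with hA
  set B : ℝ := K0 * Real.exp (b * (l' ^ 2 * (Bad.card / 4 ^ k0)) - l' * v) * Z with hB
  set I : Finset (Σ _ : ℕ, V N × Bool × Bool × Bool) :=
    (Ico k0 R).sigma fun k => Al N k ×ˢ (univ : Finset (Bool × Bool × Bool)) with hI
  have hN : ∀ k, k ≤ R → 2 ^ k ≤ N := by
    intro k hkR
    rw [hR]
    exact Nat.pow_le_pow_right (by norm_num) hkR
  have main := chern I hwnn
    {h : V N → ℤ | ¬ Gd N k0 R (fun y => (h y : ℝ) - f y) (u + v + cD)}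
    (fun i h => ∑ e, jK N (2 ^ i.1) Bad i.2.1 i.2.2.1 i.2.2.2.1 i.2.2.2.2
      (if i.2.2.2.2 then l' else l) e * ((h (eT N e) - h (eS N e) + η e : ℤ) : ℝ))
    (fun i => if i.2.2.2.2 then l' * v else l * u)
    (fun i => if i.2.2.2.2 then K0 * Real.exp (b * (l' ^ 2 * (Bad.card / 4 ^ k0))) * Z
      else K * Real.exp (b * l ^ 2) * Z) ?_ ?_
  · refine main.trans ?_
    rw [hI, sum_sigma]
    have h3 : ∀ k ∈ Ico k0 R, (∑ z ∈ Al N k ×ˢ (univ : Finset (Bool × Bool × Bool)),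
        Real.exp (-(if z.2.2.2 = true then l' * v else l * u)) *
          (if z.2.2.2 = true then K0 * Real.exp (b * (l' ^ 2 * (Bad.card / 4 ^ k0))) * Z
            else K * Real.exp (b * l ^ 2) * Z)) ≤ 4 ^ (R - k) * (4 * (A + B)) := by
      intro k hk1
      rw [mem_Ico] at hk1
      have h4 : ∀ z ∈ Al N k ×ˢ (univ : Finset (Bool × Bool × Bool)),
          Real.exp (-(if z.2.2.2 = true then l' * v else l * u)) *
          (if z.2.2.2 = true then K0 * Real.exp (b * (l' ^ 2 * (Bad.card / 4 ^ k0))) * Z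
            else K * Real.exp (b * l ^ 2) * Z) = if z.2.2.2 = true then B else A := by
        intro z _
        split_ifs
        · rw [hB, sub_eq_add_neg, Real.exp_add]
          ring
        · rw [hA, sub_eq_add_neg, Real.exp_add]
          ring
      rw [sum_congr rfl h4, sum_product]
      have h5 : ∀ x ∈ Al N k, (∑ y : Bool × Bool × Bool, if y.2.2 = true then B else A) =
          4 * (A + B) := by
        intro x _
        simp only [Fintype.sum_prod_type, Fintype.sum_bool, Bool.false_eq_true, if_true, if_false]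
        ring
      rw [sum_congr rfl h5, sum_const, nsmul_eq_mul]
      have h6 : ((Al N k).card : ℝ) ≤ 4 ^ (R - k) := by
        exact_mod_cast al_card hR hk1.2.le
      have h7 : 0 ≤ 4 * (A + B) := by positivity
      exact mul_le_mul_of_nonneg_right h6 h7
    refine (sum_le_sum h3).trans ?_
    rw [← sum_mul]
    have h8 := geo4 hk
    have h9 : 0 ≤ A + B := by positivity
    have h10 : (0 : ℝ) ≤ 4 ^ (R - k0) := by positivity
    calc (∑ k ∈ Ico k0 R, (4 : ℝ) ^ (R - k)) * (4 * (A + B))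
        ≤ (4 / 3 * 4 ^ (R - k0)) * (4 * (A + B)) :=
          mul_le_mul_of_nonneg_right h8 (by positivity)
      _ = 16 / 3 * (4 ^ (R - k0) * (A + B)) := by ring
      _ ≤ 6 * (4 ^ (R - k0) * (A + B)) :=
          mul_le_mul_of_nonneg_right (by norm_num) (by positivity)
      _ = _ := by
        rw [hA, hB]
        ring
  · intro h hh
    have hh' : ¬ Gd N k0 R (fun y => (h y : ℝ) - f y) (u + v + cD) := hh
    unfold Gd at hh'
    push Not at hh'
    obtain ⟨k, hk1, hk2, x, hx, t, ht⟩ := hh'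
    obtain ⟨σ, τ, hst⟩ := big_split Bad (hc k hk2.le x t) hl hl' ht
    refine ⟨⟨k, x, t, σ, τ⟩, ?_, hst⟩
    rw [hI, mem_sigma]
    exact ⟨mem_Ico.2 ⟨hk1, hk2⟩, mem_product.2 ⟨hx, mem_univ _⟩⟩
  · rintro ⟨k, x, t, σ, τ⟩ hi
    rw [hI, mem_sigma] at hi
    obtain ⟨hk1, hx⟩ := hi
    simp only at hk1 hx
    rw [mem_Ico] at hk1
    have hkN := hN k hk1.2.le
    have h1k : 1 ≤ 2 ^ k := Nat.one_le_two_pow
    have hle : (2 : ℝ) ^ k0 ≤ ((2 ^ k : ℕ) : ℝ) := by
      push_cast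
      exact pow_le_pow_right₀ (by norm_num) hk1.1
    simp only
    cases τ
    · simp only [Bool.false_eq_true, if_false]
      obtain ⟨s1, s2⟩ := hX (jK N (2 ^ k) Bad x t σ false l) (fun e he => by
        unfold jK
        simp [he])
      refine ⟨s1, s2.trans ?_⟩
      refine mul_le_mul_of_nonneg_right (mul_le_mul_of_nonneg_left (Real.exp_le_exp.2 ?_) hK) hZ0
      exact mul_le_mul_of_nonneg_left (cosh_off h1k hkN Bad x t σ hl (h1.trans hle)) hb.le
    · simp only [if_true]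
      obtain ⟨s1, s2⟩ := hX0 (jK N (2 ^ k) Bad x t σ true l')
      refine ⟨s1, s2.trans ?_⟩
      refine mul_le_mul_of_nonneg_right (mul_le_mul_of_nonneg_left (Real.exp_le_exp.2 ?_) hK0) hZ0
      refine mul_le_mul_of_nonneg_left ?_ hb.le
      refine (cosh_in h1k hkN Bad x t σ hl' (h2.trans hle)).trans ?_
      refine mul_le_mul_of_nonneg_left ?_ (sq_nonneg l')
      refine div_le_div_of_nonneg_left (by positivity) (by positivity) ?_
      push_cast
      rw [← pow_mul, mul_comm k 2, pow_mul]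
      norm_num
      exact pow_le_pow_right₀ (by norm_num) hk1.1

/-- **Ed3 (iii), probabilistic half**: the smooth part `bxT (cP (h - f))` stays within
`(R - k0) (u + v + 1 + 36 CG)` of a constant with gradient `≤ 2 (R - k0) (..) / 2 ^ k0` -/
theorem smooth_tail {R k0 : ℕ} (hR : N = 2 ^ R) (hk : k0 ≤ R) {b : ℝ} (hb : 0 < b) {η : Ed N → ℤ}
    {f : V N → ℝ} {p q : V N} (hf : ∀ e, (η e : ℝ) + gr f e = bD p q e) {x₀ : V N}
    {Bad : Finset (Ed N)} {K K0 : ℝ} (hX : ExpB N b η x₀ Bad K)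
    (hX0 : ExpD N b η x₀ K0) (hK : 0 ≤ K) (hK0 : 0 ≤ K0)
    {l l' u v : ℝ} (hl : 0 ≤ l) (hl' : 0 ≤ l') (h1 : l ≤ 2 ^ k0) (h2 : l' ≤ 2 ^ k0) {B : ℝ}
    (hB : ((R : ℝ) - k0) * (u + v + (1 + 36 * CG)) ≤ B) :
    ∑' h, Set.indicator {h : V N → ℤ | ¬ ∃ c, (∀ x, |cP N k0 (fun y => (h y : ℝ) - f y) x - c| ≤ B) ∧
        (∀ x, |bxT N (2 ^ k0) (cP N k0 (fun y => (h y : ℝ) - f y)) x - c| ≤ B) ∧
        ∀ e, |gr (bxT N (2 ^ k0) (cP N k0 (fun y => (h y : ℝ) - f y))) e| ≤ 2 * B / 2 ^ k0}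
        (pin (wTD N b η) x₀) h ≤
      6 * 4 ^ (R - k0) * (K * Real.exp (b * l ^ 2 - l * u) +
        K0 * Real.exp (b * (l' ^ 2 * (Bad.card / 4 ^ k0)) - l' * v)) * Zp (wTD N b η) x₀ := by
  have hwnn : ∀ h, 0 ≤ pin (wTD N b η) x₀ h :=
    H963.pin_nonneg (fun h => (H770.wTD_pos hb η h).le) x₀
  have hw : Summable (pin (wTD N b η) x₀) := by
    have := (H883.bw_wTD hb η).em0 x₀
    simpa using this.sum 0
  have hc : ∀ k ≤ R, ∀ x t, |∑ e, jB N (2 ^ k) x t e * ((η e : ℝ) + gr f e)| ≤ 1 + 36 * CG := by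
    intro k hkR x t
    simp only [hf]
    refine jB_bD Nat.one_le_two_pow ?_ x t p q
    rw [hR]
    exact Nat.pow_le_pow_right (by norm_num) hkR
  refine le_trans (Summable.tsum_le_tsum (fun h => ?_) (hw.indicator _) (hw.indicator _))
    (gd_tail hR hk hb hX hX0 hK hK0 hc (u := u) (v := v) hl hl' h1 h2)
  refine Set.indicator_le_indicator_of_subset ?_ (fun h => hwnn h) h
  intro h hh
  rw [Set.mem_ofPred_eq] at hh ⊢
  intro hG
  apply hh
  obtain ⟨c, hcc⟩ := cP_le hR hk hG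
  have h3 : ∀ x, |cP N k0 (fun y => (h y : ℝ) - f y) x - c| ≤ B := fun x => (hcc x).trans hB
  refine ⟨c, h3, fun x => bxT_le Nat.one_le_two_pow h3 x, fun e => ?_⟩
  obtain ⟨x, t⟩ := e
  rw [gr_dr]
  have := bxT_grad (Nat.one_le_two_pow (n := k0)) h3 x t
  push_cast at this
  exact this

end

end Vale.Agent.P159.H340
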