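import Vale.Agent.P159.H340.Vb5
import Vale.Agent.P159.H363.Brd
import Vale.Agent.P159.H43.Num
import Vale.Agent.P159.H612.Pu4

/-!
P159, helper340, module VBV, part 6: FINE-φ, value level, with hypotheses in the neutral model: bound of
`T` of the cell mass in the integer model from `R` of the scalar mass in the neutral model.
-/

namespace Vale.Agent.P159.H340

open Finset Matrix MeasureTheory Filter Topology
open Vale.Agent.P159.TM.H104 (EM Ex Cv Lg li Gr)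
open Vale.Agent.P159.TM.Spec (V)
open Vale.Agent.P159.TM.SpecC (wT)
open Vale.Agent.P159.H37 (qf re wM wt Gm cellP Ev PK Rs Tq Zs ZM Zn post)
open Vale.Agent.P159.H864 (lapM MC cobV)
open Vale.Agent.P159.H896 (WM Ph Chn om)
open Vale.Agent.P159.H963 (Neu nM nMC nwt MF ntr gw_wT mf_MC mf_smul)
open Vale.Agent.P159.H43 (omT omH)
open Vale.Agent.P159.H145 (OscZ cs T0)

set_option linter.unusedSectionVars false

noncomputable section

/-! ### activities along a channel -/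

section om

variable {V' : Type} [Fintype V'] {I : Type} [Fintype I] {w : (V' → ℤ) → ℝ} {M M' : Matrix V' V' ℝ}
  {B : Matrix V' I ℝ} {K : Matrix I V' ℝ}

/-- the total activity decreases along a channel -/
theorem omT_mono (h : Chn M M' B K) (hW : WM w M') : omT w M' ≤ omT w M := by
  have hWM := h.wm hW
  rw [H43.omT_eq hW, H43.omT_eq hWM]
  have h1 := H896.om_mono h hW 1
  have h2 : omH w M' ≤ omH w M := by
    unfold Vale.Agent.P159.H43.omH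
    refine (H43.summable_omH hW).tsum_le_tsum (fun q => ?_) (H43.summable_omH hWM)
    split_ifs
    · exact le_rfl
    · exact H896.om_mono h hW q
  linarith

end om

section one

variable {N : ℕ} [NeZero N] {b t τ : ℝ} {l : ℕ}

/-- oscillation of the cell mass from the scalar mass `t` -/
theorem osc_MC (hb : 0 ≤ b) (hl : l ∣ N) (hτ : 0 < τ) (h : τ ≤ t)
    (ho : omT (wT b N) (t • (1 : Matrix (V N) (V N) ℝ)) ≤ 1 / 2) :
    OscZ (wT b N) (MC N l t τ) (1 / 2) := by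
  have := H159.nez_div hl
  have hW := H363.wm_MC (t := t) hb hl hτ h
  have h1 := omT_mono (H363.chn_MC hl hτ h (le_refl t)) hW
  rw [H864.MC_self] at h1
  exact H43.oscZ_mono hW.sym hW.em (H43.oscZ_omT hW) (h1.trans ho)

/-- `T` of the integer model at the source of `F + c` against `R` of the neutral model -/
theorem tq_MC (hb : 0 ≤ b) (hl : l ∣ N) (hτ : 0 < τ) (h : τ ≤ t)
    (hO : OscZ (wT b N) (MC N l t τ) (1 / 2)) (x₀ : V N) (F : V N → ℝ) (c : ℝ) :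
    Tq (wM (wT b N) (MC N l t τ)) (MC N l t τ *ᵥ fun x => F x + c) ≤
      Rs (nMC N l b t τ x₀) ((2 : ℝ) • (ntr (MC N l t τ) τ *ᵥ F)) + 8 := by
  have := H159.nez_div hl
  have hW := H363.wm_MC (t := t) hb hl hτ h
  have hw := gw_wT (N := N) hb
  have hF := mf_MC (N := N) hl hτ h
  have h1 := abs_le.1 (H145.Tq_le_T0 hW.per hW.sym hW.em hO le_rfl F c)
  have h2 := H612.T0_eq hw hF x₀ F
  have h3 : Tq (nMC N l b t τ x₀) (ntr (MC N l t τ) τ *ᵥ F) ≤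
      Rs (nMC N l b t τ x₀) ((2 : ℝ) • (ntr (MC N l t τ) τ *ᵥ F)) :=
    H692.Tq_le_Rs (hw.em_nM hF x₀) (hw.ev_nM _ τ x₀) (hw.pk_nM hF x₀) _
  have h4 : Tq (wM (wT b N) (MC N l t τ)) (MC N l t τ *ᵥ fun x => F x + c) ≤
      T0 (wT b N) (MC N l t τ) F + 16 * (1 / 2) := by
    have e : (fun x => F x + c) = cs F c := rfl
    rw [e]
    linarith [h1.2]
  have h5 : T0 (wT b N) (MC N l t τ) F = Tq (nMC N l b t τ x₀) (ntr (MC N l t τ) τ *ᵥ F) := h2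
  rw [h5] at h4
  linarith

/-- neutral source of a cell field -/
lemma ntr_cell {F : V N → ℝ} (hF : cellP N l *ᵥ F = F) :
    ntr (MC N l t τ) τ *ᵥ F = ntr (τ • (1 : Matrix (V N) (V N) ℝ)) τ *ᵥ F := by
  funext x
  rw [H963.ntr_mulVec, H963.ntr_mulVec, MC_cell t τ hF, Matrix.smul_mulVec, Matrix.one_mulVec]

lemma neu_ntr_smul (τ : ℝ) (F : V N → ℝ) :
    Neu (ntr (τ • (1 : Matrix (V N) (V N) ℝ)) τ *ᵥ F) := by
  unfold Vale.Agent.P159.H963.Neu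
  have hN : (Fintype.card (V N) : ℝ) ≠ 0 := Nat.cast_ne_zero.2 Fintype.card_ne_zero
  simp only [H963.ntr_mulVec, Matrix.smul_mulVec, Matrix.one_mulVec, Pi.smul_apply, smul_eq_mul]
  rw [Finset.sum_sub_distrib, ← Finset.mul_sum, Finset.sum_const, Finset.card_univ, nsmul_eq_mul]
  field_simp
  ring

/-- energy of the neutral source -/
lemma sum_ntr_le (hτ : 0 < τ) (F : V N → ℝ) :
    (∑ x, ((2 : ℝ) • (ntr (τ • (1 : Matrix (V N) (V N) ℝ)) τ *ᵥ F)) x ^ 2) / τ ≤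
      4 * (τ * ∑ x, F x ^ 2) := by
  have hN : (0 : ℝ) < Fintype.card (V N) := Nat.cast_pos.2 Fintype.card_pos
  set a : ℝ := (∑ y, F y) / Fintype.card (V N) with ha
  have e : ∀ x, ((2 : ℝ) • (ntr (τ • (1 : Matrix (V N) (V N) ℝ)) τ *ᵥ F)) x ^ 2 =
      4 * τ ^ 2 * (F x - a) ^ 2 := by
    intro x
    rw [Pi.smul_apply, smul_eq_mul, H963.ntr_mulVec, Matrix.smul_mulVec, Matrix.one_mulVec,
      Pi.smul_apply, smul_eq_mul, ha]
    ring
  simp only [e]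
  rw [← Finset.mul_sum]
  have h1 : ∑ x, (F x - a) ^ 2 ≤ ∑ x, F x ^ 2 := by
    have h2 : ∑ x, (F x - a) ^ 2 = ∑ x, F x ^ 2 - Fintype.card (V N) * a ^ 2 := by
      have h3 : ∀ x, (F x - a) ^ 2 = F x ^ 2 - 2 * a * F x + a ^ 2 := fun x => by ring
      simp only [h3]
      rw [Finset.sum_add_distrib, Finset.sum_sub_distrib, ← Finset.mul_sum, Finset.sum_const,
        Finset.card_univ, nsmul_eq_mul]
      have h4 : ∑ y, F y = Fintype.card (V N) * a := by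
        rw [ha]
        field_simp
      rw [h4]
      ring
    rw [h2]
    have : 0 ≤ Fintype.card (V N) * a ^ 2 := by positivity
    linarith
  rw [div_le_iff₀ hτ]
  have h5 := mul_le_mul_of_nonneg_left h1 (show 0 ≤ 4 * τ ^ 2 by positivity)
  calc 4 * τ ^ 2 * ∑ x, (F x - a) ^ 2 ≤ 4 * τ ^ 2 * ∑ x, F x ^ 2 := h5
    _ = _ := by ring

end one

/-- **`R` of the cell mass from `R` of the scalar mass, neutral model** -/
theorem rs_cell_N {b : ℝ} (hb : 0 < b) : ∃ C c : ℝ, 0 < C ∧ 0 < c ∧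
    ∀ (N : ℕ) [NeZero N] (n p : ℕ), 2 ^ n ∣ N → 2 ^ p ∣ N →
    ∀ t : ℝ, 0 < t → t * ((2 : ℝ) ^ n) ^ 2 ≤ 1 → 1 < t * 4 ^ (p + 1) → 9 ≤ t * (N : ℝ) ^ 2 →
    ∀ τ : ℝ, 0 < τ → τ ≤ t → ∀ (x₀ : V N) (J : V N → ℝ), Neu J →
      Rs (nMC N (2 ^ n) b t τ x₀) J ≤ Rs (nwt N b τ x₀) J +
        C * ((∑ x, J x ^ 2) / τ) * √(t * (N : ℝ) ^ 2) * (t * ((2 ^ n : ℕ) : ℝ) ^ 2) ^ c := by
  obtain ⟨C, c, hC, hc, hU⟩ := fine_rel_N hb
  obtain ⟨C₁, c₁, -, -, -, h₁⟩ := H692.fine_b_nwt hb.le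
  refine ⟨C, c, hC, hc, ?_⟩
  intro N _ n p hn hp t ht htn htp htN τ hτ hτt x₀ J hJ
  have := H159.nez_div hn
  have htl : t * ((2 ^ n : ℕ) : ℝ) ^ 2 ≤ 1 := by push_cast; exact htn
  set P : ℝ := √(t * (N : ℝ) ^ 2) * (t * ((2 ^ n : ℕ) : ℝ) ^ 2) ^ c with hP
  have hP0 : 0 ≤ P := by positivity
  have eMC : MC N (2 ^ n) t τ =
      τ • (1 : Matrix (V N) (V N) ℝ) + (t - τ) • (1 - cellP N (2 ^ n)) := by
    unfold Vale.Agent.P159.H864.MC
    module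
  have hm : H159.MasN t τ (τ • (1 : Matrix (V N) (V N) ℝ)) τ
      (τ • (1 : Matrix (V N) (V N) ℝ) + (t - τ) • (1 - cellP N (2 ^ n))) τ := by
    rw [← eMC]
    exact ⟨mf_smul hτ, mf_MC hn hτ hτt, hτ, fun u _ => by rw [H37.qf_smul_one],
      fun u _ => by
        rw [H37.qf_smul_one]
        exact H864.qf_MC_ge hn hτt u, fun u _ => H864.qf_MC_le hn hτt u⟩
  have h1 := (hU N t ht htN (2 ^ n) hn htl τ (t - τ) _ τ (sub_nonneg.2 hτt) (by linarith) hm x₀ J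
    hJ).2
  rw [← eMC] at h1
  have h2 := (h₁ N n p hn hp t ht htn htp τ hτ hτt x₀ J hJ _ le_rfl).1
  have hmf := mf_add_lap (H963.mf_smul (N := N) hτ) (inv_nonneg.2 hb.le)
  have h3 := hmf.qf_inv_le hτ (fun u => by
    rw [H37.qf_add_mat, H37.qf_smul_one, H864.qf_smul_mat, H864.qf_lapM]
    have h0 : 0 ≤ TM.H764.grd u := add_nonneg (TM.H764.Q_nonneg _ _) (TM.H764.Q_nonneg _ _)
    have := mul_nonneg (inv_nonneg.2 hb.le) h0
    linarith) J
  have h4 : C * qf (τ • (1 : Matrix (V N) (V N) ℝ) + b⁻¹ • lapM)⁻¹ J * √(t * (N : ℝ) ^ 2) *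
      (t * ((2 ^ n : ℕ) : ℝ) ^ 2) ^ c ≤ C * ((∑ x, J x ^ 2) / τ) * P := by
    rw [mul_assoc, ← hP]
    exact mul_le_mul_of_nonneg_right (mul_le_mul_of_nonneg_left h3 hC.le) hP0
  have h5 : 0 ≤ C * ((∑ x, J x ^ 2) / τ) * P := by positivity
  have e5 : C * ((∑ x, J x ^ 2) / τ) * √(t * (N : ℝ) ^ 2) * (t * ((2 ^ n : ℕ) : ℝ) ^ 2) ^ c =
      C * ((∑ x, J x ^ 2) / τ) * P := by rw [hP]; ring
  rw [e5]
  have d0 : Rs (nwt N b τ x₀) J = Lg (nwt N b τ x₀) J - Lg (nwt N b τ x₀) 0 -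
      qf (Gm (nM (wT b N) (τ • (1 : Matrix (V N) (V N) ℝ)) τ x₀)) J / 2 := rfl
  have d1 : Rs (nMC N (2 ^ n) b t τ x₀) J = Lg (nMC N (2 ^ n) b t τ x₀) J -
      Lg (nMC N (2 ^ n) b t τ x₀) 0 -
      qf (Gm (nM (wT b N) (MC N (2 ^ n) t τ) τ x₀)) J / 2 := rfl
  rw [d0, d1]
  linarith

end

end Vale.Agent.P159.H340
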