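import Vale.Agent.P159.H972.Lk5
import Vale.Agent.P159.H513.Eta15

/-!
P159 / LINKW (helper340), last step: from the end of the chain (helper972, `chain_end`) and the
comparison of the neutral covariance with the helicity of the squares (`lw_two_loc`) to the rate of the
stiffness at all large sides, and to its sums.
-/

set_option linter.unusedSectionVars false

namespace Vale.Agent.P159.H340.Le

open Finset Matrix Filter
open Vale.Agent.P159
open Vale.Agent.P159.H37 (qf Gm)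
open Vale.Agent.P159.TM.SpecI (V)
open Vale.Agent.P159.H859 (lapz smz pf enz Fsu)
open Vale.Agent.P159.H864 (lapM)
open Vale.Agent.P159.H972

noncomputable section

variable {P : Par} {b s : ℝ} {N0 : ℕ} {ε Y a : ℕ → ℝ}

/-- the chain is long enough -/
lemma lev_ge_K (h : Chn P b s N0 ε Y a) {J q u : ℕ} (hL : Lg2 P s N0 J q u) :
    u + q * (Nat.clog 2 u + 1) + 5 * Nat.clog 2 u ≤ lev P ε u J := by
  have hu := hL.lrg.u0
  have w1 := lev_low h hu J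
  have w2 := hL.big
  have w3 := clog_le_logb (u := u) (by have := h.n0; omega)
  have hl1 := hL.l1
  have hq : (0 : ℝ) ≤ q := Nat.cast_nonneg _
  have w4 : ((u + q * (Nat.clog 2 u + 1) + 5 * Nat.clog 2 u : ℕ) : ℝ) ≤ lev P ε u J := by
    push_cast
    have w5 : (q : ℝ) * (Nat.clog 2 u + 1) ≤ q * (3 * Real.logb 2 u) :=
      mul_le_mul_of_nonneg_left (by linarith) hq
    nlinarith
  exact_mod_cast w4

/-- **the stiffness of the large squares** -/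
theorem rate_at (h : Chn P b s N0 ε Y a) {c1 p3 C1 : ℝ} (hc1 : 1 ≤ c1)
    (hK1 : KP P b c1 N0 ε a) (hK2 : KT P b s C1 N0 ε) (hK3 : KD P b p3 N0 ε) (hp3 : 1 / 2 ≤ p3)
    {J q u : ℕ} (hL : Lg2 P s N0 J q u) (hJ : (J : ℝ) * P.thp ≤ 2 * q + 8)
    (hC1 : 12 * (q : ℝ) + 49 ≤ C1) {C : ℝ} (hC : 1 ≤ C) (hCb : 2 * b ≤ C) {C' : ℝ} (hC' : 0 < C')
    (hq : 4 ≤ q) (hT : ∀ (n : ℕ) [NeZero n] (u j K L : ℕ), 2 * j + 1 ≤ u → K = u + q * (j + 1) →
      2 ^ (K + 1) + 1 ≤ n → 96 * 2 ^ (8 * j) * (2 ^ (K + 1) + 1) ≤ L →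
      ∀ t : ℝ, 0 < t → t * 4 ^ (K + 5 * j) ≤ 1 → ∀ κ : ℝ, 0 ≤ κ →
      qf (Gm (H37.wt n b t)) (fun x =>
        lapz (smz (2 ^ (u - 2 * j)) (pf (2 ^ K) (2 ^ K) (2 ^ u))) ((x.1.val : ℤ), (x.2.val : ℤ))) ≤
        κ * enz (pf (2 ^ K) (2 ^ K) (2 ^ u)) →
      stiff L b ≤ κ + C' / 2 ^ j) {L : ℕ}
    (hLL : 96 * 2 ^ (8 * Nat.clog 2 u) * (2 ^ (u + q * (Nat.clog 2 u + 1) + 1) + 1) ≤ L) :
    stiff L b - 2 / Real.pi ≤ (1 + 8 * Rc b c1 C J + C') * (u : ℝ) ^ (-(s * P.pf)) := by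
  have hu := hL.lrg.u0
  have hb := h.hb
  have hn0 := h.npos hu
  have hpf0 := h.adm.pf0
  have hpf1 := h.adm.pf1
  have hs1 := h.s1
  have hs2 := h.s2
  obtain ⟨ha1, ha2⟩ := h.a1 u hu
  have hu1 : (1 : ℝ) ≤ u := by
    have := h.n0
    exact_mod_cast (by omega : 1 ≤ u)
  obtain ⟨j, hj⟩ : ∃ j, Nat.clog 2 u = j := ⟨_, rfl⟩
  obtain ⟨K, hK⟩ : ∃ K, K = u + q * (j + 1) := ⟨_, rfl⟩
  have hKlev := lev_ge_K h hL
  rw [hj, ← hK] at hKlev
  rw [hj, ← hK] at hLL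
  have htor : lev P ε u J + 3 ≤ tor P ε u J := by
    have h1 := tor_ge h (u := u) (i := J) hu
    have h2 : lev P ε u J ≤ lev P ε u (J + 1) := Nat.le_add_right _ _
    have h3 := h.adm.hk
    omega
  have hKu : u + 4 ≤ K := by
    rw [hK]
    have : 4 * (j + 1) ≤ q * (j + 1) := Nat.mul_le_mul_right _ hq
    omega
  set v : ℝ := (u : ℝ) ^ (-(s * P.pf)) with hv
  have hv0 : 0 < v := Real.rpow_pos_of_pos hn0 _
  -- the covariance
  have key := chain_end h hc1 hK1 hK2 hK3 hp3 hL hJ hC1 hC hCb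
  set r := tor P ε u J with hr
  set m := lev P ε u J with hm
  have hf1 : Fit (2 ^ r) (fu u) := by
    refine fu_fit ?_
    omega
  set g : ℤ × ℤ → ℝ := smz (2 ^ (u - 2 * j)) (pf (2 ^ K) (2 ^ K) (2 ^ u)) with hg
  have hge : g = fun c => fu u (c + (4 * 2 ^ u - 2 ^ K, 4 * 2 ^ u - 2 ^ K)) := by
    funext c
    rw [hg, fu_eq, hj, smz_shift, two_pow_cast]
  have p1 : (2 : ℤ) ^ (u - 2 * j) ≤ 2 ^ u := pow_le_pow_right₀ (by norm_num) (by omega)
  have p2 : (16 : ℤ) * 2 ^ u ≤ 2 ^ K := by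
    calc (16 : ℤ) * 2 ^ u = 2 ^ (u + 4) := by rw [pow_add]; ring
      _ ≤ _ := pow_le_pow_right₀ (by norm_num) hKu
  have p3' : (8 : ℤ) * 2 ^ K ≤ 2 ^ r := by
    calc (8 : ℤ) * 2 ^ K = 2 ^ (K + 3) := by rw [pow_add]; ring
      _ ≤ _ := pow_le_pow_right₀ (by norm_num) (by omega)
  have p4 : (0 : ℤ) < 2 ^ u := by positivity
  have hf2 : Fit (2 ^ r) g := by
    intro c hc
    have h1 := H859.smz_ne hc
    push_cast at h1 ⊢
    omega
  have hTI := H864.ti_Gm_wt (N := 2 ^ r) (b := b) (tn m)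
  have e1 : qf (Gm (H37.wt (2 ^ r) b (tn m))) (fun x => lapz g ((x.1.val : ℤ), (x.2.val : ℤ))) =
      qf (Gm (H37.wt (2 ^ r) b (tn m))) (lapM *ᵥ em (2 ^ r) (fu u)) := by
    rw [lapM_em hf1]
    have h1 := qf_lap_shift hTI (4 * 2 ^ u - 2 ^ K, 4 * 2 ^ u - 2 ^ K) hf1 (by rw [← hge]; exact hf2)
    rw [← hge] at h1
    exact h1
  -- the energy
  have hE1 : enz (fu u) ≤ enz (pf (2 ^ K) (2 ^ K) (2 ^ u)) := by
    have h1 := D_le u
    rw [enz_pf_center (4 * 2 ^ u) (2 ^ K), two_pow_cast] at h1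
    exact h1
  have hE2 : (4 : ℝ) ^ u ≤ 8 * enz (pf (2 ^ K) (2 ^ K) (2 ^ u)) := by
    have h1 := enz_ge (2 ^ K) (2 ^ K) (u := u) (by
      have := h.n0
      omega)
    rw [two_pow_cast] at h1
    linarith
  have hR0 : 0 ≤ Rc b c1 C J := by
    unfold Rc
    positivity
  set E := enz (pf (2 ^ K) (2 ^ K) (2 ^ u)) with hE
  have hE0 : 0 ≤ E := (D_nonneg u).trans hE1
  have ha0 : 0 < a u := by linarith
  have hκ : qf (Gm (H37.wt (2 ^ r) b (tn m))) (fun x => lapz g ((x.1.val : ℤ), (x.2.val : ℤ))) ≤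
      (1 / a u + 8 * Rc b c1 C J * v) * E := by
    rw [e1]
    refine key.trans ?_
    have h1 : enz (fu u) / a u ≤ 1 / a u * E := by
      rw [div_mul_eq_mul_div, one_mul]
      exact div_le_div_of_nonneg_right hE1 ha0.le
    have h2 : Rc b c1 C J * v * 4 ^ u ≤ Rc b c1 C J * v * (8 * E) :=
      mul_le_mul_of_nonneg_left hE2 (by positivity)
    have h3 : (1 / a u + 8 * Rc b c1 C J * v) * E = 1 / a u * E + Rc b c1 C J * v * (8 * E) := by
      ring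
    rw [h3]
    exact add_le_add h1 h2
  have hn : 2 ^ (K + 1) + 1 ≤ 2 ^ r := by
    have h1 : 2 ^ (K + 2) ≤ 2 ^ r := Nat.pow_le_pow_right (by norm_num) (by omega)
    have h2 : 2 ^ (K + 2) = 2 * 2 ^ (K + 1) := by rw [pow_succ]; ring
    have h3 : 1 ≤ 2 ^ (K + 1) := Nat.one_le_two_pow
    omega
  have ht : tn m * 4 ^ (K + 5 * j) ≤ 1 := by
    unfold tn
    rw [inv_mul_le_iff₀ (by positivity), mul_one]
    exact pow_le_pow_right₀ (by norm_num) hKlev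
  have fin := hT (2 ^ r) u j K L (by rw [← hj]; exact hL.cl) hK hn hLL (tn m) (tn_pos m) ht
    (1 / a u + 8 * Rc b c1 C J * v) (by positivity) hκ
  -- numbers
  have hx := (abs_le.1 (h.xa u hu)).2
  have hus : (u : ℝ) ^ (-s) ≤ v := by
    refine rp_anti (by have := h.n0; omega) le_rfl ?_ (by positivity)
    nlinarith
  have h2j : C' / 2 ^ j ≤ C' * v := by
    rw [div_le_iff₀ (by positivity)]
    have h1 : (u : ℝ) ≤ 2 ^ j := by
      rw [← hj]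
      exact clog_ge u
    have h2 : 1 ≤ v * 2 ^ j := by
      have h3 : 1 ≤ v * u := by
        have h4 : (u : ℝ) ^ (-(1 : ℝ)) ≤ v :=
          Real.rpow_le_rpow_of_exponent_le hu1 (by nlinarith)
        have h5 : (u : ℝ) ^ (-(1 : ℝ)) * u = 1 := by
          rw [Real.rpow_neg_one]
          exact inv_mul_cancel₀ hn0.ne'
        have h6 := mul_le_mul_of_nonneg_right h4 hn0.le
        linarith
      exact h3.trans (mul_le_mul_of_nonneg_left h1 hv0.le)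
    calc C' = C' * 1 := (mul_one _).symm
      _ ≤ C' * (v * 2 ^ j) := mul_le_mul_of_nonneg_left h2 hC'.le
      _ = _ := by ring
  have hinv : 1 / a u = (a u)⁻¹ := one_div _
  rw [hinv] at fin
  have : (1 + 8 * Rc b c1 C J + C') * v = v + 8 * Rc b c1 C J * v + C' * v := by ring
  rw [this]
  linarith

/-! ### all large levels -/

lemma tend_log_div : Tendsto (fun u : ℕ => Real.logb 2 (u : ℝ) / u) atTop (nhds 0) := by
  have h1 : Tendsto (fun u : ℕ => Real.log (u : ℝ) / u) atTop (nhds 0) := by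
    have h2 : Tendsto (fun x : ℝ => Real.log x / x) atTop (nhds 0) := by
      have := Real.isLittleO_log_id_atTop.tendsto_div_nhds_zero
      simpa using this
    exact h2.comp tendsto_natCast_atTop_atTop
  have h4 := h1.const_mul (1 / Real.log 2)
  rw [mul_zero] at h4
  refine h4.congr fun u => ?_
  unfold Real.logb
  ring

/-- a multiple of the logarithm is small against `u` -/
lemma ev_clog (c d : ℕ) : ∀ᶠ u : ℕ in atTop, c * (Nat.clog 2 u + 1) + d ≤ u := by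
  have h1 := tend_log_div.const_mul (c : ℝ)
  have h3 : Tendsto (fun u : ℕ => (1 : ℝ) / u) atTop (nhds 0) := tendsto_one_div_atTop_nhds_zero_nat
  have h4 := h1.add (h3.const_mul (2 * (c : ℝ) + d))
  simp only [mul_zero, add_zero] at h4
  filter_upwards [h4.eventually (gt_mem_nhds one_pos), eventually_ge_atTop 1] with u hu hu1
  have hu0 : (0 : ℝ) < u := by exact_mod_cast hu1
  have h5 := clog_le_logb hu1
  have h6 : (c : ℝ) * Real.logb 2 u + (2 * c + d) < u := by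
    have : ((c : ℝ) * Real.logb 2 u + (2 * c + d)) / u < 1 := by
      refine lt_of_eq_of_lt ?_ hu
      ring
    rw [div_lt_one hu0] at this
    exact this
  have h7 : ((c * (Nat.clog 2 u + 1) + d : ℕ) : ℝ) ≤ u := by
    push_cast
    have hc : (0 : ℝ) ≤ c := Nat.cast_nonneg _
    have := mul_le_mul_of_nonneg_left h5 hc
    linarith
  exact_mod_cast h7

/-- every large level is large -/
lemma ev_Lg2 (P : Par) {s : ℝ} (hs : 0 < s) (hpf : 0 < P.pf) (N0 : ℕ) {J q : ℕ}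
    (hJ : 3 * (q : ℝ) + 10 ≤ J * (2 * s * P.thp)) : ∀ᶠ u : ℕ in atTop, Lg2 P s N0 J q u := by
  obtain ⟨u0, hu0⟩ := ev_Lrg P N0 J
  have h1 : Tendsto (fun u : ℕ => 34 * (u : ℝ) ^ (-(2 * s * P.pf))) atTop (nhds 0) := by
    have h2 : Tendsto (fun u : ℕ => (u : ℝ) ^ (-(2 * s * P.pf))) atTop (nhds 0) :=
      (tendsto_rpow_neg_atTop (by positivity)).comp tendsto_natCast_atTop_atTop
    simpa using h2.const_mul 34
  have h3 : Tendsto (fun u : ℕ => (u : ℝ)) atTop atTop := tendsto_natCast_atTop_atTop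
  filter_upwards [eventually_ge_atTop u0, eventually_ge_atTop 4, ev_clog 2 0,
    h3.eventually_ge_atTop ((4 : ℝ) ^ (2 * (J : ℝ) * (3 * P.thp + 1))),
    h1.eventually (gt_mem_nhds one_pos)] with u a1 a2 a3 a4 a5
  have hu4 : (4 : ℝ) ≤ u := by exact_mod_cast a2
  have hl : 1 ≤ Real.logb 2 u := by
    rw [Real.le_logb_iff_rpow_le one_lt_two (by linarith), Real.rpow_one]
    linarith
  refine ⟨hu0 u a1, hl, by omega, ?_, a4, a5.le, ?_⟩
  · have := mul_le_mul_of_nonneg_right hJ (by linarith : 0 ≤ Real.logb 2 u)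
    linarith
  · have h6 : u ^ 2 ≤ 2 ^ u := by
      clear a1 a3 a4 a5 hu4 hl h1 h3 hu0
      induction u, a2 using Nat.le_induction with
      | base => norm_num
      | succ k hk ih =>
        rw [pow_succ 2 k]
        nlinarith
    have h7 : (u : ℝ) ^ (2 : ℝ) = ((u ^ 2 : ℕ) : ℝ) := by
      push_cast
      exact_mod_cast Real.rpow_natCast (u : ℝ) 2
    rw [h7]
    exact_mod_cast h6

/-- the number of windows -/
lemma ex_J {thp s : ℝ} (h0 : 0 < thp) (h1 : thp ≤ 1) (hs : 3 / 4 ≤ s) (q : ℕ) :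
    ∃ J : ℕ, (J : ℝ) * thp ≤ 2 * q + 8 ∧ 3 * (q : ℝ) + 10 ≤ J * (2 * s * thp) := by
  have hq : (0 : ℝ) ≤ q := Nat.cast_nonneg _
  refine ⟨⌈(2 * (q : ℝ) + 20 / 3) / thp⌉₊, ?_, ?_⟩
  · have h2 := (Nat.ceil_lt_add_one (by positivity : 0 ≤ (2 * (q : ℝ) + 20 / 3) / thp)).le
    have h3 := mul_le_mul_of_nonneg_right h2 h0.le
    rw [add_mul, div_mul_cancel₀ _ h0.ne'] at h3
    linarith
  · have h2 := Nat.le_ceil ((2 * (q : ℝ) + 20 / 3) / thp)
    rw [div_le_iff₀ h0] at h2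
    set J : ℝ := (⌈(2 * (q : ℝ) + 20 / 3) / thp⌉₊ : ℝ)
    nlinarith

/-- **the rate of the stiffness**, one parameter set; the constant `C1` of (K2) depends on `b` only -/
theorem rate_evC {b : ℝ} (hb : 0 < b) : ∃ C1 : ℝ, 0 ≤ C1 ∧
    ∀ (P : Par) (s : ℝ) (N0 : ℕ) (ε Y a : ℕ → ℝ), Chn P b s N0 ε Y a → ∀ c1 p3 : ℝ, 1 ≤ c1 →
      KP P b c1 N0 ε a → KT P b s C1 N0 ε → KD P b p3 N0 ε → 1 / 2 ≤ p3 →
      ∃ C : ℝ, ∀ᶠ i : ℕ in atTop,
        stiff (2 ^ i) b - 2 / Real.pi ≤ C * (i : ℝ) ^ (-(s * P.pf)) := by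
  obtain ⟨C', q, hC', hq, hT⟩ := lw_two_loc hb
  refine ⟨12 * (q : ℝ) + 49, by positivity, ?_⟩
  intro P s N0 ε Y a h c1 p3 hc1 hK1 hK2 hK3 hp3
  obtain ⟨J, hJ1, hJ2⟩ := ex_J P.thp0 h.adm.thp1 h.s1 q
  have hs0 : 0 < s := by linarith [h.s1]
  have hpf0 := h.adm.pf0
  have hθ : 0 < s * P.pf := by positivity
  set C := max 1 (2 * b) with hC
  set D := 1 + 8 * Rc b c1 C J + C' with hD
  have hD0 : 0 ≤ D := by
    have : 0 ≤ Rc b c1 C J := by
      unfold Rc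
      have : 0 ≤ C := le_trans zero_le_one (le_max_left _ _)
      positivity
    positivity
  refine ⟨D * 3 ^ (s * P.pf), ?_⟩
  have hdiv : Tendsto (fun i : ℕ => i / 2) atTop atTop :=
    Nat.tendsto_div_const_atTop (by norm_num)
  filter_upwards [hdiv.eventually (ev_Lg2 P hs0 hpf0 N0 hJ2), hdiv.eventually (ev_clog (q + 8) 10),
    eventually_ge_atTop 3] with i e1 e2 e3
  set u := i / 2 with hu
  have hLL : 96 * 2 ^ (8 * Nat.clog 2 u) * (2 ^ (u + q * (Nat.clog 2 u + 1) + 1) + 1) ≤ 2 ^ i := by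
    set j := Nat.clog 2 u with hj
    have h1 : 1 ≤ 2 ^ (u + q * (j + 1) + 1) := Nat.one_le_two_pow
    calc 96 * 2 ^ (8 * j) * (2 ^ (u + q * (j + 1) + 1) + 1)
        ≤ 2 ^ 7 * 2 ^ (8 * j) * (2 * 2 ^ (u + q * (j + 1) + 1)) :=
          Nat.mul_le_mul (Nat.mul_le_mul_right _ (by norm_num)) (by omega)
      _ = 2 ^ (u + q * (j + 1) + 8 * j + 9) := by
          rw [show u + q * (j + 1) + 8 * j + 9 = 7 + 8 * j + 1 + (u + q * (j + 1) + 1) by ring]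
          generalize u + q * (j + 1) + 1 = A
          rw [pow_add, pow_add, pow_add]
          ring
      _ ≤ 2 ^ i := by
          refine Nat.pow_le_pow_right (by norm_num) ?_
          have h2 : (q + 8) * (j + 1) = q * (j + 1) + 8 * (j + 1) := by ring
          rw [h2] at e2
          omega
  have h1 := rate_at h hc1 hK1 hK2 hK3 hp3 e1 hJ1 le_rfl
    (le_max_left 1 (2 * b)) (le_max_right 1 (2 * b)) hC' hq
    (fun n _ u j K L => hT n u j K L) hLL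
  refine h1.trans ?_
  rw [mul_assoc]
  refine mul_le_mul_of_nonneg_left ?_ hD0
  have hi : (i : ℝ) ≤ 3 * u := by
    have : i ≤ 3 * u := by omega
    exact_mod_cast this
  have hi0 : (0 : ℝ) < i := by exact_mod_cast (by omega : 0 < i)
  have hu0 : (0 : ℝ) < u := by linarith
  have h2 : (u : ℝ) ^ (-(s * P.pf)) ≤ ((i : ℝ) / 3) ^ (-(s * P.pf)) :=
    Real.rpow_le_rpow_of_nonpos (by positivity) (by linarith) (by linarith)
  refine h2.trans (le_of_eq ?_)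
  rw [Real.div_rpow hi0.le (by norm_num), Real.rpow_neg (by norm_num : (0 : ℝ) ≤ 3), div_inv_eq_mul]
  ring

/-- the rate, one parameter set -/
theorem rate_ev (h : Chn P b s N0 ε Y a) {c1 p3 : ℝ} (hc1 : 1 ≤ c1)
    (hK1 : KP P b c1 N0 ε a) (hK2 : ∀ C1, KT P b s C1 N0 ε) (hK3 : KD P b p3 N0 ε)
    (hp3 : 1 / 2 ≤ p3) : ∃ C : ℝ, ∀ᶠ i : ℕ in atTop,
      stiff (2 ^ i) b - 2 / Real.pi ≤ C * (i : ℝ) ^ (-(s * P.pf)) := by
  obtain ⟨C1, -, hC⟩ := rate_evC h.hb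
  exact hC P s N0 ε Y a h c1 p3 hc1 hK1 (hK2 C1) hK3 hp3

/-! ### sums -/

/-- `sum j ^ (e - 1) <= n ^ e / e` -/
lemma sum_pow_le {e : ℝ} (h0 : 0 < e) (h1 : e ≤ 1) (n : ℕ) :
    ∑ j ∈ range n, ((j + 1 : ℕ) : ℝ) ^ (e - 1) ≤ (n : ℝ) ^ e / e := by
  induction n with
  | zero => simp [Real.zero_rpow h0.ne']
  | succ n ih =>
    rw [sum_range_succ]
    have hn : (0 : ℝ) < ((n + 1 : ℕ) : ℝ) := by positivity
    have h2 : (n : ℝ) ^ e + e * ((n + 1 : ℕ) : ℝ) ^ (e - 1) ≤ ((n + 1 : ℕ) : ℝ) ^ e := by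
      have h3 : (n : ℝ) = ((n + 1 : ℕ) : ℝ) * (1 + -(1 / ((n + 1 : ℕ) : ℝ))) := by
        field_simp
        push_cast
        ring
      have h4 : (-1 : ℝ) ≤ -(1 / ((n + 1 : ℕ) : ℝ)) := by
        have : 1 / ((n + 1 : ℕ) : ℝ) ≤ 1 := by
          rw [div_le_one hn]
          push_cast
          linarith [Nat.cast_nonneg (α := ℝ) n]
        linarith
      have h5 := rpow_one_add_le_one_add_mul_self h4 h0.le h1
      have h6 : (n : ℝ) ^ e = ((n + 1 : ℕ) : ℝ) ^ e * (1 + -(1 / ((n + 1 : ℕ) : ℝ))) ^ e := by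
        conv_lhs => rw [h3]
        rw [Real.mul_rpow hn.le (by linarith)]
      have h7 := mul_le_mul_of_nonneg_left h5 (Real.rpow_nonneg hn.le e)
      have h8 : ((n + 1 : ℕ) : ℝ) ^ (e - 1) = ((n + 1 : ℕ) : ℝ) ^ e * (1 / ((n + 1 : ℕ) : ℝ)) := by
        rw [Real.rpow_sub_one hn.ne', div_eq_mul_one_div]
      rw [h6, h8]
      linarith
    have h3 : (n : ℝ) ^ e / e + ((n + 1 : ℕ) : ℝ) ^ (e - 1) ≤ ((n + 1 : ℕ) : ℝ) ^ e / e := by
      rw [div_add' _ _ _ h0.ne', div_le_div_iff_of_pos_right h0]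
      linarith
    linarith

lemma two_term {e : ℝ} (h1 : e ≤ 1) {j : ℕ} (hj : 1 ≤ j) :
    (j : ℝ) ^ (e - 1) ≤ 2 ^ (1 - e) * ((j + 1 : ℕ) : ℝ) ^ (e - 1) := by
  have hj0 : (0 : ℝ) < j := by exact_mod_cast hj
  have hj1 : (1 : ℝ) ≤ j := by exact_mod_cast hj
  have h2 : (2 * (j : ℝ)) ^ (e - 1) ≤ ((j + 1 : ℕ) : ℝ) ^ (e - 1) := by
    refine Real.rpow_le_rpow_of_nonpos (by positivity) ?_ (by linarith)
    push_cast
    linarith
  rw [Real.mul_rpow (by norm_num) hj0.le] at h2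
  have h3 : (2 : ℝ) ^ (1 - e) * (2 ^ (e - 1) * (j : ℝ) ^ (e - 1)) = (j : ℝ) ^ (e - 1) := by
    rw [← mul_assoc, ← Real.rpow_add (by norm_num)]
    simp
  calc (j : ℝ) ^ (e - 1) = 2 ^ (1 - e) * (2 ^ (e - 1) * (j : ℝ) ^ (e - 1)) := h3.symm
    _ ≤ _ := mul_le_mul_of_nonneg_left h2 (by positivity)

/-- sums of a sequence with a rate, `θ ≥ 0` -/
theorem sum_bd {x : ℕ → ℝ} {C θ e : ℝ} (h0 : 0 < e) (h1 : e ≤ 1) (hθ : 1 - θ ≤ e)
    (h : ∀ᶠ i : ℕ in atTop, x i ≤ C * (i : ℝ) ^ (-θ)) :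
    ∃ A B : ℝ, 0 ≤ A ∧ 0 ≤ B ∧ ∀ n : ℕ, ∑ j ∈ range n, x j ≤ A + B * (n : ℝ) ^ e := by
  obtain ⟨i0, hi0⟩ := eventually_atTop.1 (h.and (eventually_ge_atTop 1))
  refine ⟨∑ j ∈ range i0, |x j|, |C| * 2 ^ (1 - e) / e, sum_nonneg fun _ _ => abs_nonneg _,
    by positivity, fun n => ?_⟩
  have key : ∀ j : ℕ, x j ≤ (if j < i0 then |x j| else 0) +
      |C| * 2 ^ (1 - e) * ((j + 1 : ℕ) : ℝ) ^ (e - 1) := by
    intro j
    have hnn : 0 ≤ |C| * 2 ^ (1 - e) * ((j + 1 : ℕ) : ℝ) ^ (e - 1) := by positivity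
    split_ifs with hj
    · linarith [le_abs_self (x j)]
    · obtain ⟨a1, a2⟩ := hi0 j (not_lt.1 hj)
      rw [zero_add]
      have hj1 : (1 : ℝ) ≤ j := by exact_mod_cast a2
      calc x j ≤ C * (j : ℝ) ^ (-θ) := a1
        _ ≤ |C| * (j : ℝ) ^ (-θ) := mul_le_mul_of_nonneg_right (le_abs_self C) (by positivity)
        _ ≤ |C| * (j : ℝ) ^ (e - 1) :=
          mul_le_mul_of_nonneg_left (Real.rpow_le_rpow_of_exponent_le hj1 (by linarith))
            (abs_nonneg C)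
        _ ≤ |C| * (2 ^ (1 - e) * ((j + 1 : ℕ) : ℝ) ^ (e - 1)) :=
          mul_le_mul_of_nonneg_left (two_term h1 a2) (abs_nonneg C)
        _ = _ := by ring
  have h2 := sum_le_sum fun j (_ : j ∈ range n) => key j
  rw [sum_add_distrib, ← mul_sum] at h2
  have h3 : ∑ j ∈ range n, (if j < i0 then |x j| else 0) ≤ ∑ j ∈ range i0, |x j| := by
    rw [← sum_filter]
    refine sum_le_sum_of_subset_of_nonneg (fun j hj => ?_) fun _ _ _ => abs_nonneg _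
    rw [mem_filter] at hj
    exact mem_range.2 hj.2
  have h4 := mul_le_mul_of_nonneg_left (sum_pow_le h0 h1 n)
    (by positivity : 0 ≤ |C| * 2 ^ (1 - e))
  have h5 : |C| * 2 ^ (1 - e) / e * (n : ℝ) ^ e = |C| * 2 ^ (1 - e) * ((n : ℝ) ^ e / e) := by ring
  rw [h5]
  linarith

/-- the sums are smaller than every larger power, also over `range (n + 1)` -/
theorem sum_ev {x : ℕ → ℝ} {C θ e : ℝ} (he : 0 < e) (hθ0 : 0 ≤ θ) (hθ : 1 - θ < e)
    (h : ∀ᶠ i : ℕ in atTop, x i ≤ C * (i : ℝ) ^ (-θ)) :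
    ∀ᶠ n : ℕ in atTop, ∑ j ∈ range n, x j ≤ (n : ℝ) ^ e ∧
      ∑ j ∈ range (n + 1), x j ≤ (n : ℝ) ^ e := by
  obtain ⟨e', h1, h2, h3, h4⟩ : ∃ e', 0 < e' ∧ e' ≤ 1 ∧ 1 - θ ≤ e' ∧ e' < e := by
    rcases lt_or_ge 1 e with h5 | h5
    · exact ⟨1, one_pos, le_rfl, by linarith, h5⟩
    · refine ⟨(max (1 - θ) 0 + e) / 2, ?_, ?_, ?_, ?_⟩
      · have := le_max_right (1 - θ) 0
        linarith
      · have : max (1 - θ) 0 ≤ 1 := max_le (by linarith) (by norm_num)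
        linarith
      · have := le_max_left (1 - θ) 0
        linarith
      · have : max (1 - θ) 0 < e := max_lt hθ he
        linarith
  obtain ⟨A, B, hA, hB, hn⟩ := sum_bd h1 h2 h3 h
  have t1 : Tendsto (fun n : ℕ => (n : ℝ) ^ (-e)) atTop (nhds 0) :=
    (tendsto_rpow_neg_atTop he).comp tendsto_natCast_atTop_atTop
  have t2 : Tendsto (fun n : ℕ => (n : ℝ) ^ (-(e - e'))) atTop (nhds 0) :=
    (tendsto_rpow_neg_atTop (by linarith)).comp tendsto_natCast_atTop_atTop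
  have t3 := (t1.const_mul A).add (t2.const_mul (B * 2 ^ e'))
  simp only [mul_zero, add_zero] at t3
  filter_upwards [t3.eventually (gt_mem_nhds one_pos), eventually_ge_atTop 1] with n k1 k2
  have hn0 : (0 : ℝ) < n := by exact_mod_cast k2
  have hn1 : (1 : ℝ) ≤ n := by exact_mod_cast k2
  have hne : 0 < (n : ℝ) ^ e := Real.rpow_pos_of_pos hn0 e
  have k3 : A + B * 2 ^ e' * (n : ℝ) ^ e' ≤ (n : ℝ) ^ e := by
    have k4 := mul_le_mul_of_nonneg_right k1.le hne.le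
    have k5 : (A * (n : ℝ) ^ (-e) + B * 2 ^ e' * (n : ℝ) ^ (-(e - e'))) * (n : ℝ) ^ e =
        A * ((n : ℝ) ^ (-e) * (n : ℝ) ^ e) +
          B * 2 ^ e' * ((n : ℝ) ^ (-(e - e')) * (n : ℝ) ^ e) := by ring
    rw [k5, ← Real.rpow_add hn0, ← Real.rpow_add hn0] at k4
    simp only [neg_add_cancel, Real.rpow_zero, mul_one, one_mul] at k4
    have k6 : -(e - e') + e = e' := by ring
    rw [k6] at k4
    exact k4
  have hone : (1 : ℝ) ≤ 2 ^ e' := Real.one_le_rpow (by norm_num) h1.le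
  constructor
  · refine (hn n).trans (le_trans ?_ k3)
    have : B * (n : ℝ) ^ e' ≤ B * 2 ^ e' * (n : ℝ) ^ e' := by
      refine mul_le_mul_of_nonneg_right ?_ (by positivity)
      exact le_mul_of_one_le_right hB hone
    linarith
  · refine (hn (n + 1)).trans (le_trans ?_ k3)
    have k7 : (((n + 1 : ℕ)) : ℝ) ^ e' ≤ (2 * (n : ℝ)) ^ e' := by
      refine Real.rpow_le_rpow (by positivity) ?_ h1.le
      push_cast
      linarith
    rw [Real.mul_rpow (by norm_num) hn0.le] at k7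
    have := mul_le_mul_of_nonneg_left k7 hB
    linarith

/-- the rate in the form `i ^ (-θ')`, `θ' < θ` -/
theorem rate_pow {x : ℕ → ℝ} {C θ θ' : ℝ} (hθ : θ' < θ)
    (h : ∀ᶠ i : ℕ in atTop, x i ≤ C * (i : ℝ) ^ (-θ)) :
    ∀ᶠ i : ℕ in atTop, x i ≤ (i : ℝ) ^ (-θ') := by
  have t2 : Tendsto (fun n : ℕ => (n : ℝ) ^ (-(θ - θ'))) atTop (nhds 0) :=
    (tendsto_rpow_neg_atTop (by linarith)).comp tendsto_natCast_atTop_atTop
  have t3 := t2.const_mul C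
  rw [mul_zero] at t3
  filter_upwards [h, t3.eventually (gt_mem_nhds one_pos), eventually_ge_atTop 1] with n k0 k1 k2
  have hn0 : (0 : ℝ) < n := by exact_mod_cast k2
  refine k0.trans ?_
  have k4 := mul_le_mul_of_nonneg_right k1.le (Real.rpow_nonneg hn0.le (-θ'))
  rw [mul_assoc, ← Real.rpow_add hn0, one_mul] at k4
  have k6 : -(θ - θ') + -θ' = -θ := by ring
  rw [k6] at k4
  exact k4

/-- **LINKW, last step**: the rate with every exponent below `s pf` -/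
theorem link_rate {b : ℝ} (hb : 0 < b) : ∃ C1 : ℝ, 0 ≤ C1 ∧
    ∀ (P : Par) (s : ℝ) (N0 : ℕ) (ε Y a : ℕ → ℝ), Chn P b s N0 ε Y a → ∀ c1 p3 : ℝ, 1 ≤ c1 →
      KP P b c1 N0 ε a → KT P b s C1 N0 ε → KD P b p3 N0 ε → 1 / 2 ≤ p3 →
      ∀ s' : ℝ, s' < s * P.pf → ∀ᶠ i : ℕ in atTop,
        stiff (2 ^ i) b - 2 / Real.pi ≤ (i : ℝ) ^ (-s') := by
  obtain ⟨C1, hC1, hC⟩ := rate_evC hb
  refine ⟨C1, hC1, fun P s N0 ε Y a h c1 p3 hc1 hK1 hK2 hK3 hp3 s' hs' => ?_⟩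
  obtain ⟨C, h2⟩ := hC P s N0 ε Y a h c1 p3 hc1 hK1 hK2 hK3 hp3
  exact rate_pow (x := fun i => stiff (2 ^ i) b - 2 / Real.pi) hs' h2

end

end Vale.Agent.P159.H340.Le
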