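import Vale.Agent.P159.H340.Lw8

/-!
P159 (helper340), LINKW (A) + (B), part 9: local form, one parameter, powers of two.
-/

set_option linter.unusedSectionVars false

open Finset

namespace Vale.Agent.P159.H340

open Vale.Agent.P159
open Vale.Agent.P159.H37 (qf Gm)
open Vale.Agent.P159.TM.SpecI (V)
open Vale.Agent.P159.H859 (lapz smz pf enz)

noncomputable section

/-- the numbers of `lw_two_loc` -/
theorem lw_num {c t : ℝ} {q0 u j K : ℕ} (hq0 : 1 ≤ q0 * c) (huj : 2 * j + 1 ≤ u)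
    (h4K : t * 4 ^ K ≤ 1 / 4 ^ (5 * j)) :
    √(((2 ^ (u - 2 * j) : ℕ) : ℝ) / ((2 ^ u : ℕ) : ℝ)) +
      (((2 ^ u : ℕ) : ℝ) / ((2 ^ (u - 2 * j) : ℕ) : ℝ)) ^ 2 *
        (((2 ^ (5 * j * q0) : ℕ) : ℝ) ^ (-c) + √(t * 4 ^ K)) +
      (1 / √(((2 ^ (2 * j) : ℕ) : ℝ)) + 1 / √(((2 ^ u : ℕ) : ℝ))) ≤ 5 * (1 / 2 ^ j) := by
  obtain ⟨v, hv⟩ : ∃ v, u = v + 2 * j := ⟨u - 2 * j, by omega⟩
  have hus : ((2 ^ u : ℕ) : ℝ) = ((2 ^ (u - 2 * j) : ℕ) : ℝ) * 4 ^ j := by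
    have : u - 2 * j = v := by omega
    rw [this, hv]
    push_cast
    rw [pow_add, pow_mul]
    norm_num
  have hs0 : (0 : ℝ) < ((2 ^ (u - 2 * j) : ℕ) : ℝ) := by positivity
  have t1 : √(((2 ^ (u - 2 * j) : ℕ) : ℝ) / ((2 ^ u : ℕ) : ℝ)) = 1 / 2 ^ j := by
    rw [hus, ← sqrt_half_pow]
    congr 1
    field_simp
  have t3 : (((2 ^ u : ℕ) : ℝ) / ((2 ^ (u - 2 * j) : ℕ) : ℝ)) ^ 2 = 16 ^ j := by
    rw [hus, mul_div_cancel_left₀ _ hs0.ne', ← pow_mul, mul_comm j 2, pow_mul]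
    norm_num
  have t4 : ((2 ^ (5 * j * q0) : ℕ) : ℝ) ^ (-c) ≤ 1 / 32 ^ j := by
    have e1 : ((2 ^ (5 * j * q0) : ℕ) : ℝ) = (2 : ℝ) ^ ((5 * j * q0 : ℕ) : ℝ) := by
      rw [Real.rpow_natCast]
      push_cast
      rfl
    have e2 : (1 : ℝ) / 32 ^ j = (2 : ℝ) ^ (-((5 * j : ℕ) : ℝ)) := by
      rw [Real.rpow_neg (by norm_num), Real.rpow_natCast, pow_mul, one_div]
      norm_num
    rw [e1, e2, ← Real.rpow_mul (by norm_num)]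
    refine Real.rpow_le_rpow_of_exponent_le (by norm_num) ?_
    push_cast
    have : (0 : ℝ) ≤ 5 * j := by positivity
    nlinarith
  have t5 : √(t * 4 ^ K) ≤ 1 / 32 ^ j := by
    refine (Real.sqrt_le_sqrt h4K).trans (le_of_eq ?_)
    rw [sqrt_half_pow, pow_mul]
    norm_num
  have t6 : 1 / √(((2 ^ (2 * j) : ℕ) : ℝ)) = 1 / 2 ^ j := by
    have e1 : (((2 ^ (2 * j) : ℕ) : ℝ)) = (2 ^ j) ^ 2 := by
      push_cast
      rw [← pow_mul, mul_comm]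
    rw [e1, Real.sqrt_sq (by positivity)]
  have t7 : 1 / √(((2 ^ u : ℕ) : ℝ)) ≤ 1 / 2 ^ j := by
    rw [← t6]
    refine one_div_le_one_div_of_le (Real.sqrt_pos.2 (by positivity)) ?_
    refine Real.sqrt_le_sqrt ?_
    exact_mod_cast Nat.pow_le_pow_right (by norm_num) (by omega)
  rw [t1, t3, t6]
  have t8 : (16 : ℝ) ^ j * (((2 ^ (5 * j * q0) : ℕ) : ℝ) ^ (-c) + √(t * 4 ^ K)) ≤
      2 * (1 / 2 ^ j) := by
    have e1 : (16 : ℝ) ^ j * (((2 ^ (5 * j * q0) : ℕ) : ℝ) ^ (-c) + √(t * 4 ^ K)) ≤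
        16 ^ j * (1 / 32 ^ j + 1 / 32 ^ j) :=
      mul_le_mul_of_nonneg_left (add_le_add t4 t5) (by positivity)
    refine e1.trans (le_of_eq ?_)
    have e2 : (32 : ℝ) ^ j = 16 ^ j * 2 ^ j := by
      rw [← mul_pow]
      norm_num
    rw [e2]
    field_simp
    norm_num
  linarith

/-- **LINKW (A) + (B), local form, powers of two**: `p = 2 ^ u`, smoothing scale `2 ^ (u - 2 j)`,
centre `(2 ^ K, 2 ^ K)`, any torus of side at least `2 ^ (K + 1) + 1` -/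
theorem lw_two_loc {b : ℝ} (hb : 0 < b) : ∃ (C : ℝ) (q : ℕ), 0 < C ∧ 4 ≤ q ∧
    ∀ (n : ℕ) [NeZero n] (u j K L : ℕ), 2 * j + 1 ≤ u → K = u + q * (j + 1) →
    2 ^ (K + 1) + 1 ≤ n → 96 * 2 ^ (8 * j) * (2 ^ (K + 1) + 1) ≤ L →
    ∀ t : ℝ, 0 < t → t * 4 ^ (K + 5 * j) ≤ 1 → ∀ κ : ℝ, 0 ≤ κ →
    qf (Gm (H37.wt n b t)) (fun x =>
      lapz (smz (2 ^ (u - 2 * j)) (pf (2 ^ K) (2 ^ K) (2 ^ u))) ((x.1.val : ℤ), (x.2.val : ℤ))) ≤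
      κ * enz (pf (2 ^ K) (2 ^ K) (2 ^ u)) →
    stiff L b ≤ κ + C / 2 ^ j := by
  obtain ⟨C, c, hC, hc, hT⟩ := lw_ABloc hb
  obtain ⟨q0, hq0⟩ := exists_nat_ge (1 / c)
  have hq0' : 1 ≤ q0 * c := by rwa [div_le_iff₀ hc] at hq0
  refine ⟨5 * C, 5 * q0 + 4, by positivity, by omega, ?_⟩
  intro n _ u j K L huj hK hn hL t ht ht1 κ hκ hk
  have hm1 : 1 ≤ 2 ^ (5 * j * q0) := Nat.one_le_two_pow
  have h4K : t * 4 ^ K ≤ 1 / 4 ^ (5 * j) := by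
    rw [le_div_iff₀ (by positivity), mul_assoc, ← pow_add]
    exact ht1
  have h4K1 : t * 4 ^ K ≤ 1 := by
    refine h4K.trans ?_
    rw [div_le_one (by positivity)]
    exact one_le_pow₀ (by norm_num)
  obtain ⟨mr, hmr⟩ : ∃ mr : ℕ, 2 ^ (5 * j * q0) * (4 * 2 ^ u) = mr := ⟨_, rfl⟩
  have hp1 : 2 ≤ 2 ^ u := by
    calc 2 = 2 ^ 1 := by norm_num
      _ ≤ 2 ^ u := Nat.pow_le_pow_right (by norm_num) (by omega)
  have hmr1 : 4 * 2 ^ u ≤ mr := by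
    rw [← hmr]
    exact Nat.le_mul_of_pos_left _ (by omega)
  have hmr2 : 4 * mr ≤ 2 ^ K := by
    have e1 : 4 * mr = 2 ^ (5 * j * q0 + u + 4) := by
      rw [← hmr, pow_add, pow_add]
      ring
    rw [e1]
    refine Nat.pow_le_pow_right (by norm_num) ?_
    rw [hK]
    nlinarith
  have hcov : (2 * 2 ^ (5 * j * q0) + 1) * (4 * 2 ^ u) ≤ 2 ^ K := by
    have e1 : (2 * 2 ^ (5 * j * q0) + 1) * (4 * 2 ^ u) = 2 * mr + 4 * 2 ^ u := by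
      rw [← hmr]
      ring
    omega
  have c1 : ((2 ^ (5 * j * q0) * (4 * 2 ^ u) : ℕ) : ℤ) + 1 + 2 * ((2 ^ u : ℕ) : ℤ) ≤
      ((2 ^ K : ℕ) : ℤ) := by
    rw [hmr]
    generalize 2 ^ u = p at *
    generalize 2 ^ K = k at *
    omega
  have c2 : ((2 ^ K : ℕ) : ℤ) + 2 * ((2 ^ u : ℕ) : ℤ) +
      ((2 ^ (5 * j * q0) * (4 * 2 ^ u) : ℕ) : ℤ) ≤ ((2 ^ (K + 1) : ℕ) : ℤ) := by
    rw [hmr, pow_succ 2 K]
    generalize 2 ^ u = p at *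
    generalize 2 ^ K = k at *
    omega
  have h1 := hT n K (2 ^ (5 * j * q0)) (2 ^ (K + 1)) (2 ^ u) (2 ^ (u - 2 * j)) (2 ^ (2 * j)) L
    ((2 ^ K : ℕ) : ℤ) ((2 ^ K : ℕ) : ℤ) hm1
    Nat.one_le_two_pow (Nat.pow_le_pow_right (by norm_num) (by omega)) hp1
    Nat.one_le_two_pow hcov hn hn c1 c2 c1 c2
    (by
      rw [← pow_mul, show 2 * j * 4 = 8 * j by ring]
      exact hL) t ht h4K1 κ hκ (by
      push_cast
      exact hk)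
  have t10 := mul_le_mul_of_nonneg_left (lw_num (t := t) hq0' huj h4K) hC.le
  have e : 5 * C / 2 ^ j = C * (5 * (1 / 2 ^ j)) := by ring
  rw [e]
  linarith

end

end Vale.Agent.P159.H340
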