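import Vale.Agent.P159.H864.Cel4
import Vale.Agent.P159.H708.Coarse

/-!
P159, helper340, module AL, part 2: cells of cells, and the arithmetic and the harmonic mean over the
aliases.

`tce h : V n ≃ V m` for `h : n = m`; `cob_cob` : `cobV (N / l) ρ * cobV N l = cobV N (l ρ)` up to `tce`.
`am_hm` : `als u * als u⁻¹ ≤ 1 + (5/4) ρ² B` if `u ≤ 1`, `u⁻¹ ≤ 1 + B / EE`.
-/

namespace Vale.Agent.P159.H340

open Finset Matrix
open Vale.Agent.P159.TM.H764 (EE cN sN dt)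
open Vale.Agent.P159.TM.Spec (V)
open Vale.Agent.P159.H37 (qf cellP)
open Vale.Agent.P159.H864 (TI sym cl cl1 cobV cobV_apply cl1_val Gc als Wl rd cen)

set_option linter.unusedSectionVars false

noncomputable section

/-! ### equal moduli -/

section cast

/-- the canonical bijection of two tori with the same side -/
def tce {n m : ℕ} (h : n = m) : V n ≃ V m :=
  (ZMod.ringEquivCongr h).toEquiv.prodCongr (ZMod.ringEquivCongr h).toEquiv

lemma tce_rfl {n : ℕ} (x : V n) : tce (rfl : n = n) x = x := by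
  unfold tce
  rw [ZMod.ringEquivCongr_refl]
  rfl

lemma tce_zero {n m : ℕ} (h : n = m) : tce h (0 : V n) = 0 := by
  subst h
  exact tce_rfl _

lemma tce_eq_zero {n m : ℕ} (h : n = m) {x : V n} : tce h x = 0 ↔ x = 0 := by
  subst h
  rw [tce_rfl]

lemma tce_val1 {n m : ℕ} (h : n = m) (x : V n) : (tce h x).1.val = x.1.val := by
  subst h
  rw [tce_rfl]

lemma tce_val2 {n m : ℕ} (h : n = m) (x : V n) : (tce h x).2.val = x.2.val := by
  subst h
  rw [tce_rfl]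

lemma sub_tce {n : ℕ} {α : Type*} (A : Matrix (V n) (V n) α) :
    A.submatrix (tce (rfl : n = n)) (tce (rfl : n = n)) = A := by
  ext x y
  rw [Matrix.submatrix_apply, tce_rfl, tce_rfl]

variable {n m : ℕ} [NeZero n] [NeZero m]

lemma sym_tce (h : n = m) (A : Matrix (V m) (V m) ℝ) (k : V n) :
    sym (A.submatrix (tce h) (tce h)) k = sym A (tce h k) := by
  subst h
  rw [sub_tce, tce_rfl]

lemma ti_tce (h : n = m) {A : Matrix (V m) (V m) ℝ} (hA : TI A) :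
    TI (A.submatrix (tce h) (tce h)) := by
  subst h
  rw [sub_tce]
  exact hA

lemma EE_tce (h : n = m) (k : V n) : EE (tce h k) = EE k := by
  subst h
  rw [tce_rfl]

lemma qf_tce (h : n = m) (A : Matrix (V m) (V m) ℝ) (u : V n → ℝ) :
    qf (A.submatrix (tce h) (tce h)) u = qf A (u ∘ (tce h).symm) := by
  unfold qf
  rw [← (tce h).sum_comp]
  refine Finset.sum_congr rfl fun x _ => ?_
  rw [← (tce h).sum_comp]
  refine Finset.sum_congr rfl fun y _ => ?_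
  simp

lemma sum_tce (h : n = m) (f : V m → ℝ) : ∑ x : V n, f (tce h x) = ∑ y, f y := (tce h).sum_comp f

end cast

/-! ### cells of cells -/

section cob

variable {N l ρ : ℕ} [NeZero N] [NeZero (N / l)] [NeZero (N / l / ρ)] [NeZero (N / (l * ρ))]

lemma dvd_lr (hl : l ∣ N) (hρ : ρ ∣ N / l) : l * ρ ∣ N := by
  obtain ⟨q, hq⟩ := hρ
  refine ⟨q, ?_⟩
  calc N = l * (N / l) := (Nat.mul_div_cancel' hl).symm
    _ = l * ρ * q := by rw [hq]; ring

lemma cl_cl (hl : l ∣ N) (hρ : ρ ∣ N / l) (x : V N) :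
    tce (Nat.div_div_eq_div_mul N l ρ) (cl (cl x : V (N / l)) : V (N / l / ρ)) =
      (cl x : V (N / (l * ρ))) := by
  have hL := dvd_lr hl hρ
  refine Prod.ext ?_ ?_
  · refine ZMod.val_injective _ ?_
    rw [tce_val1]
    show (cl1 (cl1 x.1 : ZMod (N / l)) : ZMod (N / l / ρ)).val = (cl1 x.1 : ZMod (N / (l * ρ))).val
    rw [cl1_val hρ, cl1_val hl, cl1_val hL, Nat.div_div_eq_div_mul]
  · refine ZMod.val_injective _ ?_
    rw [tce_val2]
    show (cl1 (cl1 x.2 : ZMod (N / l)) : ZMod (N / l / ρ)).val = (cl1 x.2 : ZMod (N / (l * ρ))).val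
    rw [cl1_val hρ, cl1_val hl, cl1_val hL, Nat.div_div_eq_div_mul]

/-- lift of a lift -/
lemma cob_cob_tr (hl : l ∣ N) (hρ : ρ ∣ N / l) (φ : V (N / l / ρ) → ℝ) :
    (cobV N (l * ρ))ᵀ *ᵥ (φ ∘ (tce (Nat.div_div_eq_div_mul N l ρ)).symm) =
      (cobV N l)ᵀ *ᵥ ((cobV (N / l) ρ)ᵀ *ᵥ φ) := by
  funext x
  rw [H864.cobV_tr_mulVec, H864.cobV_tr_mulVec, H864.cobV_tr_mulVec, ← cl_cl hl hρ x]
  simp only [Function.comp_apply, Equiv.symm_apply_apply]
  push_cast
  rw [mul_inv]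
  ring

end cob

/-! ### arithmetic and harmonic means -/

section am

variable {N ρ : ℕ} [NeZero N] [NeZero (N / ρ)]

lemma scal_amhm {x W d e s : ℝ} (hx : 0 < x) (hx1 : x ≤ 1) (hW : 0 ≤ W) (hW1 : W ≤ 1)
    (hd : d = 1 - W) (he : 0 ≤ e) (hs : d * (x⁻¹ - 1) ≤ s) :
    (x * W + d) * (x⁻¹ * W + (1 + e) * d) ≤ 1 + s + e := by
  have hd0 : 0 ≤ d := by linarith
  have hxx : x * x⁻¹ = 1 := mul_inv_cancel₀ hx.ne'
  have hxi : 1 ≤ x⁻¹ := (one_le_inv₀ hx).2 hx1
  have e1 : (x * W + d) * (x⁻¹ * W + (1 + e) * d) =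
      1 + d * W * (x + x⁻¹ - 2) + e * (d * (x * W + d)) := by
    have : (x * W + d) * (x⁻¹ * W + (1 + e) * d) = (x * x⁻¹) * W ^ 2 + d * W * (x + x⁻¹) + d ^ 2 +
        e * (d * (x * W + d)) := by ring
    rw [this, hxx, hd]
    ring
  rw [e1]
  have h1 : d * W * (x + x⁻¹ - 2) ≤ s := by
    have h2 : d * W * (x + x⁻¹ - 2) ≤ d * W * (x⁻¹ - 1) :=
      mul_le_mul_of_nonneg_left (by linarith) (mul_nonneg hd0 hW)
    have h3 : d * W * (x⁻¹ - 1) ≤ d * (x⁻¹ - 1) := by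
      refine mul_le_mul_of_nonneg_right ?_ (by linarith)
      nlinarith
    linarith
  have h2 : e * (d * (x * W + d)) ≤ e := by
    have h3 : x * W + d ≤ 1 := by nlinarith
    have h4 : d * (x * W + d) ≤ 1 := by
      have : 0 ≤ x * W + d := by positivity
      nlinarith
    nlinarith
  linarith

/-- **arithmetic against harmonic mean over the aliases** -/
theorem am_hm (hρ : ρ ∣ N) {u : V N → ℝ} {k : V (N / ρ)} (h0 : ∀ q : V N, rd q = k → 0 < u q)
    (h1 : ∀ q : V N, rd q = k → u q ≤ 1) {B : ℝ} (hB : 0 ≤ B)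
    (hE0 : ∀ q : V N, rd q = k → 0 < EE q)
    (hE : ∀ q : V N, rd q = k → (u q)⁻¹ ≤ 1 + B / EE q) :
    als ρ u k * als ρ (fun q => (u q)⁻¹) k ≤ 1 + 5 / 4 * ((ρ : ℝ) ^ 2 * B) := by
  classical
  have hρ0 : (0 : ℝ) < ρ := by exact_mod_cast H864.l_pos hρ
  obtain ⟨p, hp, hpk⟩ := H864.exists_cen hρ k
  set S : Finset (V N) := univ.filter fun q : V N => (rd q : V (N / ρ)) = k with hS
  have hpS : p ∈ S := by rw [hS, Finset.mem_filter]; exact ⟨Finset.mem_univ _, hpk⟩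
  set W := Wl ρ p with hW
  have hsum : ∑ q ∈ S, Wl ρ q = 1 := H864.sum_Wl hρ k
  have hd : ∑ q ∈ S.erase p, Wl ρ q = 1 - W := by
    rw [← hsum, ← Finset.add_sum_erase _ _ hpS]
    ring
  have hmem : ∀ q ∈ S, (rd q : V (N / ρ)) = k := fun q hq => (Finset.mem_filter.1 hq).2
  have hB4 : 0 ≤ (ρ : ℝ) ^ 2 * B / 4 := by positivity
  have a1 : als ρ u k ≤ u p * W + (1 - W) := by
    unfold H864.als
    rw [← Finset.add_sum_erase _ _ hpS, ← hd]
    refine add_le_add le_rfl (Finset.sum_le_sum fun q hq => ?_)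
    have h2 := h1 q (hmem q (Finset.mem_of_mem_erase hq))
    have h3 := H864.Wl_nonneg (l := ρ) q
    nlinarith
  have a2 : als ρ (fun q => (u q)⁻¹) k ≤ (u p)⁻¹ * W + (1 + (ρ : ℝ) ^ 2 * B / 4) * (1 - W) := by
    unfold H864.als
    rw [← Finset.add_sum_erase _ _ hpS, ← hd, Finset.mul_sum]
    refine add_le_add le_rfl (Finset.sum_le_sum fun q hq => ?_)
    have hqk := hmem q (Finset.mem_of_mem_erase hq)
    have h2 := H864.EE_alias_ge hρ hp (hqk.trans hpk.symm) (Finset.ne_of_mem_erase hq)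
    have h3 := H864.Wl_nonneg (l := ρ) q
    refine mul_le_mul_of_nonneg_right ((hE q hqk).trans ?_) h3
    have h4 : B / EE q ≤ (ρ : ℝ) ^ 2 * B / 4 := by
      rw [div_le_div_iff₀ (hE0 q hqk) (by norm_num)]
      rw [div_le_iff₀ (by positivity)] at h2
      nlinarith
    linarith
  have hW0 := H864.Wl_nonneg (l := ρ) p
  have hW1 := H864.Wl_le_one hρ p
  have hs : (1 - W) * ((u p)⁻¹ - 1) ≤ (ρ : ℝ) ^ 2 * B := by
    have h2 := H864.one_sub_Wl_le hρ p
    have h3 := hE p hpk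
    have hEp := hE0 p hpk
    have h4 : (u p)⁻¹ - 1 ≤ B / EE p := by linarith
    have h5 : 0 ≤ 1 - W := by linarith
    calc (1 - W) * ((u p)⁻¹ - 1) ≤ (1 - W) * (B / EE p) := mul_le_mul_of_nonneg_left h4 h5
      _ ≤ ((ρ : ℝ) ^ 2 * EE p) * (B / EE p) :=
        mul_le_mul_of_nonneg_right h2 (div_nonneg hB hEp.le)
      _ = (ρ : ℝ) ^ 2 * B := by field_simp
  have hfin := scal_amhm (h0 p hpk) (h1 p hpk) hW0 hW1 rfl hB4 hs
  have p2 : 0 ≤ als ρ (fun q => (u q)⁻¹) k :=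
    H864.le_als hρ fun q hq => (inv_pos.2 (h0 q hq)).le
  have p3 : 0 ≤ u p * W + (1 - W) := by
    have := mul_nonneg (h0 p hpk).le hW0
    linarith
  refine (mul_le_mul a1 a2 p2 p3).trans (hfin.trans (le_of_eq ?_))
  ring

/-- the harmonic mean is below the arithmetic mean -/
theorem hm_le_am (hρ : ρ ∣ N) {u : V N → ℝ} {k : V (N / ρ)} (h0 : ∀ q : V N, rd q = k → 0 < u q) :
    1 ≤ als ρ u k * als ρ (fun q => (u q)⁻¹) k := by
  classical
  have h1 := Finset.sum_mul_sq_le_sq_mul_sq (univ.filter fun q : V N => (rd q : V (N / ρ)) = k)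
    (fun q => √(u q * Wl ρ q)) (fun q => √((u q)⁻¹ * Wl ρ q))
  have h2 : ∀ q ∈ univ.filter fun q : V N => (rd q : V (N / ρ)) = k,
      √(u q * Wl ρ q) * √((u q)⁻¹ * Wl ρ q) = Wl ρ q := by
    intro q hq
    have hu := h0 q (Finset.mem_filter.1 hq).2
    have hW := H864.Wl_nonneg (l := ρ) q
    rw [← Real.sqrt_mul (mul_nonneg hu.le hW)]
    have e : u q * Wl ρ q * ((u q)⁻¹ * Wl ρ q) = Wl ρ q ^ 2 := by
      field_simp
    rw [e, Real.sqrt_sq hW]
  have h3 : ∀ q ∈ univ.filter fun q : V N => (rd q : V (N / ρ)) = k,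
      √(u q * Wl ρ q) ^ 2 = u q * Wl ρ q := by
    intro q hq
    have hu := h0 q (Finset.mem_filter.1 hq).2
    exact Real.sq_sqrt (mul_nonneg hu.le (H864.Wl_nonneg (l := ρ) q))
  have h4 : ∀ q ∈ univ.filter fun q : V N => (rd q : V (N / ρ)) = k,
      √((u q)⁻¹ * Wl ρ q) ^ 2 = (u q)⁻¹ * Wl ρ q := by
    intro q hq
    have hu := h0 q (Finset.mem_filter.1 hq).2
    exact Real.sq_sqrt (mul_nonneg (inv_pos.2 hu).le (H864.Wl_nonneg (l := ρ) q))
  rw [Finset.sum_congr rfl h2, Finset.sum_congr rfl h3, Finset.sum_congr rfl h4,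
    H864.sum_Wl hρ k] at h1
  unfold H864.als
  linarith

end am

end

end Vale.Agent.P159.H340
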