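import Vale.Agent.P159.H340.Al1
import Vale.Agent.P159.H340.Al2
import Vale.Agent.P159.H859.NeuE

/-!
P159, helper340, module AL, part 3: the neutral cell covariances at scalar mass `τ`, cells `l ρ`, and at
the mass `MC N l t τ`, averaged on the cells `l ρ`: symbols, relative comparison.
-/

namespace Vale.Agent.P159.H340

open Finset Matrix MeasureTheory
open Vale.Agent.P159.TM.H764 (EE cN sN dt)
open Vale.Agent.P159.TM.Spec (V)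
open Vale.Agent.P159.TM.SpecC (wT)
open Vale.Agent.P159.H37 (qf Gm cellP)
open Vale.Agent.P159.H864 (TI sym cobV Gc MC lapM)
open Vale.Agent.P159.H963 (Neu nM nMC MF Gnc mf_MC neu_cN neu_sN sym_le_of_waves' neu_cobV_tr)
open Vale.Agent.P159.H159 (MasN)
open Vale.Agent.P159.H859 (Rk ti_Rk sym_Rk cob_res_le Gnck_dom)

set_option linter.unusedSectionVars false

noncomputable section

section mass

variable {N l : ℕ} [NeZero N] {t τ : ℝ}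

lemma MC_fine (N l : ℕ) [NeZero N] (t τ : ℝ) :
    MC N l t τ = τ • (1 : Matrix (V N) (V N) ℝ) + (t - τ) • (1 - cellP N l) := by
  unfold Vale.Agent.P159.H864.MC
  module

lemma qf_fine_nonneg (hl : l ∣ N) (u : V N → ℝ) : 0 ≤ qf (1 - cellP N l) u := by
  have := H159.nez_div hl
  rw [H864.qf_sub_mat, H864.qf_one]
  linarith [H864.qf_cellP_le hl u]

theorem masN_MC (hl : l ∣ N) (hτ : 0 < τ) (h : τ ≤ t) :
    MasN t τ (τ • (1 : Matrix (V N) (V N) ℝ)) τ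
      (τ • (1 : Matrix (V N) (V N) ℝ) + (t - τ) • (1 - cellP N l)) τ := by
  have := H159.nez_div hl
  have m0 := mf_MC hl hτ (le_refl τ)
  have m1 := mf_MC hl hτ h
  rw [H864.MC_self] at m0
  rw [MC_fine] at m1
  refine ⟨m0, m1, hτ, fun u _ => ?_, fun u _ => ?_, fun u _ => ?_⟩
  · rw [H37.qf_smul_one]
  · rw [H37.qf_add_mat, H864.qf_smul_mat (t - τ)]
    have := mul_nonneg (sub_nonneg.2 h) (qf_fine_nonneg hl u)
    linarith
  · rw [← MC_fine]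
    exact H864.qf_MC_le hl h u

end mass

section cmp

variable {N l ρ : ℕ} [NeZero N] [NeZero (N / l)] [NeZero (N / l / ρ)] [NeZero (N / (l * ρ))]
  {b t τ : ℝ}

/-- the coarse average of the neutral cell covariance -/
def Gmd (N l ρ : ℕ) [NeZero N] [NeZero (N / l)] [NeZero (N / l / ρ)] (b t τ : ℝ) :
    Matrix (V (N / l / ρ)) (V (N / l / ρ)) ℝ := Gc ρ (Gnc N l b t τ)

/-- the neutral cell covariance on the cells `l ρ`, scalar mass, on the torus `N / l / ρ` -/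
def Gnw (N l ρ : ℕ) [NeZero N] [NeZero (N / l)] [NeZero (N / l / ρ)] [NeZero (N / (l * ρ))]
    (b τ : ℝ) : Matrix (V (N / l / ρ)) (V (N / l / ρ)) ℝ :=
  (Gnc N (l * ρ) b τ τ).submatrix (tce (Nat.div_div_eq_div_mul N l ρ))
    (tce (Nat.div_div_eq_div_mul N l ρ))

theorem ti_Gmd (hb : 0 ≤ b) (hl : l ∣ N) (hρ : ρ ∣ N / l) (hτ : 0 < τ) (h : τ ≤ t) :
    TI (Gmd N l ρ b t τ) := H864.ti_Gc hρ (H963.ti_Gnc hb hl hτ h).ct

theorem ti_Gnw (hb : 0 ≤ b) (hl : l ∣ N) (hρ : ρ ∣ N / l) (hτ : 0 < τ) : TI (Gnw N l ρ b τ) :=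
  ti_tce _ (H963.ti_Gnc hb (dvd_lr hl hρ) hτ le_rfl)

/-- the lifted field on the sites -/
def lft (N l ρ : ℕ) [NeZero N] [NeZero (N / l)] [NeZero (N / l / ρ)] (φ : V (N / l / ρ) → ℝ) :
    V N → ℝ := (cobV N l)ᵀ *ᵥ ((cobV (N / l) ρ)ᵀ *ᵥ φ)

lemma neu_lft (hl : l ∣ N) (hρ : ρ ∣ N / l) {φ : V (N / l / ρ) → ℝ} (hφ : Neu φ) :
    Neu (lft N l ρ φ) := neu_cobV_tr hl (neu_cobV_tr hρ hφ)

lemma qf_Gmd (hl : l ∣ N) (hρ : ρ ∣ N / l) {φ : V (N / l / ρ) → ℝ} (hφ : Neu φ) :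
    qf (Gmd N l ρ b t τ) φ = qf (Gm (nMC N l b t τ 0)) (lft N l ρ φ) := by
  unfold Gmd
  rw [H864.qf_Gc, H963.qf_Gnc_neu hl b t τ (neu_cobV_tr hρ hφ)]
  rfl

lemma neu_symm {n m : ℕ} [NeZero n] [NeZero m] (h : n = m) {φ : V n → ℝ} (hφ : Neu φ) :
    Neu (φ ∘ (tce h).symm) := by
  unfold Vale.Agent.P159.H963.Neu at *
  rw [← sum_tce h]
  simpa using hφ

lemma qf_Gnw (hl : l ∣ N) (hρ : ρ ∣ N / l) {φ : V (N / l / ρ) → ℝ} (hφ : Neu φ) :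
    qf (Gnw N l ρ b τ) φ = qf (Gm (nMC N (l * ρ) b τ τ 0)) (lft N l ρ φ) := by
  unfold Gnw
  rw [qf_tce, H963.qf_Gnc_neu (dvd_lr hl hρ) b τ τ (neu_symm _ hφ), cob_cob_tr hl hρ]
  rfl

/-- the two neutral weights in the letters of `fine_rel_N` -/
lemma nMC_scal (N l : ℕ) [NeZero N] (b τ : ℝ) (x₀ : V N) :
    nMC N l b τ τ x₀ = nM (wT b N) (τ • (1 : Matrix (V N) (V N) ℝ)) τ x₀ := by
  unfold Vale.Agent.P159.H963.nMC
  rw [H864.MC_self]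

lemma nMC_fine (N l : ℕ) [NeZero N] (b t τ : ℝ) (x₀ : V N) :
    nMC N l b t τ x₀ =
      nM (wT b N) (τ • (1 : Matrix (V N) (V N) ℝ) + (t - τ) • (1 - cellP N l)) τ x₀ := by
  unfold Vale.Agent.P159.H963.nMC
  rw [MC_fine]

/-- the bare Green function on the coarse cells -/
lemma bare_lft (hb : 0 < b) (hl : l ∣ N) (hρ : ρ ∣ N / l) (hτ : 0 < τ) (φ : V (N / l / ρ) → ℝ) :
    qf (τ • (1 : Matrix (V N) (V N) ℝ) + b⁻¹ • lapM)⁻¹ (lft N l ρ φ) ≤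
      qf ((Rk τ (b⁻¹ / ((l * ρ : ℕ) : ℝ) ^ 2)).submatrix (tce (Nat.div_div_eq_div_mul N l ρ))
        (tce (Nat.div_div_eq_div_mul N l ρ))) φ := by
  have hL := dvd_lr hl hρ
  have h1 := cob_res_le hL (M := τ • (1 : Matrix (V N) (V N) ℝ)) (by
      rw [Matrix.transpose_smul, Matrix.transpose_one]) hτ (fun u => by rw [H37.qf_smul_one]) hτ
    (κ := b⁻¹) (inv_nonneg.2 hb.le) (fun f => by
      rw [H37.qf_smul_one]
      refine mul_le_mul_of_nonneg_left ?_ hτ.le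
      rw [← H864.qf_cellP hL]
      exact H864.qf_cellP_le hL f) (φ ∘ (tce (Nat.div_div_eq_div_mul N l ρ)).symm)
  rw [cob_cob_tr hl hρ] at h1
  rw [qf_tce]
  exact h1

end cmp

/-- **comparison of the symbols** -/
theorem sym_cmp {b : ℝ} (hb : 0 < b) : ∃ C c : ℝ, 0 < C ∧ 0 < c ∧
    ∀ (N : ℕ) [NeZero N] (t τ : ℝ), 0 < τ → τ ≤ t → 9 ≤ t * (N : ℝ) ^ 2 →
    ∀ (l ρ : ℕ) [NeZero (N / l)] [NeZero (N / l / ρ)] [NeZero (N / (l * ρ))], l ∣ N → ρ ∣ N / l →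
      t * (l : ℝ) ^ 2 ≤ 1 → ∀ k : V (N / l / ρ), k ≠ 0 →
      sym (Gmd N l ρ b t τ) k ≤ sym (Gnw N l ρ b τ) k ∧
      sym (Gnw N l ρ b τ) k ≤ sym (Gmd N l ρ b t τ) k +
        C * (√(t * (N : ℝ) ^ 2) * (t * (l : ℝ) ^ 2) ^ c) *
          (τ + b⁻¹ / ((l : ℝ) * ρ) ^ 2 * EE k)⁻¹ := by
  obtain ⟨C, c, hC, hc, hU⟩ := fine_rel_N hb
  refine ⟨C, c, hC, hc, ?_⟩
  intro N _ t τ hτ hτt htN l ρ _ _ _ hl hρ htl k hk
  have ht : 0 < t := hτ.trans_le hτt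
  have key : ∀ φ : V (N / l / ρ) → ℝ, Neu φ →
      0 ≤ qf (Gnw N l ρ b τ) φ - qf (Gmd N l ρ b t τ) φ ∧
      qf (Gnw N l ρ b τ) φ - qf (Gmd N l ρ b t τ) φ ≤
        C * qf (τ • (1 : Matrix (V N) (V N) ℝ) + b⁻¹ • lapM)⁻¹ (lft N l ρ φ) *
          √(t * (N : ℝ) ^ 2) * (t * (l : ℝ) ^ 2) ^ c := by
    intro φ hφ
    rw [qf_Gmd hl hρ hφ, qf_Gnw hl hρ hφ, nMC_scal, nMC_fine]
    exact hU N t ht htN l hl htl τ (t - τ) _ τ (sub_nonneg.2 hτt) (by linarith)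
      (masN_MC hl hτ hτt) 0 _ (neu_lft hl hρ hφ)
  set E : ℝ := √(t * (N : ℝ) ^ 2) * (t * (l : ℝ) ^ 2) ^ c with hE
  have hE0 : 0 ≤ E := by positivity
  set R : Matrix (V (N / l / ρ)) (V (N / l / ρ)) ℝ :=
    (Rk τ (b⁻¹ / ((l * ρ : ℕ) : ℝ) ^ 2)).submatrix (tce (Nat.div_div_eq_div_mul N l ρ))
        (tce (Nat.div_div_eq_div_mul N l ρ)) with hR
  have tR : TI R := ti_tce _ (ti_Rk _ _)
  have key2 : ∀ φ : V (N / l / ρ) → ℝ, Neu φ →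
      qf (Gnw N l ρ b τ) φ ≤ qf (Gmd N l ρ b t τ + (C * E) • R) φ := by
    intro φ hφ
    rw [H37.qf_add_mat, H864.qf_smul_mat]
    have h1 := (key φ hφ).2
    have h2 := mul_le_mul_of_nonneg_left (bare_lft hb hl hρ hτ φ) (show 0 ≤ C * E by positivity)
    rw [← hR] at h2
    have e : C * qf (τ • (1 : Matrix (V N) (V N) ℝ) + b⁻¹ • lapM)⁻¹ (lft N l ρ φ) *
          √(t * (N : ℝ) ^ 2) * (t * (l : ℝ) ^ 2) ^ c =
        C * E * qf (τ • (1 : Matrix (V N) (V N) ℝ) + b⁻¹ • lapM)⁻¹ (lft N l ρ φ) := by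
      rw [hE]
      ring
    rw [e] at h1
    linarith
  have t1 := ti_Gmd hb.le hl hρ hτ hτt
  have t2 := ti_Gnw hb.le hl hρ hτ
  refine ⟨sym_le_of_waves' t1 t2 ?_ ?_, ?_⟩
  · linarith [(key _ (neu_cN hk)).1]
  · linarith [(key _ (neu_sN k)).1]
  · have h3 := sym_le_of_waves' t2 (t1.add (tR.smul (C * E))) (key2 _ (neu_cN hk))
      (key2 _ (neu_sN k))
    rw [H864.sym_add, H864.sym_smul, hR, sym_tce, sym_Rk hτ (by positivity), EE_tce] at h3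
    push_cast at h3
    exact h3

end

end Vale.Agent.P159.H340
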