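import Vale.Agent.P159.H280.Top1
import Vale.Agent.P159.H276.Eta2
import Vale.Agent.P159.H692.Lk2
import Vale.Agent.P159.H239.FamR

/-!
P159 (helper340), LINKW (K1): the profile of the state for 692's `PrF`: upper bound of `Pin` by
`c1 EE` at all momenta (low: flat profile, rough: TOP1), size of the stiffness, `PrF` itself.
-/

set_option linter.unusedSectionVars false

open Finset

namespace Vale.Agent.P159.H340

open Vale.Agent.P159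
open Vale.Agent.P159.H37 (Pik)
open Vale.Agent.P159.TM.H764 (EE cN cN_int cN_zero)
open Vale.Agent.P159.TM.Spec (V)
open Vale.Agent.P159.H963 (Pin)
open Vale.Agent.P159.H972 (Par GP FL tn tn_pos lg)
open Vale.Agent.P159.H462 (EE_gap EE_pos)
open Vale.Agent.P159.H692 (PrF)
open Vale.Agent.P159.H239 (Fam Sel)

noncomputable section

lemma lk_tn (n : ℕ) : tn n = (1 / 2 ^ n) ^ 2 := by
  unfold tn
  rw [div_pow, one_pow, ← pow_mul, mul_comm n 2, pow_mul, one_div]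
  norm_num

/-- a momentum of the order of the mass -/
lemma lk_mid {n r : ℕ} (h : n + 3 ≤ r) : ∃ k : V (2 ^ r), k ≠ 0 ∧ EE k ≤ tn n ∧ tn n / 4 ≤ EE k := by
  obtain ⟨i, rfl⟩ : ∃ i, r = n + 3 + i := ⟨r - (n + 3), by omega⟩
  have hx : 2 * Real.pi * (((2 ^ i : ℕ) : ℤ) : ℝ) / ((2 ^ (n + 3 + i) : ℕ) : ℝ) =
      Real.pi / 4 / 2 ^ n := by
    push_cast
    rw [pow_add, pow_add]
    field_simp
    norm_num
  have h1 : cN (N := 2 ^ (n + 3 + i)) (((2 ^ i : ℕ) : ℤ) : ZMod (2 ^ (n + 3 + i))) =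
      Real.cos (Real.pi / 4 / 2 ^ n) := by
    rw [cN_int, ← hx]
  have hp := Real.pi_pos
  have hp4 := Real.pi_lt_d2
  have hn1 : (1 : ℝ) ≤ 2 ^ n := one_le_pow₀ (by norm_num)
  have hE : EE (N := 2 ^ (n + 3 + i)) ((((2 ^ i : ℕ) : ℤ) : ZMod (2 ^ (n + 3 + i))), 0) =
      2 * (1 - Real.cos (Real.pi / 4 / 2 ^ n)) := by
    unfold EE
    rw [h1, cN_zero]
    ring
  have hx2 : (Real.pi / 4 / 2 ^ n) ^ 2 = Real.pi ^ 2 / 16 * (1 / 2 ^ n) ^ 2 := by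
    field_simp
    norm_num
  have hy : (0 : ℝ) < (1 / 2 ^ n) ^ 2 := by positivity
  have hlo : tn n / 4 ≤ EE (N := 2 ^ (n + 3 + i))
      ((((2 ^ i : ℕ) : ℤ) : ZMod (2 ^ (n + 3 + i))), 0) := by
    rw [hE, lk_tn]
    have h3 : Real.cos (Real.pi / 4 / 2 ^ n) ≤ 1 - 2 / Real.pi ^ 2 * (Real.pi / 4 / 2 ^ n) ^ 2 := by
      apply Real.cos_le_one_sub_mul_cos_sq
      rw [abs_of_nonneg (by positivity), div_le_iff₀ (by positivity)]
      nlinarith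
    rw [hx2] at h3
    have h4 : 2 / Real.pi ^ 2 * (Real.pi ^ 2 / 16 * (1 / 2 ^ n) ^ 2) = 1 / 8 * (1 / 2 ^ n) ^ 2 := by
      field_simp
      norm_num
    rw [h4] at h3
    linarith
  refine ⟨((((2 ^ i : ℕ) : ℤ) : ZMod (2 ^ (n + 3 + i))), 0), fun h0 => ?_, ?_, hlo⟩
  · have h2 : EE (N := 2 ^ (n + 3 + i)) ((((2 ^ i : ℕ) : ℤ) : ZMod (2 ^ (n + 3 + i))), 0) = 0 := by
      rw [h0, H462.EE_zero]
    rw [h2] at hlo
    have := tn_pos n
    linarith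
  · rw [hE, lk_tn]
    have h3 := Real.one_sub_sq_div_two_le_cos (x := Real.pi / 4 / 2 ^ n)
    rw [hx2] at h3
    have h4 : Real.pi ^ 2 ≤ 10 := by nlinarith
    have h5 : Real.pi ^ 2 / 16 * (1 / 2 ^ n : ℝ) ^ 2 ≤ 10 / 16 * (1 / 2 ^ n) ^ 2 := by gcongr
    linarith

lemma lk_tn_small {t1 : ℝ} (h : 0 < t1) : ∃ n0 : ℕ, ∀ n, n0 ≤ n → 4 * tn n ≤ t1 := by
  obtain ⟨n0, hn0⟩ := exists_pow_lt_of_lt_one (show (0 : ℝ) < t1 / 4 by positivity)
    (show (1 / 4 : ℝ) < 1 by norm_num)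
  refine ⟨n0, fun n hn => ?_⟩
  have h1 : tn n = (1 / 4) ^ n := by
    unfold tn
    rw [one_div, inv_pow]
  have h2 : (1 / 4 : ℝ) ^ n ≤ (1 / 4) ^ n0 := pow_le_pow_of_le_one (by norm_num) (by norm_num) hn
  rw [h1]
  linarith

/-- size of the stiffness and upper bound of the profile from one torus -/
theorem lk_prof {b C t1 : ℝ} (hb : 0 < b) (hC : 0 < C)
    (top : ∀ (N : ℕ) [NeZero N] (t : ℝ), 0 < t → t ≤ t1 →
      ∀ k : V N, k ≠ 0 → Pik N b t k ≤ C * (t + EE k)) {n r : ℕ} (hr : n + 3 ≤ r)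
    (ht1 : 4 * tn n ≤ t1) {a η : ℝ} (hη : η ≤ 1) (h1 : FL b (tn n) a η (2 ^ r))
    (h4 : FL b (4 * tn n) a η (2 ^ r)) :
    a ≤ 4 + 5 * C ∧ 1 / b - 4 * η ≤ a ∧ ∀ T, tn n ≤ T → T ≤ 4 * tn n → ∀ k : V (2 ^ r), k ≠ 0 →
      Pin (2 ^ r) b T k ≤ (8 + 10 * C) * EE k := by
  have ht := tn_pos n
  have hη0 : 0 ≤ η := by
    obtain ⟨z, a', -, -, h, -⟩ := h1
    exact (abs_nonneg _).trans h
  obtain ⟨k0, hk0, e1, e2⟩ := lk_mid hr
  have hE0 := EE_pos hk0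
  have f1 := abs_le.1 (h1.flat ht hk0)
  have hx : EE k0 / tn n ≤ 1 := by rwa [div_le_one ht]
  have f2 : 2 * η * (1 + EE k0 / tn n) * EE k0 ≤ 4 * η * EE k0 := by
    have : 2 * η * (1 + EE k0 / tn n) ≤ 2 * η * (1 + 1) :=
      mul_le_mul_of_nonneg_left (by linarith) (by positivity)
    exact (mul_le_mul_of_nonneg_right this hE0.le).trans (le_of_eq (by ring))
  have ha : a ≤ 4 + 5 * C := by
    have g1 := H963.Pin_le_Pik (N := 2 ^ r) hb ht hk0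
    have g2 := top (2 ^ r) (tn n) ht (by linarith) k0 hk0
    have g3 : C * (tn n + EE k0) ≤ C * (5 * EE k0) := mul_le_mul_of_nonneg_left (by linarith) hC.le
    have g4 : a * EE k0 ≤ (4 + 5 * C) * EE k0 := by
      have : 4 * η * EE k0 ≤ 4 * 1 * EE k0 := by gcongr
      linarith [f1.1]
    exact le_of_mul_le_mul_right g4 hE0
  have ha0 : 1 / b - 4 * η ≤ a := by
    have g1 := H276.Pin_ge (N := 2 ^ r) hb ht hk0
    have g4 : (1 / b - 4 * η) * EE k0 ≤ a * EE k0 := by linarith [f1.2]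
    exact le_of_mul_le_mul_right g4 hE0
  refine ⟨ha, ha0, fun T hT1 hT2 k hk => ?_⟩
  have hT : 0 < T := ht.trans_le hT1
  have hE := EE_pos hk
  rcases le_total (EE k) (4 * tn n) with hk4 | hk4
  · have g1 := H276.Pin_mono (N := 2 ^ r) hb hT hT2 hk
    have g2 := (abs_le.1 (h4.flat (by positivity) hk)).2
    have hx : EE k / (4 * tn n) ≤ 1 := by rwa [div_le_one (by positivity)]
    have g3 : 2 * η * (1 + EE k / (4 * tn n)) * EE k ≤ 4 * EE k := by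
      have : 2 * η * (1 + EE k / (4 * tn n)) ≤ 2 * 1 * (1 + 1) := by gcongr
      exact (mul_le_mul_of_nonneg_right this hE.le).trans (le_of_eq (by ring))
    have g4 : a * EE k ≤ (4 + 5 * C) * EE k := mul_le_mul_of_nonneg_right ha hE.le
    have g5 : 0 ≤ C * EE k := by positivity
    linarith
  · have g1 := H963.Pin_le_Pik (N := 2 ^ r) hb hT hk
    have g2 := top (2 ^ r) T hT (by linarith) k hk
    have g3 : C * (T + EE k) ≤ C * (2 * EE k) := mul_le_mul_of_nonneg_left (by linarith) hC.le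
    have g5 : 0 ≤ C * EE k := by positivity
    linarith

/-- the profile of a state: bound of the stiffness, upper bound of the profile at all momenta and
all masses in `[t_n, 4 t_n]`, 692's structure for the common stiffness `a` near `a0` -/
structure LkP (P : Par) (b c1 a' : ℝ) (n : ℕ) (e : ℝ) : Prop where
  a_le : a' ≤ c1
  a_ge : 1 / b - 4 * e ^ P.pf ≤ a'
  up : ∀ r, P.TT n e r → ∀ T, tn n ≤ T → T ≤ 4 * tn n → ∀ k : V (2 ^ r), k ≠ 0 →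
    Pin (2 ^ r) b T k ≤ c1 * EE k
  prf : ∀ r, P.TT n e r → ∀ a a0 d : ℝ, FL b (tn n) a (17 * e ^ P.pf) (2 ^ r) → |a - a0| ≤ d →
    PrF (2 ^ r) b (tn n) a0 (1 / b) c1 (34 * e ^ P.pf + d) (34 * e ^ P.pf)

/-- **(K1)** -/
theorem lk_prF {b : ℝ} (hb : 0 < b) (hh : 0 < helicity b) (hs : 1 / helicity b < 5 / 2) :
    ∃ (c1 : ℝ) (n0 : ℕ), 1 ≤ c1 ∧ ∀ P : Par, 3 ≤ P.kE P.es → 0 ≤ P.pf → ∀ (n : ℕ) (e τ a' : ℝ),
      n0 ≤ n → 0 < e → e ≤ P.es → GP P b a' n e τ → LkP P b c1 a' n e := by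
  obtain ⟨C, t1, hC, ht1, top⟩ := H280.top1 hb hh hs
  obtain ⟨n0, hn0⟩ := lk_tn_small ht1
  refine ⟨8 + 10 * C, n0, by linarith, ?_⟩
  intro P hk hpf n e τ a' hn he hes hG
  have hη : e ^ P.pf ≤ 1 := Real.rpow_le_one he.le (by linarith [P.es1]) hpf
  have hk3 : 3 ≤ P.kE e := hk.trans (H972.lg_anti P.th0.le he hes)
  have hr3 : ∀ r, P.TT n e r → n + 3 ≤ r := fun r hr => by
    have := hr.1
    omega
  have key : ∀ r, P.TT n e r → a' ≤ 4 + 5 * C ∧ 1 / b - 4 * e ^ P.pf ≤ a' ∧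
      ∀ T, tn n ≤ T → T ≤ 4 * tn n → ∀ k : V (2 ^ r), k ≠ 0 →
      Pin (2 ^ r) b T k ≤ (8 + 10 * C) * EE k := fun r hr =>
    lk_prof hb hC top (hr3 r hr) (hn0 n hn) hη (hG.flat r hr).1 (hG.flat r hr).2
  have h0 := key _ (H972.TT_base P n e)
  refine ⟨by linarith [h0.1], h0.2.1, fun r hr => (key r hr).2.2, fun r hr a a0 d hF hd => ?_⟩
  have h1 := PrF.of_FL (c0 := 1 / b) (c1 := 8 + 10 * C) (tn_pos n) hF hd
    (fun k hk => H276.Pin_ge hb (tn_pos n) hk)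
    (fun k hk => (key r hr).2.2 (tn n) le_rfl (by linarith [tn_pos n]) k hk)
  have e1 : 2 * (17 * e ^ P.pf) = 34 * e ^ P.pf := by ring
  rwa [e1] at h1

/-- **(K1)**, as a family -/
theorem fam_lkP {b : ℝ} (hb : 0 < b) (hh : 0 < helicity b) (hs : 1 / helicity b < 5 / 2) :
    ∃ c1 : ℝ, 1 ≤ c1 ∧ ∀ b1 b2 pf : ℝ, Fam b1 b2 pf fun P N0 => ∀ (n : ℕ) (e τ a' : ℝ),
      N0 ≤ n → 0 < e → e ≤ P.es → GP P b a' n e τ → LkP P b c1 a' n e := by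
  obtain ⟨c1, n0, hc1, h⟩ := lk_prF hb hh hs
  refine ⟨c1, hc1, fun b1 b2 pf => ?_⟩
  have h0 : Fam b1 b2 pf fun _ _ => True := Fam.of_all fun _ _ _ _ _ _ => trivial
  refine h0.bind fun P hA _ _ _ _ => ⟨n0, fun N0 hN n e τ a' hn he hes hG => ?_⟩
  exact h P hA.hk hA.pf0.le n e τ a' (hN.trans hn) he hes hG

/-- **(K1) (i)** in the letters of 692's `UpP` (unfolded) -/
theorem fam_upP {b : ℝ} (hb : 0 < b) (hh : 0 < helicity b) (hs : 1 / helicity b < 5 / 2) :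
    ∃ c₁ : ℝ, 1 ≤ c₁ ∧ ∀ b1 b2 pf : ℝ, Fam b1 b2 pf fun P N0 => ∀ (n : ℕ) (e a τ : ℝ),
      N0 ≤ n → 0 < e → e ≤ P.es → GP P b a n e τ → ∀ r, P.TT n e r → ∀ T, tn n ≤ T →
      T ≤ 4 * tn n → ∀ k : V (2 ^ r), k ≠ 0 → Pin (2 ^ r) b T k ≤ c₁ * EE k := by
  obtain ⟨c1, hc1, h⟩ := fam_lkP hb hh hs
  exact ⟨c1, hc1, fun b1 b2 pf => (h b1 b2 pf).imp fun P N0 _ _ _ _ h n e a τ hn he hes hG =>
    (h n e τ a hn he hes hG).up⟩

end

end Vale.Agent.P159.H340
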