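import Vale.Agent.P159.H856.Dlb
import Vale.Agent.P159.H270.Ed3t
import Vale.Agent.P159.H340.Le1
import Vale.Agent.P159.H340.Lk1g
import Vale.Agent.P159.H801.SFlow

/-!
P159 (helper340), (E6): the zero background number of every far pair at a level of the flow,
numbers: `Del ≤ C (1 + log (1/y n))²`.
-/

set_option linter.unusedSectionVars false

namespace Vale.Agent.P159.H340.Dlv

open Finset Matrix MeasureTheory Filter Topology
open Vale.Agent.P159 Vale.Agent.P159.TM.H331 Vale.Agent.P159.H773 Vale.Agent.P159.H253.Rec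
open Vale.Agent.P159.TM.Spec (V)
open Vale.Agent.P159.TM.SpecC (wT)
open Vale.Agent.P159.TM.H764 (EE)
open Vale.Agent.P159.H963 (Pin)
open Vale.Agent.P159.H817 (gr nrm eF sz bD CG IsPath v1 v2)
open Vale.Agent.P159.H770 (wTD Ed wTD_zero)
open Vale.Agent.P159.H883 (CT CT_pos Psi nuM)
open Vale.Agent.P159.H856.Dl (Del)
open Vale.Agent.P159.H552.Sm (Ag Rw R1 Rw_R1)
open Vale.Agent.P159.H270 (RT RT_R1)
open Vale.Agent.P159.H972 (Par Good tn)
open Vale.Agent.P159.H801 (SFlow xa)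
open Vale.Agent.P159.H264 (kap)

noncomputable section

section num

lemma log2_lo : (1 : ℝ) / 2 ≤ Real.log 2 := by
  have := Real.log_two_gt_d9
  linarith

lemma log2_up : Real.log 2 ≤ 1 := by
  have := Real.log_two_lt_d9
  linarith

/-- `(r - n) log 2 ≤ log (1/Y)` -/
lemma rn_le {m : ℕ} {κ Y : ℝ} (hY : 0 < Y) (hY1 : Y ≤ 1) (hκ : κ ≤ 1)
    (h : (2 : ℝ) ^ m ≤ Y ^ (-κ)) : (m : ℝ) * Real.log 2 ≤ Real.log (1 / Y) := by
  have h1 : (2 : ℝ) ^ m ≤ 1 / Y := by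
    refine h.trans ?_
    rw [one_div, ← Real.rpow_neg_one]
    exact Real.rpow_le_rpow_of_exponent_ge hY hY1 (by linarith)
  have h2 := Real.log_le_log (by positivity) h1
  rwa [Real.log_pow] at h2

/-- `log (1/Y) ≤ n / 2` for large `n` -/
lemma ev_log {y : ℕ → ℝ} (hy : ∀ n, 0 < y n) {LL : ℝ} (hLL : 1 ≤ LL)
    (h : ∀ᶠ n : ℕ in atTop, (n : ℝ)⁻¹ * (1 / y n) ≤ LL) :
    ∀ᶠ n : ℕ in atTop, Real.log (1 / y n) ≤ n / 2 := by
  have h1 : Tendsto (fun n : ℕ => Real.log (n : ℝ) / n) atTop (𝓝 0) := by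
    have := Real.isLittleO_log_id_atTop.tendsto_div_nhds_zero
    exact this.comp tendsto_natCast_atTop_atTop
  have h2 : Tendsto (fun n : ℕ => Real.log LL * (1 / (n : ℝ))) atTop (𝓝 0) := by
    have := tendsto_one_div_atTop_nhds_zero_nat.const_mul (Real.log LL)
    rwa [mul_zero] at this
  have h3 := h2.add h1
  rw [add_zero] at h3
  filter_upwards [h, h3.eventually (Iic_mem_nhds (by norm_num : (0 : ℝ) < 1 / 2)),
    eventually_ge_atTop 1] with n e1 e2 e3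
  have hn : (0 : ℝ) < n := by exact_mod_cast e3
  have h4 : 1 / y n ≤ LL * n := by
    have := mul_le_mul_of_nonneg_right e1 hn.le
    have e : (n : ℝ)⁻¹ * (1 / y n) * n = 1 / y n := by field_simp
    rwa [e] at this
  have h5 := Real.log_le_log (one_div_pos.2 (hy n)) h4
  rw [Real.log_mul (by linarith) hn.ne'] at h5
  refine h5.trans ?_
  have e2' : Real.log LL * (1 / (n : ℝ)) + Real.log (n : ℝ) / n ≤ 1 / 2 := e2
  have h6 := mul_le_mul_of_nonneg_right e2' hn.le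
  have e7 : (Real.log LL * (1 / (n : ℝ)) + Real.log (n : ℝ) / n) * n =
      Real.log LL + Real.log n := by field_simp
  rw [e7] at h6
  linarith

/-- `log n ≤ log (1/Y) + C` for large `n` -/
lemma ev_logn {y : ℕ → ℝ} {c0 : ℝ} (hc0 : 0 < c0)
    (h : ∀ᶠ n : ℕ in atTop, c0 ≤ (n : ℝ)⁻¹ * (1 / y n)) :
    ∀ᶠ n : ℕ in atTop, Real.log (n : ℝ) ≤ Real.log (1 / y n) + |Real.log c0| := by
  filter_upwards [h, eventually_ge_atTop 1] with n e1 e3
  have hn : (0 : ℝ) < n := by exact_mod_cast e3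
  have h4 : c0 * n ≤ 1 / y n := by
    have := mul_le_mul_of_nonneg_right e1 hn.le
    have e : (n : ℝ)⁻¹ * (1 / y n) * n = 1 / y n := by field_simp
    rwa [e] at this
  have h5 := Real.log_le_log (mul_pos hc0 hn) h4
  rw [Real.log_mul hc0.ne' hn.ne'] at h5
  have := neg_abs_le (Real.log c0)
  linarith

/-- `clog` in logarithms -/
lemma clog_log {m : ℕ} (hm : 2 ≤ m) : (Nat.clog 2 m : ℝ) * Real.log 2 ≤ Real.log m + Real.log 2 := by
  have h1 : 2 ^ (Nat.clog 2 m - 1) < m := Nat.pow_pred_clog_lt_self (by norm_num) (by omega)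
  have h0 : 1 ≤ Nat.clog 2 m := Nat.clog_pos (by norm_num) hm
  have h2 : ((2 : ℝ)) ^ (Nat.clog 2 m - 1) ≤ m := by exact_mod_cast h1.le
  have h3 := Real.log_le_log (by positivity) h2
  rw [Real.log_pow, Nat.cast_sub h0, Nat.cast_one] at h3
  linarith

end num

variable {b α C1 : ℝ}

/-- the two point function at distance `R` is at least a power of `R` -/
lemma ga_log (hb : 0 < b) (hα2 : α ≤ 1 / 2) (hC1 : 0 < C1) {R n : ℕ}
    (h : RecAt b α C1 R) (hR : 1 ≤ R) (hRn : (R : ℝ) ≤ 4 ^ n) :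
    -Real.log (ga b R) ≤ Real.log C1 - Real.log (ua b 1) + n := by
  have hg := h.1
  have hu : 0 < ua b 1 := pow_pos (H253.Sm.mm_pos hb 1) 2
  have hR0 : (0 : ℝ) < R := by exact_mod_cast hR
  have h1 := h.2 1 le_rfl hR
  rw [Nat.cast_one, div_one] at h1
  have h2 := Real.log_le_log hu h1
  rw [Real.log_mul (by positivity) hg.ne', Real.log_mul hC1.ne' (by positivity),
    Real.log_rpow hR0] at h2
  have h3 : 0 ≤ Real.log R := Real.log_nonneg (by exact_mod_cast hR)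
  have h4 : Real.log R ≤ 2 * n := by
    have h5 := Real.log_le_log hR0 hRn
    rw [Real.log_pow] at h5
    have h6 : Real.log 4 ≤ 2 := by
      have e : (4 : ℝ) = 2 ^ 2 := by norm_num
      rw [e, Real.log_pow]
      have := log2_up
      push_cast
      linarith
    have h7 : (n : ℝ) * Real.log 4 ≤ n * 2 := mul_le_mul_of_nonneg_left h6 (Nat.cast_nonneg _)
    linarith
  have h5 : α * Real.log R ≤ 1 / 2 * (2 * n) := mul_le_mul hα2 h4 h3 (by norm_num)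
  linarith

/-- the good set of the symmetric part -/
lemma Ag_compl {N : ℕ} [NeZero N] (t s r : ℝ) :
    (Ag (wTD N b) (t • (1 : Matrix (V N) (V N) ℝ)) t 0 s r)ᶜ =
      {F | r < RT N b t 0 ((2 * s) • F)} := by
  ext F
  have e : RT N b t 0 ((2 * s) • F) =
      Rw (wTD N b) (t • (1 : Matrix (V N) (V N) ℝ)) t 0 ((2 : ℝ) • (s • F)) := by
    rw [Rw_R1, wTD_zero, RT_R1, smul_smul]
  constructor
  · intro h
    show r < RT N b t 0 ((2 * s) • F)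
    rw [e]
    exact not_le.1 h
  · intro h h2
    have h' : r < RT N b t 0 ((2 * s) • F) := h
    rw [e] at h'
    exact absurd h2 (not_le.2 h')

/-- the numbers of one level -/
structure LvD (n r a : ℕ) (Y C' : ℝ) : Prop where
  nr : n ≤ r
  r2 : r ≤ 2 * n
  n1 : 8 ≤ n
  a1 : 2 ≤ a
  an : 2 * a ≤ n
  a4 : 4 * n ≤ 2 ^ a
  /-- `1 + log (N/ρ)` -/
  lg : 1 + Real.log (((2 ^ r : ℕ) : ℝ) / ((2 ^ (n - 2 * a) : ℕ) : ℝ)) ≤
    C' * (1 + Real.log (1 / Y))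

lemma LvD.logN {n r a : ℕ} {Y C' : ℝ} (h : LvD n r a Y C') :
    Real.log (1 + ((2 ^ r : ℕ) : ℝ)) ≤ 4 * n := by
  have h1 : (1 : ℝ) + ((2 ^ r : ℕ) : ℝ) ≤ 2 ^ (r + 1) := by
    push_cast
    rw [pow_succ]
    have : (1 : ℝ) ≤ 2 ^ r := one_le_pow₀ (by norm_num)
    linarith
  have h2 := Real.log_le_log (by positivity) h1
  rw [Real.log_pow] at h2
  have h3 : ((r + 1 : ℕ) : ℝ) * Real.log 2 ≤ ((r + 1 : ℕ) : ℝ) * 1 :=
    mul_le_mul_of_nonneg_left log2_up (Nat.cast_nonneg _)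
  have h4 : ((r + 1 : ℕ) : ℝ) ≤ 4 * n := by
    have := h.r2
    have := h.n1
    have : r + 1 ≤ 4 * n := by omega
    exact_mod_cast this
  linarith

lemma LvD.rho {n r a : ℕ} {Y C' : ℝ} (h : LvD n r a Y C') :
    ((2 ^ (n - 2 * a) : ℕ) : ℝ) * (4 * n) ≤ ((2 ^ (n - a) : ℕ) : ℝ) := by
  have h1 : 2 ^ (n - a) = 2 ^ (n - 2 * a) * 2 ^ a := by
    rw [← pow_add]
    congr 1
    have := h.an
    omega
  rw [h1]
  push_cast
  refine mul_le_mul_of_nonneg_left ?_ (by positivity)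
  exact_mod_cast h.a4

lemma LvD.tr {n r a : ℕ} {Y C' : ℝ} (h : LvD n r a Y C') :
    tn n * (((2 ^ (n - a) : ℕ) : ℝ)) ^ 2 * (4 * (n : ℝ)) ^ 2 ≤ 1 := by
  unfold H972.tn
  have h1 : (((2 ^ (n - a) : ℕ) : ℝ)) ^ 2 * (2 ^ a) ^ 2 = 4 ^ n := by
    push_cast
    rw [← mul_pow, ← pow_add]
    have : n - a + a = n := by
      have := h.an
      omega
    rw [this, ← pow_mul, mul_comm, pow_mul]
    norm_num
  have h2 : (4 * (n : ℝ)) ^ 2 ≤ (2 ^ a) ^ 2 := by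
    refine pow_le_pow_left₀ (by positivity) ?_ 2
    exact_mod_cast h.a4
  have h3 : (((2 ^ (n - a) : ℕ) : ℝ)) ^ 2 * (4 * (n : ℝ)) ^ 2 ≤ 4 ^ n := by
    rw [← h1]
    exact mul_le_mul_of_nonneg_left h2 (by positivity)
  have h4 : (0 : ℝ) < 4 ^ n := by positivity
  rw [mul_assoc, inv_mul_le_iff₀ h4, mul_one]
  exact h3

/-- existence of the numbers of a level -/
lemma ev_LvD {y : ℕ → ℝ} (hy : ∀ n, 0 < y n) {N0 : ℕ} (hy1 : ∀ n, N0 ≤ n → y n ≤ 1) {κ LL c0 : ℝ}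
    (hκ : κ ≤ 1) (hLL : 1 ≤ LL) (hc0 : 0 < c0)
    (h1 : ∀ᶠ n : ℕ in atTop, (n : ℝ)⁻¹ * (1 / y n) ≤ LL)
    (h2 : ∀ᶠ n : ℕ in atTop, c0 ≤ (n : ℝ)⁻¹ * (1 / y n)) :
    ∀ᶠ n : ℕ in atTop, ∀ r, n ≤ r → (2 : ℝ) ^ (r - n) ≤ y n ^ (-κ) →
      LvD n r (Nat.clog 2 (4 * n)) (y n) (9 + 2 * |Real.log c0|) := by
  have e0 := (tendsto_natCast_atTop_atTop (R := ℝ))
  have hc : ∀ᶠ n : ℕ in atTop, 2 * Nat.clog 2 (4 * n) ≤ n := by
    filter_upwards [Le.ev_clog 2 4, eventually_ge_atTop 1] with n h h1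
    have : Nat.clog 2 (4 * n) ≤ Nat.clog 2 n + 2 := by
      have h3 : 4 * n ≤ 2 ^ (Nat.clog 2 n + 2) := by
        rw [pow_add]
        have := Nat.le_pow_clog (by norm_num : 1 < 2) n
        omega
      exact (Nat.clog_le_iff_le_pow (by norm_num)).2 h3
    omega
  filter_upwards [ev_log hy hLL h1, ev_logn hc0 h2, hc, eventually_ge_atTop 8,
    eventually_ge_atTop N0] with n g1 g2 g3 g4 g5 r hr hpow
  have hY := hy n
  have hY1 := hy1 n g5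
  have hl0 : 0 ≤ Real.log (1 / y n) := Real.log_nonneg (by rw [le_div_iff₀ hY]; linarith)
  have h3 := rn_le hY hY1 hκ hpow
  have hn0 : (0 : ℝ) < n := by
    have : 0 < n := by omega
    exact_mod_cast this
  have hrn : ((r - n : ℕ) : ℝ) ≤ n := by
    have h4 : ((r - n : ℕ) : ℝ) * (1 / 2) ≤ ((r - n : ℕ) : ℝ) * Real.log 2 :=
      mul_le_mul_of_nonneg_left log2_lo (Nat.cast_nonneg _)
    linarith
  have hrn' : r - n ≤ n := by exact_mod_cast hrn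
  have ha4 : 4 * n ≤ 2 ^ Nat.clog 2 (4 * n) := Nat.le_pow_clog (by norm_num) _
  refine ⟨hr, by omega, g4, ?_, g3, ha4, ?_⟩
  · by_contra hcon
    have h5 : Nat.clog 2 (4 * n) ≤ 1 := by omega
    have h6 : 2 ^ Nat.clog 2 (4 * n) ≤ 2 ^ 1 := Nat.pow_le_pow_right (by norm_num) h5
    omega
  · set a := Nat.clog 2 (4 * n) with ha
    have e1 : Real.log (((2 ^ r : ℕ) : ℝ) / ((2 ^ (n - 2 * a) : ℕ) : ℝ)) =
        ((r - n : ℕ) : ℝ) * Real.log 2 + 2 * ((a : ℝ) * Real.log 2) := by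
      rw [Real.log_div (by positivity) (by positivity)]
      push_cast
      rw [Real.log_pow, Real.log_pow, Nat.cast_sub g3, Nat.cast_sub hr]
      push_cast
      ring
    have h5 := clog_log (m := 4 * n) (by omega)
    push_cast at h5
    rw [Real.log_mul (by norm_num) hn0.ne'] at h5
    have h6 : Real.log 4 ≤ 2 * Real.log 2 := by
      have e : (4 : ℝ) = 2 ^ 2 := by norm_num
      rw [e, Real.log_pow]
      push_cast
      exact le_rfl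
    have h7 := log2_up
    have h8 := abs_nonneg (Real.log c0)
    rw [e1]
    have h9 : 0 ≤ (6 + 2 * |Real.log c0|) * Real.log (1 / y n) := by positivity
    nlinarith

/-- the numbers `n⁻¹ (1 / y n)` of the flow are bounded above and below -/
lemma flow_ny {P : Par} {b σ c c1 q2 qx : ℝ} {a y ε xs : ℕ → ℝ} {c' r' q' A : ℝ} {N0 : ℕ}
    (h : SFlow P b σ c c1 q2 qx a y ε xs c' r' q' A N0) :
    ∃ LL c0 : ℝ, 1 ≤ LL ∧ 0 < c0 ∧ (∀ᶠ n : ℕ in atTop, (n : ℝ)⁻¹ * (1 / y n) ≤ LL) ∧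
      ∀ᶠ n : ℕ in atTop, c0 ≤ (n : ℝ)⁻¹ * (1 / y n) := by
  have hk : 0 < Real.sqrt (H264.kap * A) := Real.sqrt_pos.2 (mul_pos H264.kap_pos h.A0)
  refine ⟨Real.sqrt (H264.kap * A) + 1, Real.sqrt (H264.kap * A) / 2, by linarith, by linarith,
    ?_, ?_⟩
  · exact h.t3.ny.eventually (Iic_mem_nhds (by linarith))
  · exact h.t3.ny.eventually (Ici_mem_nhds (by linarith))

/-- **the zero background number at a level of the flow** -/
theorem del_num {P : Par} {b σ c c1 q2 qx α C1 κ : ℝ} {a y ε xs : ℕ → ℝ} {c' r' q' A : ℝ} {N0 : ℕ}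
    (hb : 0 < b) (h : SFlow P b σ c c1 q2 qx a y ε xs c' r' q' A N0) (hh : 0 < helicity b)
    (hs : 1 / helicity b < 5 / 2) (hk3 : 3 ≤ P.kE P.es) (hpf : 0 ≤ P.pf) (hα : 1 / 4 ≤ α)
    (hα2 : α < 1 / 2) (hC1 : 1 ≤ C1) (hκ : κ ≤ 1) :
    ∃ C A0 : ℝ, 1 ≤ C ∧ 16 ≤ A0 ∧ ∀ᶠ n : ℕ in atTop, ∀ r, P.TT n (ε n) r →
      (2 : ℝ) ^ (r - n) ≤ y n ^ (-κ) →
      ∀ (L R : ℕ) (s δ : ℝ) (η : Ed (2 ^ r) → ℤ) (p q : V (2 ^ r)) (φ : V (2 ^ r) → ℝ), C ≤ s →
      RecAt b α C1 R → 2 ^ n ≤ R → R ≤ 2 * sz (q - p) → sz (q - p) ≤ 4 * R →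
      A0 * R ≤ ((2 ^ r : ℕ) : ℝ) → IsPath p q (v1 p q) (v2 p q) L η →
      (∀ e, eF η φ e = bD p q e) → 0 < δ → δ * (n : ℝ) ^ 3 ≤ 3 →
      ∫ F in {F | 1 < RT (2 ^ r) b (tn n) 0 ((2 * s) • F)},
        Psi (wT b (2 ^ r)) (wTD (2 ^ r) b η) (tn n • (1 : Matrix (V (2 ^ r)) (V (2 ^ r)) ℝ)) φ F
        ∂(nuM (wT b (2 ^ r)) (tn n • (1 : Matrix (V (2 ^ r)) (V (2 ^ r)) ℝ)) 0) ≤
        δ * CT (2 ^ r) b η →
      Del (wTD (2 ^ r) b) (tn n • (1 : Matrix (V (2 ^ r)) (V (2 ^ r)) ℝ)) (tn n) 0 η φ ≤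
        C * (1 + Real.log (1 / y n)) ^ 2 := by
  obtain ⟨cA, n1, hcA, hprf⟩ := H340.lk_prF hb hh hs
  obtain ⟨C, A0, hC, hA0, hmain⟩ := H856.Dl.delta_far' (α := α) (C1 := C1) (CA := cA) hb hα hα2 hC1
    (by linarith)
  obtain ⟨LL, c0, hLL, hc0, E1, E2⟩ := flow_ny h
  have hC' : 1 ≤ 9 + 2 * |Real.log c0| := by
    have := abs_nonneg (Real.log c0)
    linarith
  refine ⟨C * (9 + 2 * |Real.log c0|) ^ 2, A0, ?_, hA0, ?_⟩
  · have : 1 ≤ (9 + 2 * |Real.log c0|) ^ 2 := one_le_pow₀ hC'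
    nlinarith
  have hlogs : ∀ᶠ n : ℕ in atTop, Real.log C1 - Real.log (ua b 1) + n ≤ 4 * n := by
    filter_upwards [(tendsto_natCast_atTop_atTop (R := ℝ)).eventually_ge_atTop
      (Real.log C1 - Real.log (ua b 1)), eventually_ge_atTop 0] with n h1 _
    linarith
  have hCn : ∀ᶠ n : ℕ in atTop, 48 * C ≤ (n : ℝ) :=
    (tendsto_natCast_atTop_atTop (R := ℝ)).eventually_ge_atTop _
  filter_upwards [ev_LvD (κ := κ) h.fl.y0 h.y1 hκ hLL hc0 E1 E2, hlogs, hCn,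
    eventually_ge_atTop N0, eventually_ge_atTop n1] with n hD g1 g2 g3 g4 r hTT hpow L R s δ η p q
    φ hCs hrec hnR hR1 hR2 hAR hpath hφ hδ0 hδ hQ
  have hY : 0 < y n := h.fl.y0 n
  have hnr : n ≤ r := by
    have := hTT.1
    omega
  have D := hD r hnr hpow
  have ht : 0 < tn n := by unfold H972.tn; positivity
  have hε0 : 0 < ε n := (Real.rpow_pos_of_pos hY _).trans_le (h.lo n g3)
  obtain ⟨τ, a', hτ1, hτ2, hG⟩ := h.good n g3
  have hprof := (hprf P hk3 hpf n (ε n) τ a' g4 hε0 (h.es n g3)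
    (hG (ε n) le_rfl (h.es n g3))).up r hTT (tn n) le_rfl (by linarith)
  have hn8 : (8 : ℝ) ≤ n := by exact_mod_cast D.n1
  have hR32 : 32 ≤ R := by
    have h1 : 2 ^ 8 ≤ 2 ^ n := Nat.pow_le_pow_right (by norm_num) D.n1
    omega
  have hR0 : (0 : ℝ) < R := by
    have : 0 < R := by omega
    exact_mod_cast this
  have hRN : (R : ℝ) ≤ ((2 ^ r : ℕ) : ℝ) := by nlinarith
  have hR4 : (R : ℝ) ≤ 4 ^ n := by
    refine hRN.trans ?_
    have h1 : 2 ^ r ≤ 4 ^ n := by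
      have e : 4 ^ n = 2 ^ (2 * n) := by rw [pow_mul]; norm_num
      rw [e]
      exact Nat.pow_le_pow_right (by norm_num) D.r2
    exact_mod_cast h1
  have hga := ga_log hb hα2.le (by linarith) hrec (by omega) hR4
  have hρR : 8 * 2 ^ (n - 2 * Nat.clog 2 (4 * n)) ≤ R := by
    have h1 : 8 * 2 ^ (n - 2 * Nat.clog 2 (4 * n)) ≤ 2 ^ n := by
      have e : 8 * 2 ^ (n - 2 * Nat.clog 2 (4 * n)) = 2 ^ (3 + (n - 2 * Nat.clog 2 (4 * n))) := by
        rw [pow_add]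
        norm_num
      rw [e]
      refine Nat.pow_le_pow_right (by norm_num) ?_
      have := D.a1
      have := D.an
      omega
    omega
  have hrN : 2 ^ (n - Nat.clog 2 (4 * n)) ≤ 2 ^ r :=
    Nat.pow_le_pow_right (by norm_num) (by omega)
  have hlogρ : 0 ≤ Real.log (((2 ^ r : ℕ) : ℝ) / ((2 ^ (n - 2 * Nat.clog 2 (4 * n)) : ℕ) : ℝ)) := by
    refine Real.log_nonneg ?_
    rw [one_le_div (by positivity)]
    have : 2 ^ (n - 2 * Nat.clog 2 (4 * n)) ≤ 2 ^ r := Nat.pow_le_pow_right (by norm_num) (by omega)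
    exact_mod_cast this
  have hδ2 : C * (4 * (n : ℝ)) ^ 2 * δ ≤ 1 := by
    have hn3 : 0 < (n : ℝ) := by linarith
    have h1 : C * (4 * (n : ℝ)) ^ 2 * δ * n ≤ 48 * C := by nlinarith
    have h2 : C * (4 * (n : ℝ)) ^ 2 * δ * n ≤ 1 * n := by linarith
    exact le_of_mul_le_mul_right h2 hn3
  rw [← Ag_compl] at hQ
  have hCC : C ≤ s := le_trans (by
    have : 1 ≤ (9 + 2 * |Real.log c0|) ^ 2 := one_le_pow₀ hC'
    nlinarith) hCs
  have hQ' : ∫ F in (Ag (wTD (2 ^ r) b) (tn n • (1 : Matrix (V (2 ^ r)) (V (2 ^ r)) ℝ))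
        (tn n) 0 s 1)ᶜ,
      Psi (wTD (2 ^ r) b 0) (wTD (2 ^ r) b η) (tn n • (1 : Matrix (V (2 ^ r)) (V (2 ^ r)) ℝ)) φ F
        ∂(nuM (wTD (2 ^ r) b 0) (tn n • (1 : Matrix (V (2 ^ r)) (V (2 ^ r)) ℝ)) 0) ≤
      δ * CT (2 ^ r) b η := by
    rw [wTD_zero]
    exact hQ
  have hfin := hmain (2 ^ r) L (2 ^ (n - 2 * Nat.clog 2 (4 * n))) (2 ^ (n - Nat.clog 2 (4 * n))) R
    (tn n) s δ (4 * n) η p q φ ht hrec hR32 hR1 hR2 hAR hpath hφ hprof Nat.one_le_two_pow hρR hCC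
    (by linarith) (hga.trans g1) D.logN D.rho hrN D.tr hδ0 hδ2 hQ'
  refine hfin.trans ?_
  rw [mul_assoc C, ← mul_pow]
  refine mul_le_mul_of_nonneg_left ?_ (by linarith)
  exact pow_le_pow_left₀ (by linarith) D.lg 2

end

end Vale.Agent.P159.H340.Dlv
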