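import Vale.Agent.P159.H340.Dlv
import Vale.Agent.P159.H37.Lq1
import Vale.Agent.P159.H552.Lq1

/-!
P159 (helper340), (E6): the zero background number on the tori of the window of a level, in
helper145's letters (`sd i R`, `KnW`).
-/

set_option linter.unusedSectionVars false

namespace Vale.Agent.P159.H340.Dlv

open Finset Matrix MeasureTheory Filter Topology
open Vale.Agent.P159 Vale.Agent.P159.TM.H331 Vale.Agent.P159.H773 Vale.Agent.P159.H253.Rec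
open Vale.Agent.P159.TM.Spec (V)
open Vale.Agent.P159.TM.SpecC (wT)
open Vale.Agent.P159.H817 (gr nrm eF sz bD CG IsPath v1 v2)
open Vale.Agent.P159.H770 (wTD Ed wTD_zero)
open Vale.Agent.P159.H883 (CT CT_pos Psi nuM)
open Vale.Agent.P159.H856.Dl (Del)
open Vale.Agent.P159.H270 (RT)
open Vale.Agent.P159.H972 (Par Good tn lg)
open Vale.Agent.P159.H801 (SFlow xa)
open Vale.Agent.P159.H37.Sf (kf sf_TT sf_k3 sf_ub sf_lb0 sf_wt lg_le lb_eq)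
open Vale.Agent.P159.H145.Lw (KnW)
open Vale.Agent.P159.H27 (Rb)

noncomputable section

/-- the probability of the bad set of amplitude `s` in the presence of the dislocation -/
def QB (N : ℕ) [NeZero N] (b t : ℝ) (η : Ed N → ℤ) (φ : V N → ℝ) (s δ : ℝ) : Prop :=
  ∫ F in {F | 1 < RT N b t 0 ((2 * s) • F)},
    Psi (wT b N) (wTD N b η) (t • (1 : Matrix (V N) (V N) ℝ)) φ F
    ∂(nuM (wT b N) (t • (1 : Matrix (V N) (V N) ℝ)) 0) ≤ δ * CT N b η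

section win

variable {P : Par} {b σ c c1 q2 qx : ℝ} {a y ε xs : ℕ → ℝ} {c' r' q' A : ℝ} {N0 : ℕ}

/-- **the zero background number at a level of the flow**, torus `N = 2 ^ r` -/
theorem del_numN {α C1 κ : ℝ} (hb : 0 < b) (h : SFlow P b σ c c1 q2 qx a y ε xs c' r' q' A N0)
    (hh : 0 < helicity b) (hs : 1 / helicity b < 5 / 2) (hk3 : 3 ≤ P.kE P.es) (hpf : 0 ≤ P.pf)
    (hα : 1 / 4 ≤ α) (hα2 : α < 1 / 2) (hC1 : 1 ≤ C1) (hκ : κ ≤ 1) :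
    ∃ C A0 : ℝ, 1 ≤ C ∧ 16 ≤ A0 ∧ ∀ᶠ n : ℕ in atTop, ∀ r, P.TT n (ε n) r →
      (2 : ℝ) ^ (r - n) ≤ y n ^ (-κ) → ∀ (N : ℕ) [NeZero N], N = 2 ^ r →
      ∀ (L R : ℕ) (s δ : ℝ) (η : Ed N → ℤ) (p q : V N) (φ : V N → ℝ), C ≤ s →
      RecAt b α C1 R → 2 ^ n ≤ R → R ≤ 2 * sz (q - p) → sz (q - p) ≤ 4 * R →
      A0 * R ≤ (N : ℝ) → IsPath p q (v1 p q) (v2 p q) L η →
      (∀ e, eF η φ e = bD p q e) → 0 < δ → δ * (n : ℝ) ^ 3 ≤ 3 →
      QB N b (tn n) η φ s δ →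
      Del (wTD N b) (tn n • (1 : Matrix (V N) (V N) ℝ)) (tn n) 0 η φ ≤
        C * (1 + Real.log (1 / y n)) ^ 2 := by
  obtain ⟨C, A0, hC, hA0, H⟩ := del_num hb h hh hs hk3 hpf hα hα2 hC1 hκ
  refine ⟨C, A0, hC, hA0, ?_⟩
  filter_upwards [H] with n hn r hTT hpow N hne hN
  subst hN
  have e : hne = NeZero.pow := Subsingleton.elim _ _
  subst e
  exact fun L R s δ η p q φ => hn r hTT hpow L R s δ η p q φ

/-- the side of the tori of the window -/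
lemma win_pow (hthp : P.thp ≤ 1 / 96) (h : SFlow P b σ c c1 q2 qx a y ε xs c' r' q' A N0)
    (hσ0 : 0 ≤ σ) (hσ : σ ≤ 1 / 4) {ck : ℝ} (hck : 0 < ck) (hck1 : ck ≤ P.thp) {κ : ℝ}
    (hκ : 1 / 10 ≤ κ) (i : ℕ) :
    ∀ᶠ n : ℕ in atTop, ∀ R : ℕ, R ≤ 2 ^ (n + P.w (ε n) + kf ck y (n + P.w (ε n))) →
      (2 : ℝ) ^ (i + Nat.clog 2 R - n) ≤ y n ^ (-κ) := by
  have hth := P.thp0
  have h1 := (H37.Sf.lb_tend h.fl.y0 h.fl.yt).eventually_ge_atTop (60 * ((i : ℝ) + 4))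
  filter_upwards [sf_k3 h hσ hck hck1, h1, eventually_ge_atTop N0] with n g1 g2 hn R hR
  have hy := h.fl.y0 n
  have hl0 := sf_lb0 h hn
  have g3 : Nat.clog 2 R ≤ n + P.w (ε n) + kf ck y (n + P.w (ε n)) := by
    have := Nat.clog_mono_right 2 hR
    rwa [Nat.clog_pow 2 _ one_lt_two] at this
  have g4 : i + Nat.clog 2 R - n ≤ i + 4 * P.w (ε n) := by omega
  have g5 : (P.w (ε n) : ℝ) ≤ 2 * P.thp * Real.logb 2 (1 / y n) + 1 := by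
    have e2 := sf_ub h hn
    have e3 : (2 - σ) * Real.logb 2 (1 / y n) ≤ 2 * Real.logb 2 (1 / y n) :=
      mul_le_mul_of_nonneg_right (by linarith) hl0
    have e0 : 0 ≤ P.thp * Real.logb 2 (1 / ε n) := by
      refine mul_nonneg hth.le ?_
      have e4 := H37.Sf.sf_lb h hn
      have e5 : 0 ≤ (2 - 3 * σ) * Real.logb 2 (1 / y n) := mul_nonneg (by linarith) hl0
      linarith
    have e1 : (P.w (ε n) : ℝ) ≤ P.thp * Real.logb 2 (1 / ε n) + 1 := lg_le e0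
    have e6 : P.thp * Real.logb 2 (1 / ε n) ≤ P.thp * (2 * Real.logb 2 (1 / y n)) :=
      mul_le_mul_of_nonneg_left (e2.trans e3) hth.le
    linarith
  have g6 : ((i + Nat.clog 2 R - n : ℕ) : ℝ) ≤ κ * Real.logb 2 (1 / y n) := by
    have e1 : ((i + Nat.clog 2 R - n : ℕ) : ℝ) ≤ ((i + 4 * P.w (ε n) : ℕ) : ℝ) := by
      exact_mod_cast g4
    push_cast at e1
    have e2 : 8 * P.thp * Real.logb 2 (1 / y n) ≤ 1 / 12 * Real.logb 2 (1 / y n) :=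
      mul_le_mul_of_nonneg_right (by linarith) hl0
    have e3 : 1 / 10 * Real.logb 2 (1 / y n) ≤ κ * Real.logb 2 (1 / y n) :=
      mul_le_mul_of_nonneg_right hκ hl0
    linarith
  have g7 : (2 : ℝ) ^ (κ * Real.logb 2 (1 / y n)) = y n ^ (-κ) := by
    rw [mul_comm, Real.rpow_mul two_pos.le, Real.rpow_logb two_pos (by norm_num) (by positivity),
      one_div, Real.inv_rpow hy.le, Real.rpow_neg hy.le]
  rw [← g7, ← Real.rpow_natCast]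
  exact Real.rpow_le_rpow_of_exponent_le one_lt_two.le g6

/-- **the zero background number on the tori of the window** -/
theorem del_win {α C1 : ℝ} (hb : 0 < b) (h : SFlow P b σ c c1 q2 qx a y ε xs c' r' q' A N0)
    (hA : P.Adm) (hh : 0 < helicity b) (hs : 1 / helicity b < 5 / 2) (hσ0 : 0 ≤ σ)
    (hσ : σ ≤ 1 / 4) {ck : ℝ} (hck : 0 < ck) (hck1 : ck ≤ P.thp) (hck2 : 2 * P.th ≤ ck)
    (hα : 1 / 4 ≤ α) (hα2 : α < 1 / 2) (hC1 : 1 ≤ C1) :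
    ∃ (C : ℝ) (i0 : ℕ), 1 ≤ C ∧ ∀ i, i0 ≤ i → ∀ᶠ n : ℕ in atTop,
      ∀ R : ℕ, 2 ^ (n + kf ck y n) ≤ R → R ≤ 2 ^ (n + P.w (ε n) + kf ck y (n + P.w (ε n))) →
      RecAt b α C1 R →
      ∀ (L : ℕ) (s δ : ℝ) (η : Ed (sd i R) → ℤ) (p q : V (sd i R)) (φ : V (sd i R) → ℝ), C ≤ s →
      R ≤ 2 * sz (q - p) → sz (q - p) ≤ 4 * R → IsPath p q (v1 p q) (v2 p q) L η →
      (∀ e, eF η φ e = bD p q e) → 0 < δ → δ * (n : ℝ) ^ 3 ≤ 3 →
      QB (sd i R) b (tn n) η φ s δ →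
      Del (wTD (sd i R) b) (tn n • (1 : Matrix (V (sd i R)) (V (sd i R)) ℝ)) (tn n) 0 η φ ≤
        C * (1 + Real.log (1 / y n)) ^ 2 := by
  obtain ⟨C, A0, hC, hA0, H⟩ := del_numN (κ := 1 / 10) hb h hh hs hA.hk hA.pf0.le hα hα2 hC1
    (by norm_num)
  obtain ⟨i1, hi1⟩ := pow_unbounded_of_one_lt A0 (one_lt_two (α := ℝ))
  have hthp : P.thp ≤ 1 / 96 := by
    have := hA.hx
    have := hA.x11
    have := P.th0
    linarith
  refine ⟨C, max 1 i1, hC, fun i hi => ?_⟩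
  filter_upwards [H, sf_TT h hA hσ0 hσ hck hck1 hck2 ((le_max_left _ _).trans hi),
    win_pow hthp h hσ0 hσ hck hck1 (le_refl (1 / 10 : ℝ)) i] with n g1 g2 g3 R hR0 hR1 hrec L s δ
    η p q φ hCs hp1 hp2 hpath hφ hδ0 hδ hQ
  have hN : sd i R = 2 ^ (i + Nat.clog 2 R) := by
    unfold H773.sd
    rw [pow_add]
  have hnR : 2 ^ n ≤ R := (Nat.pow_le_pow_right (by norm_num) (Nat.le_add_right _ _)).trans hR0
  have hAR : A0 * R ≤ (sd i R : ℝ) := by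
    have h1 : 2 ^ i * R ≤ sd i R := H773.sd_ge i R
    have h4 : (2 : ℝ) ^ i * R ≤ sd i R := by exact_mod_cast h1
    have h5 : A0 ≤ 2 ^ i := hi1.le.trans
      (pow_le_pow_right₀ one_lt_two.le ((le_max_right _ _).trans hi))
    exact (mul_le_mul_of_nonneg_right h5 (Nat.cast_nonneg R)).trans h4
  exact g1 _ (g2 R hR0 hR1) (g3 R hR1) (sd i R) hN L R s δ η p q φ hCs hrec hnR hp1 hp2 hAR hpath
    hφ hδ0 hδ hQ

/-- **the zero background number of the axis pair `R` of a level**, helper145's letters -/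
theorem del_KnW {β C2 : ℝ} (hb : 0 < b) (h : SFlow P b σ c c1 q2 qx a y ε xs c' r' q' A N0)
    (hA : P.Adm) (hh : 0 < helicity b) (hs : 1 / helicity b < 5 / 2) (hσ0 : 0 ≤ σ)
    (hσ : σ ≤ 1 / 4) {ck : ℝ} (hck : 0 < ck) (hck1 : ck ≤ P.thp) (hck2 : 2 * P.th ≤ ck)
    (hβ : 1 / 4 ≤ β) (hβ2 : β < 1 / 2) (hC2 : 1 ≤ C2) :
    ∃ (C : ℝ) (i0 : ℕ), 1 ≤ C ∧ ∀ i, i0 ≤ i → ∀ᶠ n : ℕ in atTop,
      ∀ R : ℕ, 2 ^ (n + kf ck y n) ≤ R → R ≤ 2 ^ (n + P.w (ε n) + kf ck y (n + P.w (ε n))) →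
      ∀ (A0 : ℝ) (Am : ℕ) (a' : ℕ → ℝ) (k w : ℕ → ℕ) (n0 j : ℕ), 1 ≤ Am →
      KnW b β C2 A0 Am i a' k w n0 j R → Rb k w n0 0 ≤ R →
      ∀ (η : ∀ R, Ed (sd i R) → ℤ) (φ : ∀ R, V (sd i R) → ℝ), Pth i η →
      (∀ R, 1 ≤ R → bD (0 : V (sd i R)) (R • (H817.e1 : V (sd i R))) = eF (η R) (φ R)) →
      ∀ s δ : ℝ, C ≤ s → 0 < δ → δ * (n : ℝ) ^ 3 ≤ 3 →
      QB (sd i R) b (tn n) (η R) (φ R) s δ →
      Del (wTD (sd i R) b) (tn n • (1 : Matrix (V (sd i R)) (V (sd i R)) ℝ)) (tn n) 0 (η R) (φ R) ≤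
        C * (1 + Real.log (1 / y n)) ^ 2 := by
  obtain ⟨C, i0, hC, H⟩ := del_win (α := β) (C1 := C2) hb h hA hh hs hσ0 hσ hck hck1 hck2 hβ hβ2 hC2
  refine ⟨C, max 2 i0, hC, fun i hi => ?_⟩
  filter_upwards [H i ((le_max_right _ _).trans hi)] with n hn R hR0 hR1 A0 Am a' k w n0 j hAm K
    hRb η φ hη hφ s δ hCs hδ0 hδ hQ
  have hR : 1 ≤ R := Nat.one_le_two_pow.trans hR0
  have hrec := K.rcd R hRb (Nat.le_mul_of_pos_left R hAm)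
  obtain ⟨q1, L, hL⟩ := H552.Lq.path_ax (i := i) ((le_max_left _ _).trans hi) hη hR
  have e1 : H773.ax0 (sd i R) R = R • (H817.e1 : V (sd i R)) := (H817.nsmul_e1 R).symm
  have hsz := H552.Lq.sz_ax (N := sd i R) q1
  rw [e1] at hL hsz
  exact hn R hR0 hR1 hrec L s δ (η R) 0 (R • H817.e1) (φ R) hCs (by rw [hsz]; omega)
    (by rw [hsz]; omega) hL (fun e => by rw [hφ R hR]) hδ0 hδ hQ

end win

end

end Vale.Agent.P159.H340.Dlv
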