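import Vale.Agent.P159.H340.Dlx

/-!
P159 (helper340), (E6), powers of `y`: `Del ≤ y n ^ (-κ)` for every `κ > 0` along the flow.
-/

set_option linter.unusedSectionVars false

namespace Vale.Agent.P159.H340.Dlv

open Finset Matrix MeasureTheory Filter Topology
open Vale.Agent.P159 Vale.Agent.P159.TM.H331 Vale.Agent.P159.H773 Vale.Agent.P159.H253.Rec
open Vale.Agent.P159.TM.Spec (V)
open Vale.Agent.P159.TM.SpecC (wT)
open Vale.Agent.P159.H817 (gr nrm eF sz bD CG IsPath v1 v2)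
open Vale.Agent.P159.H770 (wTD Ed wTD_zero)
open Vale.Agent.P159.H856.Dl (Del)
open Vale.Agent.P159.H972 (Par Good tn lg)
open Vale.Agent.P159.H801 (SFlow xa)
open Vale.Agent.P159.H37.Sf (kf)
open Vale.Agent.P159.H513 (LkS)

noncomputable section

/-- squares of logarithms are smaller than powers -/
lemma log_pow {C κ : ℝ} (hC : 0 ≤ C) (hκ : 0 < κ) : ∃ y0 : ℝ, 0 < y0 ∧ y0 ≤ 1 ∧
    ∀ y, 0 < y → y ≤ y0 → C * (1 + Real.log (1 / y)) ^ 2 ≤ y ^ (-κ) := by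
  -- `1 + log Z ≤ (4 / κ) Z ^ (κ / 4) + 1`
  obtain ⟨y1, hy1, h1⟩ := H37.Sf.pow_small (s := κ / 2)
    (e := 1 / (C * (1 + 4 / κ) ^ 2 + 1)) (by positivity) (by positivity)
  refine ⟨min y1 1, by positivity, min_le_right _ _, fun y hy hyy => ?_⟩
  have g1 := h1 y hy (hyy.trans (min_le_left _ _))
  have g2 : y ≤ 1 := hyy.trans (min_le_right _ _)
  have hZ : 1 ≤ 1 / y := by rw [one_le_div hy]; exact g2
  have hl := Real.log_le_rpow_div (show 0 ≤ 1 / y by positivity) (show 0 < κ / 4 by positivity)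
  have hl0 : 0 ≤ Real.log (1 / y) := Real.log_nonneg hZ
  have hZp : 1 ≤ (1 / y) ^ (κ / 4) := Real.one_le_rpow hZ (by positivity)
  have h2 : 1 + Real.log (1 / y) ≤ (1 + 4 / κ) * (1 / y) ^ (κ / 4) := by
    have e : (1 / y) ^ (κ / 4) / (κ / 4) = 4 / κ * (1 / y) ^ (κ / 4) := by field_simp
    rw [e] at hl
    linarith
  have h3 : (1 + Real.log (1 / y)) ^ 2 ≤ ((1 + 4 / κ) * (1 / y) ^ (κ / 4)) ^ 2 :=
    pow_le_pow_left₀ (by linarith) h2 2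
  have e1 : ((1 / y) ^ (κ / 4)) ^ 2 = y ^ (-(κ / 2)) := by
    rw [one_div, Real.inv_rpow hy.le, ← Real.rpow_neg hy.le, ← Real.rpow_natCast,
      ← Real.rpow_mul hy.le]
    congr 1
    push_cast
    ring
  rw [mul_pow, e1] at h3
  have hp0 : 0 < y ^ (-(κ / 2)) := Real.rpow_pos_of_pos hy _
  have e2 : y ^ (-κ) * y ^ (κ / 2) = y ^ (-(κ / 2)) := by
    rw [← Real.rpow_add hy]
    congr 1
    ring
  have hp1 : 0 < y ^ (-κ) := Real.rpow_pos_of_pos hy _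
  have hD : 0 < C * (1 + 4 / κ) ^ 2 + 1 := by positivity
  rw [le_div_iff₀ hD] at g1
  calc C * (1 + Real.log (1 / y)) ^ 2 ≤ C * ((1 + 4 / κ) ^ 2 * y ^ (-(κ / 2))) :=
        mul_le_mul_of_nonneg_left h3 hC
    _ = y ^ (-κ) * (y ^ (κ / 2) * (C * (1 + 4 / κ) ^ 2)) := by rw [← e2]; ring
    _ ≤ y ^ (-κ) * 1 := by
        refine mul_le_mul_of_nonneg_left ?_ hp1.le
        have := Real.rpow_pos_of_pos hy (κ / 2)
        linarith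
    _ = y ^ (-κ) := mul_one _

/-- along the flow -/
lemma sf_log {P : Par} {b σ c c1 q2 qx : ℝ} {a y ε xs : ℕ → ℝ} {c' r' q' A : ℝ} {N0 : ℕ}
    (h : SFlow P b σ c c1 q2 qx a y ε xs c' r' q' A N0) {C κ : ℝ} (hC : 0 ≤ C) (hκ : 0 < κ) :
    ∀ᶠ n in atTop, C * (1 + Real.log (1 / y n)) ^ 2 ≤ y n ^ (-κ) := by
  obtain ⟨y0, hy0, -, H⟩ := log_pow hC hκ
  filter_upwards [h.fl.yt.eventually (gt_mem_nhds hy0)] with n hn
  exact H _ (h.fl.y0 n) hn.le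

/-- **the zero background number of every far pair of the window, along the flow** -/
theorem del_flow_y {b b1 b2 pf : ℝ} (hb1 : 0 < b1) (h1 : b1 ≤ b) (hpf : 2 / 3 ≤ pf) (Q : ℕ)
    (hh : 0 < helicity b) (hs : 1 / helicity b < 5 / 2)
    (hSi : ∀ i, 2 / Real.pi ≤ stiff (2 ^ i) b) (hL : LkS b (2 / Real.pi)) :
    H801.Ev b1 b2 pf Q fun P c1 =>
      ∀ {σ c q2 qx : ℝ} {a y ε xs : ℕ → ℝ} {c' r q A : ℝ} {N : ℕ},
      SFlow P b σ c c1 q2 qx a y ε xs c' r q A N → 0 ≤ σ → σ ≤ 1 / 6 → 0 ≤ c → c < 3 / 16 →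
      ∀ ck : ℝ, 0 < ck → 2 * P.th ≤ ck → ck ≤ P.thp →
      ∀ α C1 κ : ℝ, 1 / 4 ≤ α → α < 1 / 2 → 1 ≤ C1 → 0 < κ →
      ∃ i0 : ℕ, ∀ i, i0 ≤ i → ∀ᶠ n : ℕ in atTop,
        ∀ R : ℕ, 2 ^ (n + kf ck y n) ≤ R → R ≤ 2 ^ (n + P.w (ε n) + kf ck y (n + P.w (ε n))) →
        RecAt b α C1 R →
        ∀ (L : ℕ) (η : Ed (sd i R) → ℤ) (p q : V (sd i R)) (φ : V (sd i R) → ℝ),
        R ≤ 2 * sz (q - p) → sz (q - p) ≤ 4 * R → IsPath p q (v1 p q) (v2 p q) L η →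
        (∀ e, eF η φ e = bD p q e) →
        Del (wTD (sd i R) b) (tn n • (1 : Matrix (V (sd i R)) (V (sd i R)) ℝ)) (tn n) 0 η φ ≤
          y n ^ (-κ) := by
  refine (del_flow (b2 := b2) hb1 h1 hpf Q hh hs hSi hL).mono fun P c1 hA hT => ?_
  intro σ c q2 qx a y ε xs c' r q A N h hσ0 hσ hc hc3 ck hck hck2 hck1 α C1 κ hα hα2 hC1 hκ
  obtain ⟨C, i0, hC, H⟩ := hT h hσ0 hσ hc hc3 ck hck hck2 hck1 α C1 hα hα2 hC1
  refine ⟨i0, fun i hi => ?_⟩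
  filter_upwards [H i hi, sf_log h (by linarith : (0 : ℝ) ≤ C) hκ] with n g1 g2 R hR0 hR1 hrec L η
    p q' φ hp1 hp2 hpath hφ
  exact (g1 R hR0 hR1 hrec L η p q' φ hp1 hp2 hpath hφ).trans g2

/-- **the zero background number of the axis pairs of the window, along the flow**, in helper37's
form `Win`, powers of `y` (helper145's `hDel` with `κ = c3 / 2`) -/
theorem del_flowWy {b b1 b2 pf : ℝ} (hb1 : 0 < b1) (h1 : b1 ≤ b) (hpf : 2 / 3 ≤ pf) (Q : ℕ)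
    (hh : 0 < helicity b) (hs : 1 / helicity b < 5 / 2)
    (hSi : ∀ i, 2 / Real.pi ≤ stiff (2 ^ i) b) (hL : LkS b (2 / Real.pi)) :
    H801.Ev b1 b2 pf Q fun P c1 =>
      ∀ {σ c q2 qx : ℝ} {a y ε xs : ℕ → ℝ} {c' r q A : ℝ} {N : ℕ},
      SFlow P b σ c c1 q2 qx a y ε xs c' r q A N → 0 ≤ σ → σ ≤ 1 / 6 → 0 ≤ c → c < 3 / 16 →
      ∀ ck : ℝ, 0 < ck → 2 * P.th ≤ ck → ck ≤ P.thp →
      ∀ (β C2 A0 : ℝ) (Am : ℕ), 1 / 4 ≤ β → β < 1 / 2 → 1 ≤ C2 → 1 ≤ Am →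
      ∃ i0 : ℕ, ∀ i, i0 ≤ i → ∀ κ : ℝ, 0 < κ →
        ∀ (η : ∀ R, Ed (sd i R) → ℤ) (φ : ∀ R, V (sd i R) → ℝ), H145.Sp.AxP i η φ →
        H37.Sf.Win P b β C2 A0 Am i ck a y ε fun n R =>
          Del (wTD (sd i R) b) (tn n • (1 : Matrix (V (sd i R)) (V (sd i R)) ℝ)) (tn n) 0 (η R)
            (φ R) ≤ y n ^ (-κ) := by
  refine (del_flowW (b2 := b2) hb1 h1 hpf Q hh hs hSi hL).mono fun P c1 hA hT => ?_
  intro σ c q2 qx a y ε xs c' r q A N h hσ0 hσ hc hc3 ck hck hck2 hck1 β C2 A0 Am hβ hβ2 hC2 hAm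
  obtain ⟨C, i0, hC, H⟩ := hT h hσ0 hσ hc hc3 ck hck hck2 hck1 β C2 A0 Am hβ hβ2 hC2 hAm
  refine ⟨i0, fun i hi κ hκ η φ hη => ?_⟩
  refine (H i hi η φ hη).mono ?_
  filter_upwards [sf_log h (by linarith : (0 : ℝ) ≤ C) hκ] with n g2 R _ _ hD
  exact hD.trans g2

end

end Vale.Agent.P159.H340.Dlv
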