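import Vale.Agent.P159.H276.Es1

/-!
P159, row 6628 (helper270), Ed3 (iii), part 1 (helper340): aligned dyadic cells of the torus of side
`2 ^ R`. If the averages over adjacent aligned cells of every side `2 ^ k`, `k0 ≤ k < R`, differ by at
most `a`, then all cell averages of side `2 ^ k0` stay within `(R - k0) a` of the mean, and the moving
average of the cell average has gradient at most `2 (R - k0) a / 2 ^ k0`.
-/

namespace Vale.Agent.P159.H340

open Finset
open Vale.Agent.P159.TM.Spec (V)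
open Vale.Agent.P159.H276 (bxT)

noncomputable section

variable {N : ℕ} [NeZero N]

/-- corner of the aligned cell of side `2 ^ k` containing `x` -/
def cr (N k : ℕ) [NeZero N] (x : V N) : V N :=
  (((x.1.val / 2 ^ k * 2 ^ k : ℕ) : ZMod N), ((x.2.val / 2 ^ k * 2 ^ k : ℕ) : ZMod N))

/-- cell average: the average over the aligned cell of side `2 ^ k` containing `x` -/
def cP (N k : ℕ) [NeZero N] (h : V N → ℝ) (x : V N) : ℝ := bxT N (2 ^ k) h (cr N k x)

/-- the unit vector of an edge: `true` is the second coordinate -/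
def dr (N : ℕ) [NeZero N] (t : Bool) : V N := if t then (0, 1) else (1, 0)

/-- difference of the averages over adjacent boxes of side `q` -/
def dB (N q : ℕ) [NeZero N] (u : V N → ℝ) (x : V N) (t : Bool) : ℝ :=
  bxT N q u (x + q • dr N t) - bxT N q u x

lemma sum_range_two (m : ℕ) (f : ℕ → ℝ) :
    ∑ i ∈ range (2 * m), f i = ∑ i ∈ range m, f i + ∑ i ∈ range m, f (m + i) := by
  rw [two_mul, sum_range_add]

/-- a box of side `2 m` is cut into four boxes of side `m` -/
lemma bxT_two {m : ℕ} (u : V N → ℝ) (x : V N) :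
    bxT N (2 * m) u x = (bxT N m u x + bxT N m u (x + m • dr N true) +
      bxT N m u (x + m • dr N false) + bxT N m u (x + m • dr N false + m • dr N true)) / 4 := by
  unfold bxT
  rw [sum_range_two]
  simp only [sum_range_two]
  have e1 : ∀ (y : V N) (i j : ℕ), y + (((i : ℕ) : ZMod N), ((m + j : ℕ) : ZMod N)) =
      y + m • dr N true + ((i : ZMod N), (j : ZMod N)) := by
    intro y i j
    rw [add_assoc]
    congr 1
    ext <;> simp [dr]
  have e2 : ∀ (y : V N) (i j : ℕ), y + (((m + i : ℕ) : ZMod N), ((j : ℕ) : ZMod N)) =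
      y + m • dr N false + ((i : ZMod N), (j : ZMod N)) := by
    intro y i j
    rw [add_assoc]
    congr 1
    ext <;> simp [dr]
  have e5 : x + m • dr N false + m • dr N true = x + m • dr N true + m • dr N false := by abel
  simp only [e1, e2, e5, sum_add_distrib]
  have e4 : (((2 * m : ℕ) : ℝ) ^ 2)⁻¹ = ((m : ℝ) ^ 2)⁻¹ / 4 := by
    push_cast
    rw [mul_pow, mul_inv]
    ring
  rw [e4]
  ring

/-- the four children of a box are within `a` of the box -/
lemma child_le {m : ℕ} {u : V N → ℝ} {y : V N} {a : ℝ}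
    (h1 : |dB N m u y true| ≤ a) (h2 : |dB N m u y false| ≤ a)
    (h3 : |dB N m u (y + m • dr N false) true| ≤ a)
    (h4 : |dB N m u (y + m • dr N true) false| ≤ a) :
    |bxT N m u y - bxT N (2 * m) u y| ≤ a ∧
    |bxT N m u (y + m • dr N true) - bxT N (2 * m) u y| ≤ a ∧
    |bxT N m u (y + m • dr N false) - bxT N (2 * m) u y| ≤ a ∧
    |bxT N m u (y + m • dr N false + m • dr N true) - bxT N (2 * m) u y| ≤ a := by
  rw [bxT_two]
  unfold dB at h1 h2 h3 h4
  have e : y + m • dr N true + m • dr N false = y + m • dr N false + m • dr N true := by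
    abel
  rw [e] at h4
  rw [abs_le] at h1 h2 h3 h4
  refine ⟨?_, ?_, ?_, ?_⟩ <;> rw [abs_le] <;> constructor <;> linarith

/-- parent relation -/
lemma cr_succ (k : ℕ) (x : V N) : ∃ s t : Bool,
    cr N k x = cr N (k + 1) x + (if s then (2 ^ k) • dr N false else 0) +
      (if t then (2 ^ k) • dr N true else 0) := by
  have key : ∀ m : ℕ, ∃ s : Bool, m / 2 ^ k * 2 ^ k =
      m / 2 ^ (k + 1) * 2 ^ (k + 1) + if s then 2 ^ k else 0 := by
    intro m
    have h1 : m / 2 ^ (k + 1) = m / 2 ^ k / 2 := by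
      rw [pow_succ, Nat.div_div_eq_div_mul]
    set r := m / 2 ^ k with hr
    rcases Nat.mod_two_eq_zero_or_one r with h | h
    · refine ⟨false, ?_⟩
      have h2 : r = 2 * (r / 2) := by omega
      rw [h1]
      simp only [Bool.false_eq_true, if_false, add_zero]
      conv_lhs => rw [h2]
      rw [pow_succ]
      ring
    · refine ⟨true, ?_⟩
      have h2 : r = 2 * (r / 2) + 1 := by omega
      rw [h1]
      simp only [if_true]
      conv_lhs => rw [h2]
      rw [pow_succ]
      ring
  obtain ⟨s, hs⟩ := key x.1.val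
  obtain ⟨t, ht⟩ := key x.2.val
  refine ⟨s, t, ?_⟩
  unfold cr
  rw [hs, ht]
  cases s <;> cases t <;> (ext <;> simp [dr])

/-- the aligned corners of side `2 ^ k` -/
def Al (N k : ℕ) [NeZero N] : Finset (V N) := univ.image (cr N k)

lemma cr_mem (k : ℕ) (x : V N) : cr N k x ∈ Al N k := mem_image_of_mem _ (mem_univ x)

/-- corners are the multiples of the side -/
lemma al_of {R k : ℕ} (hR : N = 2 ^ R) (hk : k ≤ R) (i j : ℕ) :
    (((i * 2 ^ k : ℕ) : ZMod N), ((j * 2 ^ k : ℕ) : ZMod N)) ∈ Al N k := by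
  have hd : N = 2 ^ (R - k) * 2 ^ k := by
    rw [hR, ← pow_add]
    congr 1
    omega
  have h0 : 0 < 2 ^ k := by positivity
  have key : ∀ i : ℕ, ((((i * 2 ^ k : ℕ) : ZMod N).val / 2 ^ k * 2 ^ k : ℕ) : ZMod N) =
      ((i * 2 ^ k : ℕ) : ZMod N) := by
    intro i
    rw [ZMod.val_natCast]
    have h1 : i * 2 ^ k % N = (i % 2 ^ (R - k)) * 2 ^ k := by
      conv_lhs => rw [hd]
      rw [Nat.mul_mod_mul_right]
    rw [h1, Nat.mul_div_cancel _ h0, ← h1, ZMod.natCast_mod]
  refine mem_image.2 ⟨(((i * 2 ^ k : ℕ) : ZMod N), ((j * 2 ^ k : ℕ) : ZMod N)), mem_univ _, ?_⟩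
  unfold cr
  simp only
  rw [key i, key j]

lemma al_card {R k : ℕ} (hR : N = 2 ^ R) (hk : k ≤ R) : (Al N k).card ≤ 4 ^ (R - k) := by
  classical
  have hd : N = 2 ^ (R - k) * 2 ^ k := by
    rw [hR, ← pow_add]
    congr 1
    omega
  have h1 : Al N k ⊆ (range (2 ^ (R - k)) ×ˢ range (2 ^ (R - k))).image
      fun z => (((z.1 * 2 ^ k : ℕ) : ZMod N), ((z.2 * 2 ^ k : ℕ) : ZMod N)) := by
    intro y hy
    obtain ⟨x, _, rfl⟩ := mem_image.1 hy
    have key : ∀ a : ZMod N, a.val / 2 ^ k < 2 ^ (R - k) := by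
      intro a
      rw [Nat.div_lt_iff_lt_mul (by positivity), ← hd]
      exact ZMod.val_lt a
    exact mem_image.2 ⟨(x.1.val / 2 ^ k, x.2.val / 2 ^ k),
      mem_product.2 ⟨mem_range.2 (key _), mem_range.2 (key _)⟩, rfl⟩
  refine (card_le_card h1).trans (card_image_le.trans (le_of_eq ?_))
  rw [card_product, card_range, ← mul_pow]
  norm_num

/-- the corner of a double cell plus a multiple of the side is aligned -/
lemma al_child {R k : ℕ} (hR : N = 2 ^ R) (hk : k ≤ R) (x : V N) (s t : Bool) :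
    cr N (k + 1) x + (if s then (2 ^ k) • dr N false else 0) +
      (if t then (2 ^ k) • dr N true else 0) ∈ Al N k := by
  have h := al_of (N := N) hR hk (x.1.val / 2 ^ (k + 1) * 2 + if s then 1 else 0)
    (x.2.val / 2 ^ (k + 1) * 2 + if t then 1 else 0)
  refine (congrArg (· ∈ Al N k) ?_).mp h
  unfold cr
  cases s <;> cases t <;> (ext <;> simp [dr, pow_succ] <;> ring)

/-- the control of all adjacent cell averages -/
def Gd (N k0 R : ℕ) [NeZero N] (u : V N → ℝ) (a : ℝ) : Prop :=
  ∀ k, k0 ≤ k → k < R → ∀ x ∈ Al N k, ∀ t, |dB N (2 ^ k) u x t| ≤ a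

/-- one step up -/
lemma step_le {R k0 k : ℕ} (hR : N = 2 ^ R) (h0 : k0 ≤ k) (hk : k < R) {u : V N → ℝ} {a : ℝ}
    (hG : Gd N k0 R u a) (x : V N) : |cP N k u x - cP N (k + 1) u x| ≤ a := by
  have hA : ∀ s t : Bool, cr N (k + 1) x + (if s then (2 ^ k) • dr N false else 0) +
      (if t then (2 ^ k) • dr N true else 0) ∈ Al N k := al_child hR hk.le x
  have a1 : cr N (k + 1) x ∈ Al N k := by simpa using hA false false
  have a2 : cr N (k + 1) x + (2 ^ k) • dr N false ∈ Al N k := by simpa using hA true false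
  have a3 : cr N (k + 1) x + (2 ^ k) • dr N true ∈ Al N k := by simpa using hA false true
  obtain ⟨c1, c2, c3, c4⟩ := child_le (hG k h0 hk _ a1 true) (hG k h0 hk _ a1 false)
    (hG k h0 hk _ a2 true) (hG k h0 hk _ a3 false)
  have e : 2 * 2 ^ k = 2 ^ (k + 1) := by ring
  rw [e] at c1 c2 c3 c4
  obtain ⟨s, t, hst⟩ := cr_succ k x
  unfold cP
  rw [hst]
  cases s <;> cases t
  · simpa using c1
  · simpa using c2
  · simpa using c3
  · simpa using c4

/-- **all cell averages are within `(R - k0) a` of a constant** -/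
theorem cP_le {R k0 : ℕ} (hR : N = 2 ^ R) (h0 : k0 ≤ R) {u : V N → ℝ} {a : ℝ}
    (hG : Gd N k0 R u a) : ∃ c, ∀ x, |cP N k0 u x - c| ≤ ((R : ℝ) - k0) * a := by
  have key : ∀ j, k0 + j ≤ R → ∀ x, |cP N k0 u x - cP N (k0 + j) u x| ≤ j * a := by
    intro j
    induction j with
    | zero => intro _ x; simp
    | succ j ih =>
      intro hj x
      have h1 := ih (by omega) x
      have h2 := step_le hR (Nat.le_add_right k0 j) (by omega : k0 + j < R) hG x
      have h3 : cP N k0 u x - cP N (k0 + (j + 1)) u x =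
          (cP N k0 u x - cP N (k0 + j) u x) + (cP N (k0 + j) u x - cP N (k0 + j + 1) u x) := by
        rw [← add_assoc]
        ring
      rw [h3]
      refine (abs_add_le _ _).trans ?_
      push_cast
      linarith
  refine ⟨cP N R u 0, fun x => ?_⟩
  have h1 := key (R - k0) (by omega) x
  have e : k0 + (R - k0) = R := by omega
  rw [e] at h1
  have h2 : cP N R u x = cP N R u 0 := by
    have h3 : ∀ y : V N, cr N R y = 0 := by
      intro y
      unfold cr
      have k1 : y.1.val / 2 ^ R = 0 := Nat.div_eq_of_lt (by rw [← hR]; exact ZMod.val_lt _)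
      have k2 : y.2.val / 2 ^ R = 0 := Nat.div_eq_of_lt (by rw [← hR]; exact ZMod.val_lt _)
      rw [k1, k2]
      ext <;> simp
    unfold cP
    rw [h3 x, h3 0]
  rw [h2] at h1
  refine h1.trans (le_of_eq ?_)
  rw [Nat.cast_sub h0]

/-! ### the moving average -/

lemma bxT_le {q : ℕ} (hq : 1 ≤ q) {v : V N → ℝ} {c B : ℝ} (hv : ∀ x, |v x - c| ≤ B) (x : V N) :
    |bxT N q v x - c| ≤ B := by
  have hq0 : (0 : ℝ) < q := by exact_mod_cast hq
  have h1 : bxT N q v x - c = bxT N q (fun y => v y + -c) x := by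
    rw [H276.bxT_addc hq]
    ring
  rw [h1]
  unfold bxT
  rw [abs_mul, abs_of_pos (by positivity : 0 < ((q : ℝ) ^ 2)⁻¹)]
  have h2 : |∑ i ∈ range q, ∑ j ∈ range q, (v (x + ((i : ZMod N), (j : ZMod N))) + -c)| ≤
      ∑ i ∈ range q, ∑ j ∈ range q, B := by
    refine (abs_sum_le_sum_abs _ _).trans (sum_le_sum fun i _ => ?_)
    refine (abs_sum_le_sum_abs _ _).trans (sum_le_sum fun j _ => ?_)
    simpa [sub_eq_add_neg] using hv (x + ((i : ZMod N), (j : ZMod N)))
  refine (mul_le_mul_of_nonneg_left h2 (by positivity : 0 ≤ ((q : ℝ) ^ 2)⁻¹)).trans (le_of_eq ?_)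
  simp only [sum_const, card_range, nsmul_eq_mul]
  field_simp

/-- telescoping: the difference of a box average at unit distance -/
lemma bxT_diff {q : ℕ} (v : V N → ℝ) (x : V N) (t : Bool) :
    bxT N q v (x + dr N t) - bxT N q v x = ((q : ℝ) ^ 2)⁻¹ * ∑ i ∈ range q,
      (v (x + i • dr N (!t) + q • dr N t) - v (x + i • dr N (!t))) := by
  unfold bxT
  rw [← mul_sub]
  congr 1
  have tel : ∀ y : V N, ∑ k ∈ range q, (v (y + (k + 1) • dr N t) - v (y + k • dr N t)) =
      v (y + q • dr N t) - v y := by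
    intro y
    rw [sum_range_sub fun k => v (y + k • dr N t)]
    simp
  cases t
  · -- first coordinate
    rw [sum_comm]
    nth_rewrite 2 [sum_comm]
    rw [← sum_sub_distrib]
    refine sum_congr rfl fun j _ => ?_
    rw [← sum_sub_distrib]
    have := tel (x + j • dr N (!false))
    rw [← this]
    refine sum_congr rfl fun i _ => ?_
    congr 2
    · ext <;> simp [dr]
      ring
    · ext <;> simp [dr]
  · rw [← sum_sub_distrib]
    refine sum_congr rfl fun i _ => ?_
    rw [← sum_sub_distrib]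
    have := tel (x + i • dr N (!true))
    rw [← this]
    refine sum_congr rfl fun j _ => ?_
    congr 2
    · ext <;> simp [dr] <;> ring
    · ext <;> simp [dr]

/-- **the moving average of a function within `B` of a constant has gradient `≤ 2 B / q`** -/
theorem bxT_grad {q : ℕ} (hq : 1 ≤ q) {v : V N → ℝ} {c B : ℝ} (hv : ∀ x, |v x - c| ≤ B) (x : V N)
    (t : Bool) : |bxT N q v (x + dr N t) - bxT N q v x| ≤ 2 * B / q := by
  have hq0 : (0 : ℝ) < q := by exact_mod_cast hq
  rw [bxT_diff, abs_mul, abs_of_pos (by positivity : 0 < ((q : ℝ) ^ 2)⁻¹)]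
  have h2 : |∑ i ∈ range q, (v (x + i • dr N (!t) + q • dr N t) - v (x + i • dr N (!t)))| ≤
      ∑ _i ∈ range q, 2 * B := by
    refine (abs_sum_le_sum_abs _ _).trans (sum_le_sum fun i _ => ?_)
    have h3 := abs_le.1 (hv (x + i • dr N (!t) + q • dr N t))
    have h4 := abs_le.1 (hv (x + i • dr N (!t)))
    rw [abs_le]
    constructor <;> linarith
  refine (mul_le_mul_of_nonneg_left h2 (by positivity : 0 ≤ ((q : ℝ) ^ 2)⁻¹)).trans (le_of_eq ?_)
  simp only [sum_const, card_range, nsmul_eq_mul]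
  field_simp

end

end Vale.Agent.P159.H340
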