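import Vale.Agent.P159.H340.Ed3d
import Vale.Agent.P159.H270.Ed2e

/-!
P159, row 6628 (helper270), Ed3 (iii), part 5 (helper340): the hypotheses `ExpB`, `ExpD` of
`smooth_tail_cav` from helper270's `expD`, `expD0`; the number of bad edges.
-/

namespace Vale.Agent.P159.H340

open Finset Matrix
open Vale.Agent.P159.TM.Spec (V)
open Vale.Agent.P159.TM.SpecC (wT Tor)
open Vale.Agent.P159.H276 (ExpD)
open Vale.Agent.P159.H770 (Ed eS eT wTD wTD_zero)
open Vale.Agent.P159.H963 (pin)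
open Vale.Agent.P159.H883 (Zp CT)
open Vale.Agent.P159.H270 (Tch expD expD0)
open Vale.Agent.P159 Vale.Agent.P159.T1.H42
open Vale.Agent.P159.TM.H331 (St)
open Vale.Agent.P159.H773 (cv curl cv_inj)

noncomputable section

variable {M : ℕ} {b : ℝ}

open Classical in
/-- the bad edges of a region -/
def badE (M : ℕ) (Λ : Finset (ℤ × ℤ)) : Finset (Ed (M + 2)) :=
  univ.filter fun e => Tch (M := M) Λ e

lemma mem_badE {Λ : Finset (ℤ × ℤ)} {e : Ed (M + 2)} : e ∈ badE M Λ ↔ Tch (M := M) Λ e := by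
  classical
  unfold badE
  rw [mem_filter]
  simp

/-- the price of a ratio -/
lemma price_eq {Z Z0 K E : ℝ} (hZ : 0 < Z) (hZ0 : 0 < Z0) :
    K * E * Z0 = K / (Z / Z0) * E * Z := by
  field_simp

/-- **(EXP-D) off a region, divided** -/
theorem expB_of (hb : 0 < b) {Λ : Finset (ℤ × ℤ)} (hΛ : Λ ⊆ inner (M + 1)) {q : ℤ × ℤ → ℤ}
    {η : Ed (M + 2) → ℤ} (hη : ∀ v, curl (M := M) η v = H529.Qf.bxq M q v)
    (x₀ : Tor (M + 2)) :
    ExpB (M + 2) b η x₀ (badE M Λ) (H529.Qf.EQ b Λ q /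
      (Zp (wTD (M + 2) b η) x₀ / Zp (wT b (M + 2)) x₀)) := by
  intro j hj
  obtain ⟨h1, h2⟩ := expD hb.le hΛ hη x₀ j fun e he => hj e (mem_badE.2 he)
  refine ⟨h1, h2.trans (le_of_eq ?_)⟩
  have hZ := (H883.bw_wTD hb η).Zp_pos x₀
  have hZ0 := (H883.bw_wTD (N := M + 2) hb 0).Zp_pos x₀
  rw [wTD_zero] at hZ0
  exact price_eq hZ hZ0

/-- **(EXP-D), every flow, divided** -/
theorem expD_of (hb : 0 < b) (η : Ed (M + 2) → ℤ) (x₀ : Tor (M + 2)) :
    ExpD (M + 2) b η x₀ (1 / (Zp (wTD (M + 2) b η) x₀ / Zp (wT b (M + 2)) x₀)) := by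
  intro j
  obtain ⟨h1, h2⟩ := expD0 hb.le η x₀ j
  refine ⟨h1, h2.trans (le_of_eq ?_)⟩
  have hZ := (H883.bw_wTD hb η).Zp_pos x₀
  have hZ0 := (H883.bw_wTD (N := M + 2) hb 0).Zp_pos x₀
  rw [wTD_zero] at hZ0
  have h3 := price_eq (K := 1) (E := Real.exp (b * ∑ e, (Real.cosh (j e) - 1))) hZ hZ0
  rw [one_mul] at h3
  exact h3

/-- the same at the base site `0`, with helper883's `CT` -/
theorem expB_CT (hb : 0 < b) {Λ : Finset (ℤ × ℤ)} (hΛ : Λ ⊆ inner (M + 1)) {q : ℤ × ℤ → ℤ}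
    {η : Ed (M + 2) → ℤ} (hη : ∀ v, curl (M := M) η v = H529.Qf.bxq M q v) :
    ExpB (M + 2) b η 0 (badE M Λ) (H529.Qf.EQ b Λ q / CT (M + 2) b η) := by
  have h := expB_of hb hΛ hη 0
  rwa [← wTD_zero] at h

theorem expD_CT (hb : 0 < b) (η : Ed (M + 2) → ℤ) :
    ExpD (M + 2) b η 0 (1 / CT (M + 2) b η) := by
  have h := expD_of hb η 0
  rwa [← wTD_zero] at h

/-- **the number of bad edges** -/
theorem badE_card (Λ : Finset (ℤ × ℤ)) : (badE M Λ).card ≤ 4 * Λ.card := by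
  classical
  have h1 : badE M Λ ⊆ (univ.filter fun e : Ed (M + 2) => cv (M := M) e.1 ∈ Λ) ∪
      univ.filter fun e : Ed (M + 2) =>
        cv (M := M) (e.1 - (if e.2 then (1, 0) else (0, 1))) ∈ Λ := by
    intro e he
    rw [mem_badE] at he
    rw [mem_union, mem_filter, mem_filter]
    rcases he with h | h
    · exact Or.inl ⟨mem_univ _, h⟩
    · exact Or.inr ⟨mem_univ _, h⟩
  have h2 : (univ.filter fun e : Ed (M + 2) => cv (M := M) e.1 ∈ Λ).card ≤
      (Λ ×ˢ (univ : Finset Bool)).card := by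
    refine card_le_card_of_injOn (fun e => (cv (M := M) e.1, e.2)) (fun e he => ?_)
      fun e _ e' _ h => ?_
    · rw [mem_coe, mem_filter] at he
      rw [mem_coe, mem_product]
      exact ⟨he.2, mem_univ _⟩
    · simp only [Prod.mk.injEq] at h
      exact Prod.ext (cv_inj h.1) h.2
  have h3 : (univ.filter fun e : Ed (M + 2) =>
      cv (M := M) (e.1 - (if e.2 then (1, 0) else (0, 1))) ∈ Λ).card ≤
      (Λ ×ˢ (univ : Finset Bool)).card := by
    refine card_le_card_of_injOn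
      (fun e => (cv (M := M) (e.1 - (if e.2 then (1, 0) else (0, 1))), e.2)) (fun e he => ?_)
      fun e _ e' _ h => ?_
    · rw [mem_coe, mem_filter] at he
      rw [mem_coe, mem_product]
      exact ⟨he.2, mem_univ _⟩
    · simp only [Prod.mk.injEq] at h
      have h4 := cv_inj h.1
      rw [h.2] at h4
      exact Prod.ext (sub_left_injective h4) h.2
  have h5 : (Λ ×ˢ (univ : Finset Bool)).card = Λ.card * 2 := by
    rw [card_product, card_univ, Fintype.card_bool]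
  have h4 := (card_le_card h1).trans (card_union_le _ _)
  omega

/-! ### the non quadratic part of the smooth field -/

section rs

open Vale.Agent.P159.H276 (bxT cav)
open Vale.Agent.P159.H817 (gr bD CG)
open Vale.Agent.P159.H963 (ntr)
open Vale.Agent.P159.H37 (Rs)

variable {N : ℕ} [NeZero N]

/-- **Ed3 (iii)**: the non quadratic part at the smooth field, from a deterministic bound `ρ` on the
class of the fields within `B` of a constant with gradient `≤ 2 B / 2 ^ k0` (helper513) -/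
theorem smooth_rs {R k0 : ℕ} (hR : N = 2 ^ R) (hk : k0 ≤ R) {b : ℝ} (hb : 0 < b)
    {η : Ed N → ℤ} {f : V N → ℝ} {p q : V N} (hf : ∀ e, (η e : ℝ) + gr f e = bD p q e) {x₀ : V N}
    {Bad : Finset (Ed N)} {K K0 : ℝ} (hX : ExpB N b η x₀ Bad K)
    (hX0 : ExpD N b η x₀ K0) (hK : 0 ≤ K) (hK0 : 0 ≤ K0)
    {l l' u v : ℝ} (hl : 0 ≤ l) (hl' : 0 ≤ l') (h1 : l ≤ 2 ^ k0) (h2 : l' ≤ 2 ^ k0) {B s : ℝ}
    (hs : 0 ≤ s) (hB : s * (((R : ℝ) - k0) * (u + v + (1 + 36 * CG))) ≤ B) {t ρ : ℝ}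
    (hreg : ∀ (F : V N → ℝ) (c : ℝ), (∀ x, |F x - c| ≤ B) → (∀ e, |gr F e| ≤ 2 * B / 2 ^ k0) →
      Rs (H963.nwt N b t x₀) (ntr (t • (1 : Matrix (V N) (V N) ℝ)) t *ᵥ F) ≤ ρ) :
    ∑' h, Set.indicator {h : V N → ℤ | ρ < Rs (H963.nwt N b t x₀)
        (ntr (t • (1 : Matrix (V N) (V N) ℝ)) t *ᵥ
          (s • bxT N (2 ^ k0) (cav N (2 ^ k0) fun y => (h y : ℝ) - f y)))}
        (pin (wTD N b η) x₀) h ≤
      6 * 4 ^ (R - k0) * (K * Real.exp (b * l ^ 2 - l * u) +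
        K0 * Real.exp (b * (l' ^ 2 * (Bad.card / 4 ^ k0)) - l' * v)) * Zp (wTD N b η) x₀ := by
  have hwnn : ∀ h, 0 ≤ pin (wTD N b η) x₀ h :=
    H963.pin_nonneg (fun h => (H770.wTD_pos hb η h).le) x₀
  have hw : Summable (pin (wTD N b η) x₀) := by
    have := (H883.bw_wTD hb η).em0 x₀
    simpa using this.sum 0
  refine le_trans (Summable.tsum_le_tsum (fun h => ?_) (hw.indicator _) (hw.indicator _))
    (smooth_tail_cav hR hk hb hf hX hX0 hK hK0 (u := u) (v := v) hl hl' h1 h2 hs hB)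
  refine Set.indicator_le_indicator_of_subset ?_ (fun h => hwnn h) h
  intro h hh
  rw [Set.mem_ofPred_eq] at hh ⊢
  rintro ⟨c, hc1, hc2⟩
  exact absurd (hreg _ c hc1 hc2) (not_le.2 hh)

end rs

end

end Vale.Agent.P159.H340
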