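import Vale.Agent.P159.H375.FineM
import Vale.Agent.P159.H513.Cor2

/-!
P159, module VB7 (helper340), part (c): relative form of FINE (F2). Fourth moments against the
bare form `(M + b⁻¹ (-Δ))⁻¹` for every coercive mass form, and the drop of the covariance when
a fine mass is switched on, relative to the bare Green function.
-/

open Finset Matrix Filter Topology

namespace Vale.Agent.P159.H340

open Vale.Agent.P159.TM
open Vale.Agent.P159.TM.H22 (SG Gle lin)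
open Vale.Agent.P159.TM.SpecI
open Vale.Agent.P159.TM.H574
open Vale.Agent.P159.TM.H104 (EM Ex Cv li Lg)
open Vale.Agent.P159.TM.SpecC (wT Tor)
open Vale.Agent.P159.H37 (qf bf re wM Gm cob cellP Ev)
open Vale.Agent.P159.H513 (dvT nC gF)
open Vale.Agent.P159.H864 (lapM)
open Vale.Agent.P159.H375 (mf MasM)

noncomputable section

/-- the constant of the fourth moment -/
def c4 (b : ℝ) : ℝ := 24 * Real.exp (Real.exp (1 / (2 * b)) / 2)

lemma c4_pos (b : ℝ) : 0 < c4 b := by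
  unfold c4
  positivity

lemma cosh_sub_one_le {y a : ℝ} (h : y ^ 2 ≤ 2 * a) :
    Real.cosh y - 1 ≤ y ^ 2 / 2 * Real.exp a := by
  have h1 := Real.cosh_le_exp_half_sq y
  have h2 : Real.exp (y ^ 2 / 2) - 1 ≤ y ^ 2 / 2 * Real.exp (y ^ 2 / 2) := by
    have h3 := Real.add_one_le_exp (-(y ^ 2 / 2))
    have h4 : Real.exp (-(y ^ 2 / 2)) * Real.exp (y ^ 2 / 2) = 1 := by
      rw [← Real.exp_add]; simp
    have h5 := Real.exp_pos (y ^ 2 / 2)
    nlinarith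
  have h6 : Real.exp (y ^ 2 / 2) ≤ Real.exp a := Real.exp_le_exp.2 (by linarith)
  have h7 : y ^ 2 / 2 * Real.exp (y ^ 2 / 2) ≤ y ^ 2 / 2 * Real.exp a :=
    mul_le_mul_of_nonneg_left h6 (by positivity)
  linarith

variable {N : ℕ} [NeZero N] {b : ℝ}

lemma Ex_exp_li {μ : (Tor N → ℤ) → ℝ} (hμ : EM μ) (J : Tor N → ℝ) :
    Ex μ 0 (fun h => Real.exp (li J h)) = Real.exp (Lg μ J - Lg μ 0) := by
  unfold Lg Ex
  rw [Real.exp_sub, Real.exp_log (H104.T_one_pos hμ J), Real.exp_log (H104.T_one_pos hμ 0)]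
  congr 1
  unfold TM.H104.T
  refine tsum_congr fun h => ?_
  rw [H104.li_zero, Real.exp_zero]
  ring

/-- exponential moments against the bare form -/
lemma exp_bare (hb : 0 < b) {M : Matrix (Tor N) (Tor N) ℝ}
    (hMs : Mᵀ = M) {m0 : ℝ} (hm0 : 0 < m0) (hM : ∀ u : Tor N → ℝ, m0 * ∑ x, u x ^ 2 ≤ qf M u)
    (J w : Tor N → ℝ) (c : Tor N → Bool → ℝ) (hJ : ∀ x, J x = (M *ᵥ w) x + dvT c x)
    {Y s : ℝ} (hs : s ^ 2 * Y = 1) (hXY : qf M w + b * nC c ≤ Y) :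
    Ex (wM (wT b N) M) 0 (fun h => Real.exp (li (s • J) h)) ≤
      Real.exp (Real.exp (1 / (2 * b)) / 2) := by
  have hE := H789.em_wM_wT hb.le hm0 hM
  rw [Ex_exp_li hE]
  refine Real.exp_le_exp.2 ?_
  have h1 := H513.e2_bare hb.le hMs hm0 hM (s • J) (s • w) (fun x t => s * c x t) (fun x => by
    rw [Pi.smul_apply, smul_eq_mul, hJ x, Matrix.mulVec_smul, Pi.smul_apply, smul_eq_mul,
      H513.dvT_smul]
    ring)
  have hq0 : 0 ≤ qf M w := le_trans (by positivity) (hM w)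
  have hce : ∀ x t, b * c x t ^ 2 ≤ Y := by
    intro x t
    have h2 : c x true ^ 2 + c x false ^ 2 ≤ nC c := by
      unfold nC
      exact single_le_sum (f := fun x => c x true ^ 2 + c x false ^ 2)
        (fun x _ => by positivity) (mem_univ x)
    have h3 : c x t ^ 2 ≤ nC c := by
      cases t
      · nlinarith [sq_nonneg (c x true)]
      · nlinarith [sq_nonneg (c x false)]
    nlinarith
  have hsc : ∀ x t, (s * c x t) ^ 2 ≤ 2 * (1 / (2 * b)) := by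
    intro x t
    have h2 : b * (s * c x t) ^ 2 ≤ 1 := by
      calc b * (s * c x t) ^ 2 = s ^ 2 * (b * c x t ^ 2) := by ring
        _ ≤ s ^ 2 * Y := mul_le_mul_of_nonneg_left (hce x t) (sq_nonneg _)
        _ = 1 := hs
    have h3 : 2 * (1 / (2 * b)) = 1 / b := by field_simp
    rw [h3, le_div_iff₀ hb]
    linarith
  have h4 : ∑ x, ((Real.cosh (s * c x true) - 1) + (Real.cosh (s * c x false) - 1)) ≤
      s ^ 2 * nC c / 2 * Real.exp (1 / (2 * b)) := by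
    have e : s ^ 2 * nC c / 2 * Real.exp (1 / (2 * b)) =
        ∑ x, ((s * c x true) ^ 2 / 2 * Real.exp (1 / (2 * b)) +
          (s * c x false) ^ 2 / 2 * Real.exp (1 / (2 * b))) := by
      unfold nC
      rw [mul_sum, sum_div, sum_mul]
      exact sum_congr rfl fun x _ => by ring
    rw [e]
    exact sum_le_sum fun x _ => add_le_add (cosh_sub_one_le (hsc x true))
      (cosh_sub_one_le (hsc x false))
  have h5 : (1 : ℝ) ≤ Real.exp (1 / (2 * b)) := Real.one_le_exp (by positivity)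
  have h6 : 0 ≤ nC c := by
    unfold nC
    exact sum_nonneg fun x _ => by positivity
  refine h1.trans ?_
  have h7 := mul_le_mul_of_nonneg_left h4 hb.le
  rw [H37.qf_smul]
  have h8 : s ^ 2 * (qf M w + b * nC c) ≤ 1 := by
    rw [← hs]
    exact mul_le_mul_of_nonneg_left hXY (sq_nonneg _)
  have h9 : s ^ 2 * qf M w / 2 ≤ s ^ 2 * qf M w / 2 * Real.exp (1 / (2 * b)) :=
    le_mul_of_one_le_right (by positivity) h5
  have h10 : s ^ 2 * (qf M w + b * nC c) * Real.exp (1 / (2 * b)) ≤ Real.exp (1 / (2 * b)) := by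
    have := mul_le_mul_of_nonneg_right h8 (Real.exp_pos (1 / (2 * b))).le
    linarith
  linarith

/-- **fourth moments against the bare form** -/
theorem mom4_bare (hb : 0 < b) {M : Matrix (Tor N) (Tor N) ℝ}
    (hMs : Mᵀ = M) {m0 : ℝ} (hm0 : 0 < m0) (hM : ∀ u : Tor N → ℝ, m0 * ∑ x, u x ^ 2 ≤ qf M u)
    (J w : Tor N → ℝ) (c : Tor N → Bool → ℝ) (hJ : ∀ x, J x = (M *ᵥ w) x + dvT c x) :
    Ex (wM (wT b N) M) 0 (fun h => li J h ^ 4) ≤ c4 b * (qf M w + b * nC c) ^ 2 := by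
  have hE := H789.em_wM_wT hb.le hm0 hM
  have hX0 : 0 ≤ qf M w + b * nC c := by
    have h1 : 0 ≤ qf M w := le_trans (by positivity) (hM w)
    have h2 : 0 ≤ nC c := by
      unfold nC
      exact sum_nonneg fun x _ => by positivity
    positivity
  have hJ' : ∀ x, (-J) x = (M *ᵥ (-w)) x + dvT (fun x t => (-1 : ℝ) * c x t) x := by
    intro x
    rw [H513.dvT_smul, Matrix.mulVec_neg, Pi.neg_apply, Pi.neg_apply, hJ x]
    ring
  have hX' : qf M (-w) + b * nC (fun x t => (-1 : ℝ) * c x t) = qf M w + b * nC c := by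
    rw [H37.qf_neg]
    congr 2
    unfold nC
    exact sum_congr rfl fun x _ => by ring
  have key : ∀ Y : ℝ, qf M w + b * nC c < Y →
      Ex (wM (wT b N) M) 0 (fun h => li J h ^ 4) ≤ c4 b * Y ^ 2 := by
    intro Y hXY
    have hY : 0 < Y := lt_of_le_of_lt hX0 hXY
    set s : ℝ := (√Y)⁻¹ with hs
    have hsY : s ^ 2 * Y = 1 := by
      rw [hs, inv_pow, Real.sq_sqrt hY.le, inv_mul_cancel₀ hY.ne']
    have h1 := exp_bare hb hMs hm0 hM J w c hJ hsY hXY.le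
    have h2 := exp_bare hb hMs hm0 hM (-J) (-w) _ hJ' hsY (by rw [hX']; exact hXY.le)
    have g1 : H104.Gr fun h : Tor N → ℤ => Real.exp (li (s • J) h) := H104.Gr.exp_li _
    have g2 : H104.Gr fun h : Tor N → ℤ => Real.exp (li (s • (-J)) h) := H104.Gr.exp_li _
    have g4 : H104.Gr fun h : Tor N → ℤ => li J h ^ 4 := by
      have g := H104.Gr.li J
      have := (g.mul g).mul (g.mul g)
      refine (funext fun h => ?_ : (fun h : Tor N → ℤ => li J h ^ 4) = _) ▸ this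
      ring
    have g3 : H104.Gr fun h : Tor N → ℤ => 24 * Y ^ 2 * (1 / 2 * (Real.exp (li (s • J) h) +
        Real.exp (li (s • (-J)) h))) := ((g1.add g2).cmul _).cmul _
    have h3 : Ex (wM (wT b N) M) 0 (fun h => li J h ^ 4) ≤
        Ex (wM (wT b N) M) 0 (fun h => 24 * Y ^ 2 * (1 / 2 * (Real.exp (li (s • J) h) +
          Real.exp (li (s • (-J)) h)))) := by
      refine H104.Ex_mono hE g4 g3 (fun h => ?_) 0
      have e1 : li (s • J) h = s * li J h := by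
        unfold li
        rw [mul_sum]
        exact sum_congr rfl fun x _ => by rw [Pi.smul_apply, smul_eq_mul]; ring
      have e2 : li (s • (-J)) h = -(s * li J h) := by
        unfold li
        rw [mul_sum, ← sum_neg_distrib]
        exact sum_congr rfl fun x _ => by
          rw [Pi.smul_apply, smul_eq_mul, Pi.neg_apply]; ring
      rw [e1, e2]
      have h4 := pow4_le_cosh (s * li J h)
      rw [Real.cosh_eq] at h4
      have e3 : li J h ^ 4 = Y ^ 2 * (s * li J h) ^ 4 := by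
        have : Y ^ 2 * (s * li J h) ^ 4 = (s ^ 2 * Y) ^ 2 * li J h ^ 4 := by ring
        rw [this, hsY]
        ring
      rw [e3]
      have h5 := mul_le_mul_of_nonneg_left h4 (sq_nonneg Y)
      linarith
    rw [H104.Ex_cmul, H104.Ex_cmul, H104.Ex_add hE g1 g2] at h3
    refine h3.trans ?_
    unfold c4
    have h6 : 0 ≤ 24 * Y ^ 2 := by positivity
    nlinarith
  refine ge_of_tendsto (x := 𝓝[>] (qf M w + b * nC c))
    (f := fun Y : ℝ => c4 b * Y ^ 2) ?_ ?_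
  · refine tendsto_nhdsWithin_of_tendsto_nhds ?_
    exact (continuous_const.mul (continuous_id.pow 2)).tendsto _
  · filter_upwards [self_mem_nhdsWithin] with Y hY
    exact key Y hY

/-! ### the bare form as a matrix -/

/-- a coercive symmetric matrix is invertible -/
lemma det_unit {A : Matrix (Tor N) (Tor N) ℝ} {m0 : ℝ} (hm0 : 0 < m0)
    (hA : ∀ u : Tor N → ℝ, m0 * ∑ x, u x ^ 2 ≤ qf A u) : IsUnit A.det := by
  have hu : IsUnit A := by
    rw [← Matrix.mulVec_injective_iff_isUnit]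
    refine (injective_iff_map_eq_zero (Matrix.mulVecLin A)).2 fun v hv => ?_
    have h1 := hA v
    have h2 : qf A v = 0 := by
      rw [H37.qf_eq]
      have : A *ᵥ v = 0 := hv
      rw [this, dotProduct_zero]
    rw [h2] at h1
    have h3 : ∑ x, v x ^ 2 = 0 := by
      have h4 : 0 ≤ ∑ x, v x ^ 2 := sum_nonneg fun x _ => sq_nonneg _
      nlinarith
    rw [sum_eq_zero_iff_of_nonneg fun x _ => sq_nonneg _] at h3
    funext x
    exact pow_eq_zero_iff two_ne_zero |>.1 (h3 x (mem_univ x))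
  exact (Matrix.isUnit_iff_isUnit_det A).1 hu

lemma qf_inv_nonneg {A : Matrix (Tor N) (Tor N) ℝ} {m0 : ℝ} (hm0 : 0 < m0)
    (hA : ∀ u : Tor N → ℝ, m0 * ∑ x, u x ^ 2 ≤ qf A u) (J : Tor N → ℝ) : 0 ≤ qf A⁻¹ J := by
  have hdA := det_unit hm0 hA
  have e1 : qf A⁻¹ J = qf A (A⁻¹ *ᵥ J) := by
    rw [H37.qf_eq, H37.qf_eq, Matrix.mulVec_mulVec, Matrix.mul_nonsing_inv _ hdA,
      Matrix.one_mulVec, dotProduct_comm]
  rw [e1]
  exact le_trans (by positivity) (hA _)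

/-- the inverse form is decreasing -/
theorem qf_inv_anti {A B : Matrix (Tor N) (Tor N) ℝ} (hAs : Aᵀ = A) {m0 : ℝ} (hm0 : 0 < m0)
    (hA : ∀ u : Tor N → ℝ, m0 * ∑ x, u x ^ 2 ≤ qf A u) (hAB : ∀ u, qf A u ≤ qf B u)
    (J : Tor N → ℝ) : qf B⁻¹ J ≤ qf A⁻¹ J := by
  have hdA := det_unit hm0 hA
  have hdB := det_unit hm0 fun u => (hA u).trans (hAB u)
  set p : Tor N → ℝ := A⁻¹ *ᵥ J with hp
  set q : Tor N → ℝ := B⁻¹ *ᵥ J with hq
  have hAp : A *ᵥ p = J := by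
    rw [hp, Matrix.mulVec_mulVec, Matrix.mul_nonsing_inv _ hdA, Matrix.one_mulVec]
  have hBq : B *ᵥ q = J := by
    rw [hq, Matrix.mulVec_mulVec, Matrix.mul_nonsing_inv _ hdB, Matrix.one_mulVec]
  have e1 : qf A⁻¹ J = J ⬝ᵥ p := by rw [H37.qf_eq]
  have e2 : qf B⁻¹ J = J ⬝ᵥ q := by rw [H37.qf_eq]
  have e3 : qf B q = J ⬝ᵥ q := by rw [H37.qf_eq, hBq, dotProduct_comm]
  have e4 : qf A p = J ⬝ᵥ p := by rw [H37.qf_eq, hAp, dotProduct_comm]
  have h1 : 0 ≤ qf A (q - p) := le_trans (by positivity) (hA _)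
  rw [H37.qf_sub_vec hAs, H37.bf_eq, hAp] at h1
  have h2 := hAB q
  rw [e1, e2]
  have h3 : q ⬝ᵥ J = J ⬝ᵥ q := dotProduct_comm _ _
  linarith

lemma coer_add_lap (hb : 0 < b) {M : Matrix (Tor N) (Tor N) ℝ} {m0 : ℝ}
    (hM : ∀ u : Tor N → ℝ, m0 * ∑ x, u x ^ 2 ≤ qf M u) (u : Tor N → ℝ) :
    m0 * ∑ x, u x ^ 2 ≤ qf (M + b⁻¹ • lapM) u := by
  rw [H37.qf_add_mat, H864.qf_smul_mat, H513.qf_lapM']
  have : 0 ≤ H859.dirE u := sum_nonneg fun x _ => by positivity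
  have h1 : 0 ≤ b⁻¹ * H859.dirE u := by positivity
  linarith [hM u]

/-- fourth moments against the inverse of the bare form -/
theorem mom4_inv (hb : 0 < b) {M : Matrix (Tor N) (Tor N) ℝ}
    (hMs : Mᵀ = M) {m0 : ℝ} (hm0 : 0 < m0) (hM : ∀ u : Tor N → ℝ, m0 * ∑ x, u x ^ 2 ≤ qf M u)
    (J : Tor N → ℝ) :
    Ex (wM (wT b N) M) 0 (fun h => li J h ^ 4) ≤ c4 b * qf (M + b⁻¹ • lapM)⁻¹ J ^ 2 := by
  set A : Matrix (Tor N) (Tor N) ℝ := M + b⁻¹ • lapM with hA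
  have hdet := det_unit hm0 (coer_add_lap hb hM)
  rw [← hA] at hdet
  set ψ : Tor N → ℝ := A⁻¹ *ᵥ J with hψ
  have hAψ : A *ᵥ ψ = J := by
    rw [hψ, Matrix.mulVec_mulVec, Matrix.mul_nonsing_inv _ hdet, Matrix.one_mulVec]
  have hJ : J = M *ᵥ ψ + b⁻¹ • (lapM *ᵥ ψ) := by
    rw [← hAψ, hA, Matrix.add_mulVec, Matrix.smul_mulVec]
  have h := mom4_bare hb hMs hm0 hM J ψ (fun x t => b⁻¹ * gF ψ x t) (fun x => by
    rw [H513.dvT_smul, H513.dvT_gF]
    exact congrFun hJ x)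
  have e0 : nC (fun x t => b⁻¹ * gF ψ x t) = b⁻¹ ^ 2 * H859.dirE ψ := by
    rw [← H513.nC_gF]
    unfold nC
    rw [mul_sum]
    exact sum_congr rfl fun x _ => by ring
  have e1 : b * (b⁻¹ ^ 2 * H859.dirE ψ) = b⁻¹ * H859.dirE ψ := by
    field_simp
  have e2 : qf A⁻¹ J = J ⬝ᵥ ψ := by rw [H37.qf_eq]
  have e3 : J ⬝ᵥ ψ = qf A ψ := by rw [H37.qf_eq, hAψ, dotProduct_comm]
  rw [e0, e1] at h
  rw [e2, e3, hA, H37.qf_add_mat, H864.qf_smul_mat, H513.qf_lapM']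
  exact h

/-! ### relative (F2) -/

/-- **(F2), relative form** -/
theorem fine_rel (hb : 0 < b) : ∃ C c : ℝ, 0 < C ∧ 0 < c ∧
    ∀ (N : ℕ) [NeZero N] (t : ℝ), 0 < t → 9 ≤ t * (N : ℝ) ^ 2 →
    ∀ l : ℕ, l ∣ N → t * (l : ℝ) ^ 2 ≤ 1 →
    ∀ (a s : ℝ) (M₀ M : Matrix (V N) (V N) ℝ), 0 < a → 0 ≤ s → s ≤ t →
      M = M₀ + s • (1 - cellP N l) → MasM t a M₀ M → ∀ u : V N → ℝ,
      0 ≤ qf (Gm (wM (wT b N) M₀)) u - qf (Gm (wM (wT b N) M)) u ∧
      qf (Gm (wM (wT b N) M₀)) u - qf (Gm (wM (wT b N) M)) u ≤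
        C * qf (M₀ + b⁻¹ • lapM)⁻¹ u * √(t * (N : ℝ) ^ 2) * (t * (l : ℝ) ^ 2) ^ c := by
  obtain ⟨C, c, hC, hc, hU⟩ := H375.fine_energy (b := b) hb.le
  have hc4 := c4_pos b
  refine ⟨√(c4 b) * √(C / 2), c / 2, by positivity, by positivity, ?_⟩
  intro N _ t ht htN l hl htl a s M₀ M ha hs hst hMs hM u
  have hm := hM.mas ha
  rw [H375.qf_Gm_ex hb.le ha hM.lo, H375.qf_Gm_ex hb.le ha fun v => (hM.lo v).trans (hM.mid v)]
  refine ⟨H375.Dm_nonneg hb.le hm u, ?_⟩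
  have hl0 : 0 < l := Nat.pos_of_dvd_of_pos hl (NeZero.pos N)
  have hl1 : (0 : ℝ) < l := by exact_mod_cast hl0
  have hF := hU N t ht htN l hl0 hl htl _ _ hm
  have e1 : mf M = fun h => mf M₀ h + s * H375.Qf l h := by
    funext h
    rw [H375.mf_sum, H375.mf_sum, hMs, H37.qf_add_mat, H375.Qf_eq hl]
    congr 1
    rw [H864.qf_smul_mat]
  have sQ : SQ fun h : V N → ℤ => s * H375.Qf l h := (H375.sq_Qf l).smul hs
  set q0 : ℝ := qf (M₀ + b⁻¹ • lapM)⁻¹ u with hq0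
  have hsymP : (1 - cellP N l)ᵀ = 1 - cellP N l := by
    rw [transpose_sub, transpose_one]
    congr 1
    unfold cellP
    rw [transpose_mul, transpose_transpose]
  have hPn : ∀ v : V N → ℝ, 0 ≤ qf (1 - cellP N l) v := by
    intro v
    have : NeZero (N / l) := ⟨(Nat.div_pos (Nat.le_of_dvd (NeZero.pos N) hl) hl0).ne'⟩
    rw [H864.qf_one_sub_cellP hl]
    exact sum_nonneg fun x _ => sq_nonneg _
  have h4 : ∀ v : ℝ, 0 ≤ v → v ≤ 1 → ex b univ ∅ (fun h => mf M₀ h + v * (s * H375.Qf l h))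
      (fun h => pr u h ^ 4) ≤ c4 b * q0 ^ 2 := by
    intro v hv _
    set Mv : Matrix (V N) (V N) ℝ := M₀ + (v * s) • (1 - cellP N l) with hMv
    have e2 : (fun h => mf M₀ h + v * (s * H375.Qf l h)) = mf Mv := by
      funext h
      rw [H375.mf_sum, H375.mf_sum, hMv, H37.qf_add_mat, H375.Qf_eq hl, H864.qf_smul_mat]
      ring
    have hMvq : ∀ w : V N → ℝ, qf M₀ w ≤ qf Mv w := by
      intro w
      rw [hMv, H37.qf_add_mat, H864.qf_smul_mat]
      have := mul_nonneg (mul_nonneg hv hs) (hPn w)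
      linarith
    have hMvs : Mvᵀ = Mv := by
      rw [hMv, transpose_add, transpose_smul, hM.s0, hsymP]
    have h5 := mom4_inv hb hMvs ha (fun w => (hM.lo w).trans (hMvq w)) u
    have h6 : qf (Mv + b⁻¹ • lapM)⁻¹ u ≤ q0 := by
      refine qf_inv_anti ?_ ha (coer_add_lap hb hM.lo) (fun w => ?_) u
      · rw [transpose_add, transpose_smul, hM.s0, H864.ti_lapM.transpose]
      · rw [H37.qf_add_mat, H37.qf_add_mat]
        linarith [hMvq w]
    have h7 : 0 ≤ qf (Mv + b⁻¹ • lapM)⁻¹ u :=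
      qf_inv_nonneg ha (coer_add_lap hb fun w => (hM.lo w).trans (hMvq w)) u
    rw [e2, H375.ex_mf]
    refine h5.trans ?_
    exact mul_le_mul_of_nonneg_left (pow_le_pow_left₀ h7 h6 2) hc4.le
  have hq00 : 0 ≤ q0 := qf_inv_nonneg ha (coer_add_lap hb hM.lo) u
  have h5 := H375.stepT hb.le hm.sq0 hm.co0 sQ (φ := u) (by positivity) h4
    (D := t * (C * (N : ℝ) ^ 2 * (t * (l : ℝ) ^ 2) ^ c)) (by
      rw [← e1, ex_smul, ex_smul, ← mul_sub]
      calc s * (ex b univ ∅ (mf M₀) (H375.Qf l) - ex b univ ∅ (mf M) (H375.Qf l)) ≤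
            s * (C * (N : ℝ) ^ 2 * (t * (l : ℝ) ^ 2) ^ c) :=
            mul_le_mul_of_nonneg_left hF.2 hs
        _ ≤ _ := mul_le_mul_of_nonneg_right hst (by positivity))
  rw [← e1] at h5
  refine h5.trans_eq ?_
  have e2 : √(c4 b * q0 ^ 2) = √(c4 b) * q0 := by
    rw [Real.sqrt_mul hc4.le, Real.sqrt_sq hq00]
  have e3 : √(t * (C * (N : ℝ) ^ 2 * (t * (l : ℝ) ^ 2) ^ c) / 2) =
      √(C / 2) * √(t * (N : ℝ) ^ 2) * (t * (l : ℝ) ^ 2) ^ (c / 2) := by
    have e4 : t * (C * (N : ℝ) ^ 2 * (t * (l : ℝ) ^ 2) ^ c) / 2 =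
        (C / 2) * (t * (N : ℝ) ^ 2) * (t * (l : ℝ) ^ 2) ^ c := by ring
    have e5 : √((t * (l : ℝ) ^ 2) ^ c) = (t * (l : ℝ) ^ 2) ^ (c / 2) := by
      rw [Real.sqrt_eq_rpow, ← Real.rpow_mul (by positivity)]
      congr 1
      ring
    rw [e4, Real.sqrt_mul (by positivity), Real.sqrt_mul (by positivity), e5]
  rw [e2, e3]
  ring

end

end Vale.Agent.P159.H340
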