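import Vale.Agent.P159.H864.Fn1
import Vale.Agent.P159.H513.Cor

/-!
P159, helper340, module LT: the linear term of FINE(b). Any coercive mass form, any source.

`lg_neutral` : a source which is neutral on the cells of side `l` costs at most `2 b l² |y|²`.
`fine_mean` : the fine part of the mean, `|(1 - P_l) m(J)| ≤ l (2 U + b)` as soon as
`log Z(2 J) / Z(0) ≤ U`.
-/

namespace Vale.Agent.P159.H340

open Finset Matrix MeasureTheory
open Vale.Agent.P159.TM.H104 (EM Ex Cv Lg li nh Gr T T_one_pos Ex_mono Ex_add Ex_sub Ex_one Ex_const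
  Ex_cmul li_add li_neg)
open Vale.Agent.P159.TM.Spec (V)
open Vale.Agent.P159.TM.SpecC (wT)
open Vale.Agent.P159.H37 (qf bf re wM Zs Gm cellP Ev mn)
open Vale.Agent.P159.H864 (flo ic cc flo_div flo_true_sq flo_false_sq mem_cc mem_ic self_mem_cc
  cc_symm card_cc card_ic ic_congr)
open Vale.Agent.P159.H513 (dvT cosh_sub_le_sq e2_bare)

set_option linter.unusedSectionVars false

noncomputable section

/-! ### convexity -/

section cvx

variable {V : Type*} [Fintype V] {μ : (V → ℤ) → ℝ}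

/-- `E e^{X}` is the shift of the source -/
theorem ex_exp_li (hμ : EM μ) (J u : V → ℝ) :
    Ex μ J (fun h => Real.exp (li u h)) = Real.exp (Lg μ (J + u) - Lg μ J) := by
  unfold Ex Lg
  rw [Real.exp_sub, Real.exp_log (T_one_pos hμ _), Real.exp_log (T_one_pos hμ _)]
  congr 1
  unfold TM.H104.T
  refine tsum_congr fun h => ?_
  rw [li_add, Real.exp_add]
  ring

/-- tangent line -/
theorem lg_tan (hμ : EM μ) (J u : V → ℝ) : Lg μ J + Ex μ J (li u) ≤ Lg μ (J + u) := by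
  have h1 : Ex μ J (fun h => 1 + (li u h - Ex μ J (li u))) ≤
      Ex μ J (fun h => Real.exp (li u h) * Real.exp (-Ex μ J (li u))) := by
    refine Ex_mono hμ ((Gr.const 1).add ((Gr.li u).sub (Gr.const _)))
      ((Gr.exp_li u).mul (Gr.const _)) (fun h => ?_) J
    rw [← Real.exp_add]
    have := Real.add_one_le_exp (li u h + -Ex μ J (li u))
    linarith
  have e1 : Ex μ J (fun h => 1 + (li u h - Ex μ J (li u))) = 1 := by
    rw [Ex_add hμ (Gr.const 1) ((Gr.li u).sub (Gr.const _)), Ex_one hμ,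
      Ex_sub hμ (Gr.li u) (Gr.const _), Ex_const hμ]
    ring
  have e2 : Ex μ J (fun h => Real.exp (li u h) * Real.exp (-Ex μ J (li u))) =
      Real.exp (Lg μ (J + u) - Lg μ J) * Real.exp (-Ex μ J (li u)) := by
    have e3 : (fun h => Real.exp (li u h) * Real.exp (-Ex μ J (li u))) =
        fun h => Real.exp (-Ex μ J (li u)) * Real.exp (li u h) := by
      funext h; ring
    rw [e3, Ex_cmul, ex_exp_li hμ]
    ring
  rw [e1, e2, ← Real.exp_add] at h1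
  have := Real.one_le_exp_iff.1 h1
  linarith

lemma ex_li_dot (hμ : EM μ) (J u : V → ℝ) : Ex μ J (li u) = u ⬝ᵥ mn μ J := H789.Ex_li hμ J u

lemma ex_li_neg (J u : V → ℝ) : Ex μ J (li (-u)) = -Ex μ J (li u) := by
  have : (li (-u) : (V → ℤ) → ℝ) = fun h => -1 * li u h := by
    funext h
    rw [li_neg]; ring
  rw [this, Ex_cmul]
  ring

/-- convexity: two halves -/
theorem lg_mid (hμ : EM μ) (J u : V → ℝ) :
    Lg μ (J + u) ≤ (Lg μ ((2 : ℝ) • J) + Lg μ ((2 : ℝ) • u)) / 2 := by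
  have t1 := lg_tan hμ (J + u) (J - u)
  have t2 := lg_tan hμ (J + u) (-(J - u))
  rw [ex_li_neg] at t2
  have e1 : J + u + (J - u) = (2 : ℝ) • J := by module
  have e2 : J + u + -(J - u) = (2 : ℝ) • u := by module
  rw [e1] at t1
  rw [e2] at t2
  linarith

/-- the minimum is at zero -/
theorem lg_zero_le (hμ : EM μ) (he : Ev μ) (J : V → ℝ) : Lg μ 0 ≤ Lg μ J := by
  have h := lg_mid hμ ((1 / 2 : ℝ) • J) (-((1 / 2 : ℝ) • J))
  have e1 : (1 / 2 : ℝ) • J + -((1 / 2 : ℝ) • J) = 0 := by module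
  have e2 : (2 : ℝ) • (1 / 2 : ℝ) • J = J := by module
  have e3 : (2 : ℝ) • -((1 / 2 : ℝ) • J) = -J := by module
  have e4 : Lg μ (-J) = Lg μ J := congrArg Real.log (H37.Zs_neg he J)
  rw [e1, e2, e3, e4] at h
  linarith

/-- cost of an additional source -/
theorem lg_add_le (hμ : EM μ) (he : Ev μ) (J u : V → ℝ) :
    Lg μ (J + u) - Lg μ J ≤ (Lg μ ((2 : ℝ) • J) - Lg μ 0) / 2 + (Lg μ ((2 : ℝ) • u) - Lg μ 0) / 2 := by
  have h1 := lg_mid hμ J u
  have h2 := lg_zero_le hμ he J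
  linarith

end cvx

/-! ### neutral sources -/

section neu

variable {N l : ℕ} [NeZero N]

lemma sum_ic (hl : l ∣ N) (f : ZMod N → ℝ) : ∑ i, ∑ j ∈ ic l i, f j = l * ∑ j, f j := by
  classical
  have h1 : ∀ i : ZMod N, ∑ j ∈ ic l i, f j = ∑ j, if j ∈ ic l i then f j else 0 := fun i => by
    rw [Finset.sum_ite_mem, Finset.univ_inter]
  simp only [h1]
  rw [Finset.sum_comm, Finset.mul_sum]
  refine Finset.sum_congr rfl fun j _ => ?_
  have h2 : ∀ i : ZMod N, (if j ∈ ic l i then f j else 0) = if i ∈ ic l j then f j else 0 := by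
    intro i
    have : j ∈ ic l i ↔ i ∈ ic l j := by
      rw [mem_ic, mem_ic]
      exact eq_comm
    simp only [this]
  simp only [h2]
  rw [Finset.sum_ite_mem, Finset.univ_inter, Finset.sum_const, card_ic hl, nsmul_eq_mul]

lemma sum_cc (hl : l ∣ N) (f : V N → ℝ) : ∑ x, ∑ z ∈ cc l x, f z = (l : ℝ) ^ 2 * ∑ z, f z := by
  classical
  have h1 : ∀ x : V N, ∑ z ∈ cc l x, f z = ∑ z, if z ∈ cc l x then f z else 0 := fun i => by
    rw [Finset.sum_ite_mem, Finset.univ_inter]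
  simp only [h1]
  rw [Finset.sum_comm, Finset.mul_sum]
  refine Finset.sum_congr rfl fun z _ => ?_
  have h2 : ∀ x : V N, (if z ∈ cc l x then f z else 0) = if x ∈ cc l z then f z else 0 := by
    intro x
    have : z ∈ cc l x ↔ x ∈ cc l z := ⟨cc_symm, cc_symm⟩
    simp only [this]
  simp only [h2]
  rw [Finset.sum_ite_mem, Finset.univ_inter, Finset.sum_const, card_cc hl, nsmul_eq_mul]
  push_cast
  ring

/-- energy of the local flow -/
lemma flo_energy (hl : l ∣ N) (y : V N → ℝ) :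
    ∑ x, (flo l y x true ^ 2 + flo l y x false ^ 2) ≤ 2 * (l : ℝ) ^ 2 * ∑ x, y x ^ 2 := by
  have h1 : ∑ x, flo l y x true ^ 2 ≤ (l : ℝ) ^ 2 * ∑ x, y x ^ 2 := by
    refine (Finset.sum_le_sum fun x _ => flo_true_sq hl y x).trans (le_of_eq ?_)
    rw [← Finset.mul_sum, Fintype.sum_prod_type_right, Fintype.sum_prod_type_right]
    have h2 : ∀ j : ZMod N, ∑ i : ZMod N, ∑ i' ∈ ic l i, y (i', j) ^ 2 = l * ∑ i, y (i, j) ^ 2 :=
      fun j => sum_ic hl fun i => y (i, j) ^ 2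
    simp only [h2]
    rw [← Finset.mul_sum]
    ring
  have h2 : ∑ x, flo l y x false ^ 2 ≤ (l : ℝ) ^ 2 * ∑ x, y x ^ 2 :=
    (Finset.sum_le_sum fun x _ => flo_false_sq hl y x).trans
      (le_of_eq (sum_cc hl fun z => y z ^ 2))
  rw [Finset.sum_add_distrib]
  linarith

/-- **a source which is neutral on the cells** -/
theorem lg_neutral {b : ℝ} (hb : 0 ≤ b) (hl : l ∣ N) {M : Matrix (V N) (V N) ℝ} (hMs : Mᵀ = M)
    {m0 : ℝ} (hm0 : 0 < m0) (hM : ∀ u : V N → ℝ, m0 * ∑ x, u x ^ 2 ≤ qf M u) {y : V N → ℝ}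
    (hy : cellP N l *ᵥ y = 0) (hy1 : 2 * (l : ℝ) ^ 2 * ∑ x, y x ^ 2 ≤ 1) :
    Lg (wM (wT b N) M) y - Lg (wM (wT b N) M) 0 ≤ 2 * b * (l : ℝ) ^ 2 * ∑ x, y x ^ 2 := by
  have := H864.ne_div hl
  have hE := flo_energy hl y
  have h1 := e2_bare hb hMs hm0 hM y 0 (fun x t => flo l y x t) (fun x => by
    have h2 := flo_div hl y x
    rw [hy] at h2
    unfold Vale.Agent.P159.H513.dvT
    simp only [Matrix.mulVec_zero, Pi.zero_apply, zero_add]
    simp only [Pi.zero_apply, sub_zero] at h2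
    exact h2.symm)
  have h3 : qf M (0 : V N → ℝ) = 0 := by simp [qf]
  rw [h3, zero_div, zero_add] at h1
  have h4 : ∀ x t, |flo l y x t| ≤ 1 := by
    intro x t
    refine abs_le_one_iff_mul_self_le_one.2 ?_
    have h5 : flo l y x true ^ 2 + flo l y x false ^ 2 ≤
        ∑ x, (flo l y x true ^ 2 + flo l y x false ^ 2) :=
      Finset.single_le_sum (f := fun x => flo l y x true ^ 2 + flo l y x false ^ 2)
        (fun _ _ => by positivity) (Finset.mem_univ x)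
    cases t
    · nlinarith [sq_nonneg (flo l y x true)]
    · nlinarith [sq_nonneg (flo l y x false)]
  refine h1.trans ?_
  have h5 : ∑ x, ((Real.cosh (flo l y x true) - 1) + (Real.cosh (flo l y x false) - 1)) ≤
      ∑ x, (flo l y x true ^ 2 + flo l y x false ^ 2) :=
    Finset.sum_le_sum fun x _ => add_le_add (cosh_sub_le_sq (h4 x true)) (cosh_sub_le_sq (h4 x false))
  calc b * ∑ x, ((Real.cosh (flo l y x true) - 1) + (Real.cosh (flo l y x false) - 1))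
      ≤ b * (2 * (l : ℝ) ^ 2 * ∑ x, y x ^ 2) := mul_le_mul_of_nonneg_left (h5.trans hE) hb
    _ = _ := by ring

lemma cellP_sq (hl : l ∣ N) : cellP N l * cellP N l = cellP N l := H864.cellP_idem hl

lemma cellP_fine (hl : l ∣ N) (v : V N → ℝ) : cellP N l *ᵥ ((1 - cellP N l) *ᵥ v) = 0 := by
  rw [Matrix.mulVec_mulVec, Matrix.mul_sub, Matrix.mul_one, cellP_sq hl, sub_self, zero_mulVec]

lemma cellP_tr' : (cellP N l)ᵀ = cellP N l := by
  unfold Vale.Agent.P159.H37.cellP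
  rw [Matrix.transpose_mul, Matrix.transpose_transpose]

lemma fine_tr : (1 - cellP N l)ᵀ = 1 - cellP N l := by
  rw [Matrix.transpose_sub, Matrix.transpose_one, cellP_tr']

lemma fine_sq (hl : l ∣ N) : (1 - cellP N l) * (1 - cellP N l) = 1 - cellP N l := by
  rw [Matrix.mul_sub, Matrix.mul_one, Matrix.sub_mul, Matrix.one_mul, cellP_sq hl, sub_self, sub_zero]

lemma fine_bf (hl : l ∣ N) (v w : V N → ℝ) :
    ((1 - cellP N l) *ᵥ v) ⬝ᵥ ((1 - cellP N l) *ᵥ w) = v ⬝ᵥ ((1 - cellP N l) *ᵥ w) := by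
  have h := dotProduct_mulVec v (1 - cellP N l) ((1 - cellP N l) *ᵥ w)
  rw [← mulVec_transpose, fine_tr] at h
  rw [← h, Matrix.mulVec_mulVec, fine_sq hl]

/-- `<v, Q v> = |Q v|²` -/
lemma fine_dot (hl : l ∣ N) (v : V N → ℝ) :
    v ⬝ᵥ ((1 - cellP N l) *ᵥ v) = ∑ x, ((1 - cellP N l) *ᵥ v) x ^ 2 := by
  rw [← fine_bf hl]
  unfold dotProduct
  exact Finset.sum_congr rfl fun x _ => (pow_two _).symm

/-- the fine part is a contraction -/
lemma fine_le (hl : l ∣ N) (v : V N → ℝ) :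
    ∑ x, ((1 - cellP N l) *ᵥ v) x ^ 2 ≤ ∑ x, v x ^ 2 := by
  have h1 := fine_dot hl v
  have h2 : 0 ≤ ∑ x, (v x - ((1 - cellP N l) *ᵥ v) x) ^ 2 := Finset.sum_nonneg fun _ _ => sq_nonneg _
  have h3 : ∑ x, (v x - ((1 - cellP N l) *ᵥ v) x) ^ 2 = ∑ x, v x ^ 2 -
      2 * (v ⬝ᵥ ((1 - cellP N l) *ᵥ v)) + ∑ x, ((1 - cellP N l) *ᵥ v) x ^ 2 := by
    unfold dotProduct
    rw [Finset.mul_sum, ← Finset.sum_sub_distrib, ← Finset.sum_add_distrib]
    exact Finset.sum_congr rfl fun x _ => by ring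
  linarith

/-- **the fine part of the mean** -/
theorem fine_mean {b : ℝ} (hb : 0 ≤ b) (hl : l ∣ N) {M : Matrix (V N) (V N) ℝ} (hMs : Mᵀ = M)
    {m0 : ℝ} (hm0 : 0 < m0) (hM : ∀ u : V N → ℝ, m0 * ∑ x, u x ^ 2 ≤ qf M u) (J : V N → ℝ) {U : ℝ}
    (hU : Lg (wM (wT b N) M) ((2 : ℝ) • J) - Lg (wM (wT b N) M) 0 ≤ U) :
    ∑ x, ((1 - cellP N l) *ᵥ mn (wM (wT b N) M) J) x ^ 2 ≤ (l : ℝ) ^ 2 * (2 * U + b) ^ 2 := by
  have hE := H789.em_wM_wT hb hm0 hM
  have hev := H789.ev_wM_wT (b := b) M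
  have hl0 : (0 : ℝ) < l := by
    have : 0 < l := Nat.pos_of_dvd_of_pos hl (NeZero.pos N)
    exact_mod_cast this
  set μ := wM (wT b N) M with hμ
  set m := mn μ J with hm
  set q := (1 - cellP N l) *ᵥ m with hq
  set A := ∑ x, q x ^ 2 with hA
  have hA0 : 0 ≤ A := Finset.sum_nonneg fun _ _ => sq_nonneg _
  rcases hA0.eq_or_lt with h0 | h0
  · rw [← h0]; positivity
  set a := √A with ha
  have ha0 : 0 < a := Real.sqrt_pos.2 h0
  have ha2 : a ^ 2 = A := Real.sq_sqrt hA0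
  set lam : ℝ := (4 * l * a)⁻¹ with hlam
  have hlam0 : 0 < lam := by positivity
  have h1 : ∀ c : ℝ, ∑ x, (c • q) x ^ 2 = c ^ 2 * A := by
    intro c
    rw [hA, Finset.mul_sum]
    exact Finset.sum_congr rfl fun x _ => by rw [Pi.smul_apply, smul_eq_mul]; ring
  have h2 : 2 * (l : ℝ) ^ 2 * ∑ x, ((2 : ℝ) • lam • q) x ^ 2 = 1 / 2 := by
    rw [smul_smul, h1, ← ha2, hlam]
    field_simp
    norm_num
  have h3 := lg_neutral hb hl hMs hm0 hM (y := (2 : ℝ) • lam • q) (by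
    rw [smul_smul, Matrix.mulVec_smul, hq, cellP_fine hl, smul_zero]) (by rw [h2]; norm_num)
  have h4 : 2 * b * (l : ℝ) ^ 2 * ∑ x, ((2 : ℝ) • lam • q) x ^ 2 = b / 2 := by
    have : 2 * b * (l : ℝ) ^ 2 * ∑ x, ((2 : ℝ) • lam • q) x ^ 2 =
        b * (2 * (l : ℝ) ^ 2 * ∑ x, ((2 : ℝ) • lam • q) x ^ 2) := by ring
    rw [this, h2]
    ring
  rw [h4] at h3
  have h5 := lg_tan hE J (lam • q)
  have h6 := lg_add_le hE hev J (lam • q)
  have h7 : Ex μ J (li (lam • q)) = lam * A := by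
    rw [ex_li_dot hE, ← hm, dotProduct_comm, dotProduct_smul, smul_eq_mul, hq, fine_dot hl]
  rw [h7] at h5
  have h8 : lam * A = a / (4 * l) := by
    rw [hlam, ← ha2]
    field_simp
  have h9 : a / (4 * l) ≤ U / 2 + b / 4 := by
    rw [← h8]
    linarith
  have h10 : a ≤ l * (2 * U + b) := by
    rw [div_le_iff₀ (by positivity)] at h9
    linarith
  calc A = a ^ 2 := ha2.symm
    _ ≤ (l * (2 * U + b)) ^ 2 := pow_le_pow_left₀ ha0.le h10 2
    _ = _ := by ring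

/-- the linear term of the comparison of two mass forms -/
theorem fine_cross {b : ℝ} (hb : 0 ≤ b) (hl : l ∣ N) {M M' : Matrix (V N) (V N) ℝ} (hMs : Mᵀ = M)
    (hMs' : M'ᵀ = M') {m0 : ℝ} (hm0 : 0 < m0) (hM : ∀ u : V N → ℝ, m0 * ∑ x, u x ^ 2 ≤ qf M u)
    (hM' : ∀ u : V N → ℝ, m0 * ∑ x, u x ^ 2 ≤ qf M' u) (J : V N → ℝ) {U : ℝ}
    (hU : Lg (wM (wT b N) M) ((2 : ℝ) • J) - Lg (wM (wT b N) M) 0 ≤ U)
    (hU' : Lg (wM (wT b N) M') ((2 : ℝ) • J) - Lg (wM (wT b N) M') 0 ≤ U) {σ : ℝ} (hσ : 0 ≤ σ) :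
    |Ex (wM (wT b N) M') J (li ((σ • (1 - cellP N l)) *ᵥ mn (wM (wT b N) M) J))| ≤
      σ * (l : ℝ) ^ 2 * (2 * U + b) ^ 2 := by
  have h1 := fine_mean hb hl hMs hm0 hM J hU
  have h2 := fine_mean hb hl hMs' hm0 hM' J hU'
  have hE' := H789.em_wM_wT hb hm0 hM'
  set m := mn (wM (wT b N) M) J with hm
  set m' := mn (wM (wT b N) M') J with hm'
  have h3 : Ex (wM (wT b N) M') J (li ((σ • (1 - cellP N l)) *ᵥ m)) =
      σ * ∑ x, ((1 - cellP N l) *ᵥ m') x * ((1 - cellP N l) *ᵥ m) x := by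
    rw [ex_li_dot hE', ← hm', smul_mulVec, smul_dotProduct, smul_eq_mul, dotProduct_comm,
      ← fine_bf hl]
    rfl
  rw [h3, abs_mul, abs_of_nonneg hσ, mul_assoc]
  refine mul_le_mul_of_nonneg_left ?_ hσ
  set B := (l : ℝ) ^ 2 * (2 * U + b) ^ 2 with hB
  rw [abs_le]
  have h7 : ∀ x, |((1 - cellP N l) *ᵥ m') x * ((1 - cellP N l) *ᵥ m) x| ≤
      (((1 - cellP N l) *ᵥ m') x ^ 2 + ((1 - cellP N l) *ᵥ m) x ^ 2) / 2 := by
    intro x
    rw [abs_mul]
    nlinarith [sq_nonneg (|((1 - cellP N l) *ᵥ m') x| - |((1 - cellP N l) *ᵥ m) x|),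
      sq_abs (((1 - cellP N l) *ᵥ m') x), sq_abs (((1 - cellP N l) *ᵥ m) x)]
  have h8 : |∑ x, ((1 - cellP N l) *ᵥ m') x * ((1 - cellP N l) *ᵥ m) x| ≤ B := by
    refine (Finset.abs_sum_le_sum_abs _ _).trans ((Finset.sum_le_sum fun x _ => h7 x).trans ?_)
    rw [← Finset.sum_div, Finset.sum_add_distrib]
    linarith
  exact abs_le.1 h8

end neu

end

end Vale.Agent.P159.H340
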