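import Vale.Agent.P159.H856.Brg
import Vale.Agent.P159.T1.H409.Loc

/-!
P159 (helper340), LINKW (B), part 1: the quadratic form of the wired block of spins is at most the
second moment of the linear functional of the height differences in the free box.
-/

set_option linter.unusedSectionVars false

open MeasureTheory Filter Topology

namespace Vale.Agent.P159.H340

open Vale.Agent.P159 Vale.Agent.P159.H353 Vale.Agent.P159.R2.H254
open Vale.Agent.P159.H950
open Vale.Agent.P159.UJ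
open Vale.Agent.P159.TM.H968 (hE)

noncomputable section

lemma lin_negv {N : ℕ} (j : Eb N → ℝ) (h : Fa N → ℤ) :
    TM.H968.lin (fun e => -j e) h = -TM.H968.lin j h := by
  unfold TM.H968.lin
  rw [← Finset.sum_neg_distrib]
  exact Finset.sum_congr rfl fun e _ => by ring

/-- second moments of linear functionals of the height differences exist -/
lemma summable_lsq {N : ℕ} {b : ℝ} (hb : 0 < b) (j : Eb N → ℝ) :
    Summable fun h : Hgt N => hWt N b h.1 * TM.H968.lin j h.1 ^ 2 := by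
  have h1 := (TM.H968.hasSum_lin hb.le j).summable
  have h2 := (TM.H968.hasSum_lin hb.le fun e => -j e).summable
  refine Summable.of_nonneg_of_le (fun h => ?_) (fun h => ?_) (h1.add h2)
  · exact mul_nonneg (hWt_pos hb h.1).le (sq_nonneg _)
  · rw [← mul_add]
    refine mul_le_mul_of_nonneg_left ?_ (hWt_pos hb h.1).le
    have h3 := TM.H968.half_sq_le_cosh (TM.H968.lin j h.1)
    rw [Real.cosh_eq] at h3
    rw [lin_negv]
    linarith

/-- the characteristic function -/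
lemma zr_eq_cos {N : ℕ} {b : ℝ} (hb : 0 < b) (α β : ℤ × ℤ → ℝ)
    (h1 : ∀ i : ℤ, α (i, 0) = 0) (h2 : ∀ i : ℤ, α (i, ((N + 1 : ℕ) : ℤ)) = 0)
    (h3 : ∀ j : ℤ, β (0, j) = 0) (h4 : ∀ j : ℤ, β (((N + 1 : ℕ) : ℤ), j) = 0) (s : ℝ) :
    Zr muInf (fun _ : KR (blk 0 (N + 1)) => b / 2) (chiR (blk 0 (N + 1)))
        (s • tG α β (N + 1)) =
      hE N b (fun h => Real.cos (s * TM.H968.lin (tE α β : Eb N → ℝ) h)) *
        Zr muInf (fun _ : KR (blk 0 (N + 1)) => b / 2) (chiR (blk 0 (N + 1))) 0 := by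
  have hbd : ∀ w : ℂ, bdE (N + 1) b α β w = bdE (N + 1) b α β 0 := by
    intro w
    unfold bdE
    refine Finset.sum_congr rfl fun i _ => ?_
    rw [h1, h2, h3, h4]
    simp
  have hs : Zl muInf (fun _ : KR (blk 0 (N + 1)) => b / 2) (chiR (blk 0 (N + 1)))
      (tG α β (N + 1)) (s : ℂ) = (Zr muInf (fun _ : KR (blk 0 (N + 1)) => b / 2)
        (chiR (blk 0 (N + 1))) (s • tG α β (N + 1)) : ℂ) := by
    rw [← ZZ_eq_Zr]
    unfold Zl
    congr 1
    funext e
    simp only [Pi.smul_apply, smul_eq_mul]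
    push_cast
    ring
  have h0 := ZZ0_eq muInf (fun _ : KR (blk 0 (N + 1)) => b / 2) (chiR (blk 0 (N + 1)))
  rw [← Zl_zero muInf (fun _ : KR (blk 0 (N + 1)) => b / 2) (chiR (blk 0 (N + 1)))
    (tG α β (N + 1)), Zl_gauge, gaugeZC_eq] at h0
  rw [Zl_gauge, gaugeZC_eq, hbd ((s : ℝ) : ℂ)] at hs
  have e0 : (fun e : Eb N => (0 : ℂ) * ((tE α β e : ℝ) : ℂ)) = 0 := by
    funext e; simp
  rw [e0, TM.H968.ZC_zero] at h0
  -- the series
  have hS := ZC_heights (N := N) hb.le (fun e => ((s : ℝ) : ℂ) * ((tE α β e : ℝ) : ℂ))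
  have hS2 := Complex.hasSum_re hS
  have eS : (fun h : Hgt N => (((∏ e, wI b (bcur h.1 e) : ℝ) : ℂ) *
      Complex.exp (Complex.I * ∑ e, ((s : ℝ) : ℂ) * ((tE α β e : ℝ) : ℂ) *
        (bcur h.1 e : ℂ))).re) =
      fun h : Hgt N => hWt N b h.1 * Real.cos (s * TM.H968.lin (tE α β : Eb N → ℝ) h.1) := by
    funext h
    have e1 : Complex.I * ∑ e, ((s : ℝ) : ℂ) * ((tE α β e : ℝ) : ℂ) * (bcur h.1 e : ℂ) =
        ((s * TM.H968.lin (tE α β : Eb N → ℝ) h.1 : ℝ) : ℂ) * Complex.I := by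
      unfold TM.H968.lin
      push_cast
      rw [mul_comm Complex.I, Finset.mul_sum]
      congr 1
      exact Finset.sum_congr rfl fun e _ => by ring
    rw [e1, Complex.re_ofReal_mul, Complex.exp_ofReal_mul_I_re, hWt_eq hb.le]
  rw [eS] at hS2
  have hE1 : hE N b (fun h => Real.cos (s * TM.H968.lin (tE α β : Eb N → ℝ) h)) *
      TM.H968.Zr N b = (ZC N b (fun e => ((s : ℝ) : ℂ) * ((tE α β e : ℝ) : ℂ))).re := by
    unfold TM.H968.hE
    rw [hS2.tsum_eq, TM.H968.tsum_hWt_eq N hb.le]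
    refine div_mul_cancel₀ _ ?_
    rw [← TM.H968.tsum_hWt_eq N hb.le]
    exact (tsum_hWt_pos N hb).ne'
  have hB : ∃ B : ℝ, bdE (N + 1) b α β 0 = (B : ℂ) := by
    unfold bdE
    refine ⟨∑ i ∈ Finset.range (N + 1), b / 2 * (1 + 1 + 1 + 1), ?_⟩
    push_cast
    refine Finset.sum_congr rfl fun i _ => ?_
    simp only [zero_mul, Complex.cos_zero]
  obtain ⟨B, hB⟩ := hB
  rw [hB, ← Complex.ofReal_exp] at hs h0
  have g0 : Real.exp B * TM.H968.Zr N b = Zr muInf (fun _ : KR (blk 0 (N + 1)) => b / 2)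
      (chiR (blk 0 (N + 1))) 0 := by
    exact_mod_cast h0
  have g1 := congrArg Complex.re hs
  rw [Complex.ofReal_re, Complex.re_ofReal_mul, ← hE1] at g1
  rw [← g1, ← g0]
  ring

/-- **spins against heights**: the wired block of spins is at most the free box of heights -/
theorem blk_le_hE {N : ℕ} {b : ℝ} (hb : 0 < b) (α β : ℤ × ℤ → ℝ)
    (h1 : ∀ i : ℤ, α (i, 0) = 0) (h2 : ∀ i : ℤ, α (i, ((N + 1 : ℕ) : ℤ)) = 0)
    (h3 : ∀ j : ℤ, β (0, j) = 0) (h4 : ∀ j : ℤ, β (((N + 1 : ℕ) : ℤ), j) = 0) :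
    Qform muInf (fun _ : KR (blk 0 (N + 1)) => b / 2) (chiR (blk 0 (N + 1)))
        (tG α β (N + 1)) ≤
      hE N b (fun h => TM.H968.lin (tE α β : Eb N → ℝ) h ^ 2) := by
  obtain ⟨X, hX⟩ : ∃ X, X = hE N b (fun h => TM.H968.lin (tE α β : Eb N → ℝ) h ^ 2) := ⟨_, rfl⟩
  rw [← hX]
  have hZ := tsum_hWt_pos N hb
  have hs0 := summable_hWt N hb
  have hs2 := summable_lsq hb (tE α β : Eb N → ℝ)
  have hX0 : 0 ≤ X := by
    rw [hX]
    unfold TM.H968.hE
    refine div_nonneg (tsum_nonneg fun h => ?_) hZ.le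
    exact mul_nonneg (hWt_pos hb h.1).le (sq_nonneg _)
  -- lower bound of the characteristic function
  have hcos : ∀ s : ℝ, 1 - s ^ 2 * X / 2 ≤
      hE N b (fun h => Real.cos (s * TM.H968.lin (tE α β : Eb N → ℝ) h)) := by
    intro s
    have hc : Summable fun h : Hgt N =>
        hWt N b h.1 * Real.cos (s * TM.H968.lin (tE α β : Eb N → ℝ) h.1) := by
      refine Summable.of_norm_bounded hs0 fun h => ?_
      rw [norm_mul, Real.norm_eq_abs, Real.norm_eq_abs, abs_of_pos (hWt_pos hb h.1)]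
      exact mul_le_of_le_one_right (hWt_pos hb h.1).le (Real.abs_cos_le_one _)
    unfold TM.H968.hE at hX ⊢
    rw [le_div_iff₀ hZ]
    have e1 : (1 - s ^ 2 * X / 2) * ∑' h : Hgt N, hWt N b h.1 =
        ∑' h : Hgt N, (hWt N b h.1 - s ^ 2 / 2 *
          (hWt N b h.1 * TM.H968.lin (tE α β : Eb N → ℝ) h.1 ^ 2)) := by
      rw [hs0.tsum_sub (hs2.mul_left _), tsum_mul_left]
      have : ∑' h : Hgt N, hWt N b h.1 * TM.H968.lin (tE α β : Eb N → ℝ) h.1 ^ 2 =
          X * ∑' h : Hgt N, hWt N b h.1 := by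
        rw [hX]
        exact (div_mul_cancel₀ _ hZ.ne').symm
      rw [this]
      ring
    rw [e1]
    refine (hs0.sub (hs2.mul_left _)).tsum_le_tsum (fun h => ?_) hc
    have h5 := Real.one_sub_sq_div_two_le_cos (x := s * TM.H968.lin (tE α β : Eb N → ℝ) h.1)
    have h6 := mul_le_mul_of_nonneg_left h5 (hWt_pos hb h.1).le
    refine le_trans (le_of_eq ?_) h6
    ring
  refine le_of_forall_gt_imp_ge_of_dense fun A hA => ?_
  have hA0 : 0 < A := lt_of_le_of_lt hX0 hA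
  -- a small scale
  obtain ⟨v, hv, hv1⟩ : ∃ v : ℝ, 0 < v ∧ v ^ 2 * A ^ 2 ≤ 4 * (A - X) := by
    refine ⟨√(4 * (A - X) / A ^ 2), Real.sqrt_pos.2 (by
      have : 0 < A - X := by linarith
      positivity), ?_⟩
    rw [Real.sq_sqrt (by
      have : 0 < A - X := by linarith
      positivity), div_mul_cancel₀ _ (by positivity)]
  have hq := T1.H409.Qform_le_of_lower muInf (fun _ : KR (blk 0 (N + 1)) => b / 2)
    (chiR (blk 0 (N + 1))) (half_nonneg' hb.le _) (v • tG α β (N + 1)) (A := v ^ 2 * A)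
    fun u hu hu1 => by
      rw [smul_smul, zr_eq_cos hb α β h1 h2 h3 h4]
      have hZr := Zr_pos muInf (fun _ : KR (blk 0 (N + 1)) => b / 2) (chiR (blk 0 (N + 1))) 0
      refine mul_le_mul_of_nonneg_right (le_trans ?_ (hcos (u * v))) hZr.le
      -- exp (-x) ≤ 1 - x + x^2 / 2
      obtain ⟨x, hx⟩ : ∃ x, x = u ^ 2 * (v ^ 2 * A) / 2 := ⟨_, rfl⟩
      have hx0 : 0 ≤ x := by rw [hx]; positivity
      rw [← hx]
      have h5 : Real.exp (-x) ≤ 1 - x + x ^ 2 / 2 := by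
        have h6 := Real.quadratic_le_exp_of_nonneg hx0
        rw [Real.exp_neg, inv_le_iff_one_le_mul₀ (Real.exp_pos x)]
        have h7 : 0 ≤ 1 - x + x ^ 2 / 2 := by nlinarith [sq_nonneg (x - 1)]
        have h8 := mul_le_mul_of_nonneg_left h6 h7
        have h9 : (1 - x + x ^ 2 / 2) * (1 + x + x ^ 2 / 2) = 1 + x ^ 4 / 4 := by ring
        rw [h9] at h8
        have : 0 ≤ x ^ 4 := by positivity
        linarith
      refine h5.trans ?_
      have h6 : x ^ 2 / 2 ≤ (u * v) ^ 2 * (A - X) / 2 := by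
        have h7 : u ^ 2 ≤ 1 := by nlinarith
        have h8 : x ^ 2 = (u ^ 2) * (u ^ 2 * v ^ 2 * (v ^ 2 * A ^ 2)) / 4 := by rw [hx]; ring
        have h9 : u ^ 2 * v ^ 2 * (v ^ 2 * A ^ 2) ≤ u ^ 2 * v ^ 2 * (4 * (A - X)) :=
          mul_le_mul_of_nonneg_left hv1 (by positivity)
        have h10 : (u ^ 2) * (u ^ 2 * v ^ 2 * (v ^ 2 * A ^ 2)) ≤
            1 * (u ^ 2 * v ^ 2 * (v ^ 2 * A ^ 2)) :=
          mul_le_mul_of_nonneg_right h7 (by positivity)
        rw [h8]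
        nlinarith
      have h7 : x = (u * v) ^ 2 * A / 2 := by rw [hx]; ring
      rw [h7] at h6 ⊢
      nlinarith
  rw [Qform_smul] at hq
  exact le_of_mul_le_mul_left hq (by positivity)

end

end Vale.Agent.P159.H340
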