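import Vale.Agent.P159.H375.Uv1

/-!
P159, module TR (helper340), part 1: the free block against the torus with a mass form `M ≤ t`,
for a neutral functional at scale `r` at distance `(m + 1) r` from the boundary of the block.
-/

open Filter Topology

namespace Vale.Agent.P159.H340

open Vale.Agent.P159.TM
open Vale.Agent.P159.TM.H22 (SG Gle lin)
open Vale.Agent.P159.TM.SpecI
open Vale.Agent.P159.TM.H574
open Vale.Agent.P159.H353 (wI wI_nonneg wI_neg wI_zero_pos)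
open Vale.Agent.P159.H375 (sh shE tgt_add XK XK_ne ex_univ_pin wrap_pin lin_sh sq_sh coe_sh full_sh)
open Finset

section cut

variable {n : ℕ} [NeZero n] {b : ℝ}

/-- cut a square out of any set of edges and drop the mass -/
theorem upper_es (hb : 0 ≤ b) {es : Finset (V n × Bool)} {M : (V n → ℤ) → ℝ} (hM : SQ M)
    (hc : Coe es ∅ M) {p : ℕ × ℕ} {s : ℕ} (hes : eb p s ⊆ es) (h1 : p.1 + s ≤ n)
    (h2 : p.2 + s ≤ n) (hs : 1 ≤ s) {g : V n → ℝ}
    (hg : ∑ x, g x = 0) (hsu : ∀ x, x ∉ bx p s → g x = 0) :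
    ex b es ∅ M (fun h => pr g h ^ 2) ≤
      ex b (eb p s) ((bx p s)ᶜ ∪ {cnr p}) (fun _ => 0) (fun h => pr g h ^ 2) := by
  classical
  set Y : Finset (V n) := (bx p s)ᶜ ∪ {cnr p} with hY
  set R : (V n → ℤ) → ℝ := fun h => ∑ x ∈ Y, (h x : ℝ) ^ 2 with hR
  have sqR : SQ R := by
    refine (SQ.sum (U := V n) Y (v := fun _ => 1) (fun _ _ => zero_le_one)
      (fun x => Pi.single x 1)).congr fun h => ?_
    rw [hR]
    refine sum_congr rfl fun x _ => ?_
    unfold lin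
    rw [one_mul]
    congr 1
    simp [Pi.single_apply]
  have hwM : SG (wt b es ∅ M) := sg_wt hb hM.nonneg hM.even hc
  have hle : ∀ l : ℝ, 0 < l → ex b es ∅ (fun h => l * R h + M h) (fun h => pr g h ^ 2) ≤
      ex b (eb p s) Y (fun _ => 0) (fun h => pr g h ^ 2) := by
    intro l hl
    rw [← mass_pos_eq h1 h2 hs hb hl hg hsu]
    exact ex_mono hb hes subset_rfl (sqR.smul hl.le) hM (coe_lam h1 h2 hl) (inc_sq g)
  have hw : ∀ (l : ℝ) (h : V n → ℤ), wt b es ∅ (fun h => l * R h + M h) h =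
      wt b es ∅ M h * Real.exp (-(l * (R h / 2))) := by
    intro l h
    unfold wt
    rw [show -(l * R h + M h) / 2 = -(M h) / 2 + -(l * (R h / 2)) by ring, Real.exp_add]
    ring
  have hlim : ∀ F : (V n → ℤ) → ℝ, H22.Gr F → Tendsto (fun l : ℝ =>
      H22.MM (wt b es ∅ (fun h => l * R h + M h)) F) (𝓝[>] 0)
      (𝓝 (H22.MM (wt b es ∅ M) F)) := by
    intro F hF
    have h3 := tendsto_exp0 (a := fun h => wt b es ∅ M h * F h) (b := fun h => R h / 2)
      (fun h => by rw [hR]; positivity) (hwM.sabs hF)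
    refine h3.congr fun l => ?_
    unfold H22.MM
    exact tsum_congr fun h => by rw [hw]; ring
  have h4 := (hlim _ (gr_sq g)).div (hlim _ (H22.Gr.const 1)) (MM_one_pos hb hwM).ne'
  have h5 : Tendsto (fun l : ℝ => ex b es ∅ (fun h => l * R h + M h) (fun h => pr g h ^ 2))
      (𝓝[>] 0) (𝓝 (ex b es ∅ M (fun h => pr g h ^ 2))) := by
    rw [ex_eq]
    refine Tendsto.congr (fun l => ?_) h4
    rw [ex_eq]
    rfl
  refine le_of_tendsto h5 ?_
  filter_upwards [self_mem_nhdsWithin] with l hl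
  exact hle l hl

lemma bx_sub {P p : ℕ × ℕ} {L s : ℕ} (h1 : P.1 ≤ p.1) (h2 : P.2 ≤ p.2)
    (h3 : p.1 + s ≤ P.1 + L) (h4 : p.2 + s ≤ P.2 + L) :
    (bx p s : Finset (V n)) ⊆ bx P L := by
  intro x hx
  rw [mem_bx] at hx ⊢
  omega

/-- cut a smaller square out of a free square -/
theorem upper_blk (hb : 0 ≤ b) {P p : ℕ × ℕ} {L s : ℕ} (hP1 : P.1 + L ≤ n) (hP2 : P.2 + L ≤ n)
    (h1 : P.1 ≤ p.1) (h2 : P.2 ≤ p.2) (h3 : p.1 + s ≤ P.1 + L) (h4 : p.2 + s ≤ P.2 + L)
    (hs : 1 ≤ s) {g : V n → ℝ} (hg : ∑ x, g x = 0) (hsu : ∀ x, x ∉ bx p s → g x = 0) :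
    ex b (eb P L) ((bx P L)ᶜ ∪ {cnr P}) (fun _ => 0) (fun h => pr g h ^ 2) ≤
      ex b (eb p s) ((bx p s)ᶜ ∪ {cnr p}) (fun _ => 0) (fun h => pr g h ^ 2) := by
  classical
  have hsub : (bx p s : Finset (V n)) ⊆ bx P L := bx_sub h1 h2 h3 h4
  rw [← mass_pos_eq hP1 hP2 (by omega) hb one_pos hg fun x hx => hsu x fun h => hx (hsub h)]
  refine upper_es hb ?_ (coe_lam hP1 hP2 one_pos) ?_ (by omega) (by omega) hs hg hsu
  · refine SQ.smul ?_ zero_le_one
    refine (SQ.sum (U := V n) ((bx P L)ᶜ ∪ {cnr P}) (v := fun _ => 1) (fun _ _ => zero_le_one)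
      (fun x => Pi.single x 1)).congr fun h => ?_
    refine sum_congr rfl fun x _ => ?_
    unfold lin
    rw [one_mul]
    congr 1
    simp [Pi.single_apply]
  · intro e he
    unfold eb at he ⊢
    rw [mem_filter] at he ⊢
    exact ⟨he.1, hsub he.2.1, hsub he.2.2⟩

/-! ### translations with pins -/

lemma wt_shX (b : ℝ) (a : V n) (X : Finset (V n)) (Q : (V n → ℤ) → ℝ) (h : V n → ℤ) :
    wt b univ X (fun h => Q (sh a h)) h =
      wt b univ (X.image fun x => x - a) Q (sh a h) := by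
  classical
  have hp : ∏ e : V n × Bool, wI b (h (tgt e) - h e.1) =
      ∏ e : V n × Bool, wI b (sh a h (tgt e) - sh a h e.1) := by
    refine Fintype.prod_equiv ((Equiv.addRight (-a)).prodCongr (Equiv.refl Bool)) _ _
      fun e => ?_
    obtain ⟨x, o⟩ := e
    simp only [Equiv.prodCongr_apply, Prod.map_apply, Equiv.coe_addRight, Equiv.refl_apply]
    rw [← tgt_add]
    unfold sh
    rw [neg_add_cancel_right, neg_add_cancel_right]
  have hX : (∀ x ∈ X, h x = 0) ↔ ∀ x ∈ X.image (fun x => x - a), sh a h x = 0 := by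
    constructor
    · intro h1 x hx
      rw [mem_image] at hx
      obtain ⟨y, hy, rfl⟩ := hx
      unfold sh
      rw [sub_add_cancel]
      exact h1 y hy
    · intro h1 x hx
      have := h1 (x - a) (mem_image.2 ⟨x, hx, rfl⟩)
      unfold sh at this
      rwa [sub_add_cancel] at this
  unfold wt
  rw [hp]
  by_cases h1 : ∀ x ∈ X, h x = 0
  · rw [if_pos h1, if_pos (hX.1 h1)]
  · rw [if_neg h1, if_neg fun h2 => h1 (hX.2 h2)]

theorem ex_shX (b : ℝ) (a : V n) (X : Finset (V n)) (Q F : (V n → ℤ) → ℝ) :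
    ex b univ X (fun h => Q (sh a h)) (fun h => F (sh a h)) =
      ex b univ (X.image fun x => x - a) Q F := by
  unfold ex
  simp only [wt_shX]
  rw [← (shE a).tsum_eq (fun h => wt b univ (X.image fun x => x - a) Q h * F h),
    ← (shE a).tsum_eq (fun h => wt b univ (X.image fun x => x - a) Q h)]
  rfl

lemma pr_sh' (a : V n) (g : V n → ℝ) (h : V n → ℤ) :
    pr (fun x => g (x + a)) (sh a h) = pr g h := by
  unfold pr sh
  exact Fintype.sum_equiv (Equiv.addRight a) _ _ fun x => rfl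

lemma image_bx {p p' : ℕ × ℕ} {s : ℕ} (h1 : p.1 + s ≤ n) (h2 : p.2 + s ≤ n)
    (h3 : p'.1 + s ≤ n) (h4 : p'.2 + s ≤ n) :
    ((bx p s : Finset (V n))ᶜ.image fun x => x - (pt p.1 p.2 - pt p'.1 p'.2)) =
      (bx p' s)ᶜ := by
  classical
  have key : ∀ x : V n, x ∈ bx p' s ↔ x + (pt p.1 p.2 - pt p'.1 p'.2) ∈ bx p s := by
    intro x
    rw [H375.mem_bx_sq h3 h4, H375.mem_bx_sq h1 h2]
    unfold H375.sq
    rw [mem_image, mem_image]
    constructor
    · rintro ⟨c, hc, rfl⟩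
      exact ⟨c, hc, by abel⟩
    · rintro ⟨c, hc, he⟩
      refine ⟨c, hc, ?_⟩
      have : x = (pt p.1 p.2 + pt c.1 c.2) - (pt p.1 p.2 - pt p'.1 p'.2) := by
        rw [he]
        abel
      rw [this]
      abel
  ext x
  rw [mem_image, mem_compl]
  constructor
  · rintro ⟨y, hy, rfl⟩ hx
    rw [mem_compl] at hy
    rw [key, sub_add_cancel] at hx
    exact hy hx
  · intro hx
    refine ⟨x + (pt p.1 p.2 - pt p'.1 p'.2), ?_, by abel⟩
    rw [mem_compl]
    intro h5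
    exact hx ((key x).2 h5)

end cut

/-- **free block against the torus**, functional away from the boundary of the block -/
theorem blk_good {b : ℝ} (hb : 0 ≤ b) : ∃ C c : ℝ, 0 < C ∧ 0 < c ∧
    ∀ (n : ℕ) [NeZero n] (K r m L : ℕ) (P q : ℕ × ℕ), 2 ≤ r → 1 ≤ m →
    (2 * m + 1) * r ≤ 2 ^ K → 2 ^ (K + 1) + 1 ≤ n → P.1 + L ≤ n → P.2 + L ≤ n →
    P.1 + m * r + 1 ≤ q.1 → P.2 + m * r + 1 ≤ q.2 →
    q.1 + r + m * r + 1 ≤ P.1 + L → q.2 + r + m * r + 1 ≤ P.2 + L →
    ∀ t : ℝ, 0 ≤ t → t * 4 ^ K ≤ 1 →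
    ∀ g : V n → ℝ, ∑ x, g x = 0 → (∀ x, x ∉ bx q r → g x = 0) →
      (∀ x, |g x| ≤ 1 / (r : ℝ) ^ 2) →
    ∀ M R : (V n → ℤ) → ℝ, SQ M → Coe univ ∅ M → SQ R → (∀ h, M h + R h = full t h) →
      ex b (eb P L) ((bx P L)ᶜ ∪ {cnr P}) (fun _ => 0) (fun h => pr g h ^ 2) -
        ex b univ ∅ M (fun h => pr g h ^ 2) ≤ C * (m : ℝ) ^ (-c) + C * √(t * 4 ^ K) := by
  classical
  obtain ⟨C₁, c₁, hC₁, hc₁, hI⟩ := Vale.Agent.P159.TM.H389.idwi hb
  obtain ⟨C₂, hC₂, hU⟩ := H375.uvz (b := b) hb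
  refine ⟨C₁ + C₂, c₁, by positivity, hc₁, ?_⟩
  intro n _ K r m L P q hr hm hKr hn hP1 hP2 hq1 hq2 hq3 hq4 t ht ht1 g hg hgs hgb M R hM hcM hR
    hMR
  set s := (2 * m + 1) * r with hs
  have hsr : m * r + m * r + r = s := by rw [hs]; ring
  have h2K : 2 ^ (K + 1) = 2 * 2 ^ K := pow_succ' 2 K
  have hK1 : 1 ≤ 2 ^ K := Nat.one_le_two_pow
  set p : ℕ × ℕ := (q.1 - m * r, q.2 - m * r) with hp
  have e1 : p.1 + m * r = q.1 := by simp only [hp]; omega
  have e2 : p.2 + m * r = q.2 := by simp only [hp]; omega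
  have p1 : P.1 + 1 ≤ p.1 := by omega
  have p2 : P.2 + 1 ≤ p.2 := by omega
  have p3 : p.1 + s + 1 ≤ P.1 + L := by omega
  have p4 : p.2 + s + 1 ≤ P.2 + L := by omega
  have hgs1 : ∀ x, x ∉ bx (p.1 + m * r, p.2 + m * r) r → g x = 0 := by
    rw [e1, e2]
    exact hgs
  have hgs2 : ∀ x, x ∉ bx p s → g x = 0 := fun x hx => by
    refine hgs x fun h3 => hx ?_
    rw [mem_bx] at h3 ⊢
    omega
  -- upper bound
  have u2 := upper_blk (b := b) hb hP1 hP2 (p := p) (s := s) (by omega) (by omega) (by omega)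
    (by omega) (by omega) hg hgs2
  have u3 := hI n r m p hr hm (by omega) (by omega) (by omega) (by omega) g hg hgs1 hgb
  rw [← hs] at u3
  -- translation to the standard position
  set p0 : ℕ × ℕ := (2 ^ K, 2 ^ K) with hp0
  set a : V n := pt p.1 p.2 - pt p0.1 p0.2 with ha
  set g' : V n → ℝ := fun x => g (x + a) with hg'
  have w1 : ex b (inn n) (bx p s)ᶜ (fun _ => 0) (fun h => pr g h ^ 2) =
      ex b univ (bx p s)ᶜ (fun _ => 0) (fun h => pr g h ^ 2) :=
    (ex_univ_pin hb _ (fun e he => wrap_pin (by omega) (by omega) (by omega) (by omega) e he)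
      _).symm
  have w2 : ex b univ (bx p s)ᶜ (fun _ => 0) (fun h => pr g h ^ 2) =
      ex b univ (bx p0 s)ᶜ (fun _ => 0) (fun h => pr g' h ^ 2) := by
    have h5 := ex_shX b a (bx p s)ᶜ (fun _ => 0) (fun h => pr g' h ^ 2)
    rw [image_bx (by omega) (by omega) (by simp only [hp0]; omega) (by simp only [hp0]; omega)]
      at h5
    rw [← h5]
    congr 1
    funext h
    rw [hg', pr_sh']
  have w3 : ex b univ (bx p0 s)ᶜ (fun _ => 0) (fun h => pr g' h ^ 2) =
      ex b (inn n) (bx p0 s)ᶜ (fun _ => 0) (fun h => pr g' h ^ 2) :=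
    ex_univ_pin hb _ (fun e he => wrap_pin (by simp only [hp0]; omega) (by simp only [hp0]; omega)
      (by simp only [hp0]; omega) (by simp only [hp0]; omega) e he) _
  have key : ∀ (q q' : ℕ × ℕ) (r : ℕ), q.1 + r ≤ n → q.2 + r ≤ n → q'.1 + r ≤ n → q'.2 + r ≤ n →
      ∀ x : V n, x ∈ bx q' r ↔ x + (pt q.1 q.2 - pt q'.1 q'.2) ∈ bx q r := by
    intro q q' r h1 h2 h3 h4 x
    have h5 := image_bx (n := n) (p := q) (p' := q') (s := r) h1 h2 h3 h4
    have h6 : x ∈ (bx q' r)ᶜ ↔ x + (pt q.1 q.2 - pt q'.1 q'.2) ∈ (bx q r)ᶜ := by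
      rw [← h5, mem_image]
      constructor
      · rintro ⟨y, hy, rfl⟩
        rwa [sub_add_cancel]
      · intro h7
        exact ⟨_, h7, by abel⟩
    rw [mem_compl, mem_compl, not_iff_not] at h6
    exact h6
  have hXX : XK n K ⊆ (bx p0 s : Finset (V n))ᶜ := by
    unfold XK
    intro x hx
    rw [mem_compl, mem_bx] at hx ⊢
    simp only [hp0] at hx ⊢
    omega
  have u4 : ex b (inn n) (bx p0 s)ᶜ (fun _ => 0) (fun h => pr g' h ^ 2) ≤
      ex b (inn n) (XK n K) (fun _ => 0) (fun h => pr g' h ^ 2) := by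
    have := ex_mono (es := inn n) (es' := inn n) (X := XK n K) (X' := (bx p0 s)ᶜ)
      (Q := fun _ => 0) (R := fun _ => 0) hb subset_rfl hXX SQ.zero SQ.zero
      (coe_pin (XK_ne hn) _) (inc_sq g')
    simp only [add_zero] at this
    exact this
  have hg'0 : ∑ x, g' x = 0 := by
    rw [← hg]
    exact Fintype.sum_equiv (Equiv.addRight a) _ _ fun x => rfl
  have hg's : ∀ x, x ∉ bx (p0.1 + m * r, p0.2 + m * r) r → g' x = 0 := by
    intro x hx
    refine hgs _ fun h5 => hx ?_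
    rw [key q (p0.1 + m * r, p0.2 + m * r) r (by omega) (by omega) (by simp only [hp0]; omega)
      (by simp only [hp0]; omega)]
    have e3 : (pt q.1 q.2 - pt (p0.1 + m * r) (p0.2 + m * r) : V n) = a := by
      rw [ha, ← e1, ← e2]
      unfold pt
      refine Prod.ext ?_ ?_
      · simp only [Prod.fst_sub]
        push_cast
        ring
      · simp only [Prod.snd_sub]
        push_cast
        ring
    rw [e3]
    exact h5
  have u5 := hU n K hn t ht ht1 (p0.1 + m * r, p0.2 + m * r) r hr (by simp only [hp0]; omega)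
    (by simp only [hp0]; omega) g' hg'0 hg's (fun x => hgb _)
  -- lower bound
  have hMR' : (fun h => M (sh (-a) h) + R (sh (-a) h)) = full t := by
    funext h
    rw [hMR, full_sh]
  have l1 : ex b univ (XK n K) (full t) (fun h => pr g' h ^ 2) ≤
      ex b univ ∅ (fun h => M (sh (-a) h)) (fun h => pr g' h ^ 2) := by
    have := ex_mono (es := univ) (es' := univ) (X := ∅) (X' := XK n K)
      (Q := fun h => M (sh (-a) h)) (R := fun h => R (sh (-a) h)) hb (Subset.refl _)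
      (empty_subset _) (sq_sh _ hM) (sq_sh _ hR) (coe_sh _ hcM) (inc_sq g')
    rw [hMR'] at this
    exact this
  have l2 : ex b univ (XK n K) (full t) (fun h => pr g' h ^ 2) =
      ex b (inn n) (XK n K) (full t) (fun h => pr g' h ^ 2) :=
    ex_univ_pin hb (full t) (fun e he => wrap_pin hK1 hK1 (by simp only; omega)
      (by simp only; omega) e he) _
  have l3 : ex b univ ∅ (fun h => M (sh (-a) h)) (fun h => pr g' h ^ 2) =
      ex b univ ∅ M (fun h => pr g h ^ 2) := by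
    have h5 := H375.ex_sh b a (fun h => M (sh (-a) h)) (fun h => pr g' h ^ 2)
    rw [← h5]
    have e3 : ∀ h : V n → ℤ, sh (-a) (sh a h) = h := by
      intro h
      funext x
      unfold sh
      rw [neg_add_cancel_right]
    have e4 : ∀ h : V n → ℤ, pr g' (sh a h) = pr g h := fun h => by rw [hg', pr_sh']
    simp only [e3, e4]
  rw [l2, l3] at l1
  have hm0 : 0 ≤ (m : ℝ) ^ (-c₁) := Real.rpow_nonneg (Nat.cast_nonneg m) _
  have hs0 := Real.sqrt_nonneg (t * 4 ^ K)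
  have k1 : C₁ * (m : ℝ) ^ (-c₁) ≤ (C₁ + C₂) * (m : ℝ) ^ (-c₁) := by nlinarith
  have k2 : C₂ * √(t * 4 ^ K) ≤ (C₁ + C₂) * √(t * 4 ^ K) := by nlinarith
  linarith

end Vale.Agent.P159.H340
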