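import Vale.Agent.P159.H340.Lw1
import Vale.Agent.P159.H340.Tr1
import Vale.Agent.P159.H856.Emb

/-!
P159 (helper340), LINKW (B), part 2: the free box of heights of side `N + 1` inside a torus.
-/

set_option linter.unusedSectionVars false

open Filter Topology Finset

namespace Vale.Agent.P159.H340

open Vale.Agent.P159 Vale.Agent.P159.R2.H254
open Vale.Agent.P159.H353 (wI wI_nonneg wI_neg)
open Vale.Agent.P159.TM.SpecI
open Vale.Agent.P159.TM.H574
open Vale.Agent.P159.TM.H968 (hE)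
open Vale.Agent.P159.H856 (aS bS sF)

noncomputable section

variable {n : ℕ} [NeZero n] {N : ℕ}

/-- the face `y` of the block in the torus -/
def emb (n : ℕ) (P : ℕ × ℕ) (y : Fa N) : V n :=
  (((P.1 + (y.1 : ℕ) : ℕ) : ZMod n), ((P.2 + (y.2 : ℕ) : ℕ) : ZMod n))

lemma emb_val {P : ℕ × ℕ} (h1 : P.1 + (N + 1) ≤ n) (h2 : P.2 + (N + 1) ≤ n) (y : Fa N) :
    (emb n P y).1.val = P.1 + y.1 ∧ (emb n P y).2.val = P.2 + y.2 := by
  have k1 := y.1.2
  have k2 := y.2.2
  exact ⟨ZMod.val_natCast_of_lt (by omega), ZMod.val_natCast_of_lt (by omega)⟩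

lemma emb_mem {P : ℕ × ℕ} (h1 : P.1 + (N + 1) ≤ n) (h2 : P.2 + (N + 1) ≤ n) (y : Fa N) :
    emb n P y ∈ bx P (N + 1) := by
  obtain ⟨e1, e2⟩ := emb_val h1 h2 y
  have k1 := y.1.2
  have k2 := y.2.2
  unfold bx
  rw [mem_filter]
  refine ⟨mem_univ _, ?_⟩
  rw [e1, e2]
  omega

lemma emb_zero (P : ℕ × ℕ) : emb n P ((0, 0) : Fa N) = cnr P := by
  unfold emb cnr
  simp

lemma emb_surj {P : ℕ × ℕ} (h1 : P.1 + (N + 1) ≤ n) (h2 : P.2 + (N + 1) ≤ n) {x : V n}
    (hx : x ∈ bx P (N + 1)) : ∃ y : Fa N, emb n P y = x := by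
  unfold bx at hx
  rw [mem_filter] at hx
  refine ⟨(⟨x.1.val - P.1, by omega⟩, ⟨x.2.val - P.2, by omega⟩), ?_⟩
  unfold emb
  simp only
  rw [Nat.add_sub_cancel' hx.2.1, Nat.add_sub_cancel' hx.2.2.2.1]
  exact Prod.ext (ZMod.natCast_zmod_val _) (ZMod.natCast_zmod_val _)

lemma emb_inj {P : ℕ × ℕ} (h1 : P.1 + (N + 1) ≤ n) (h2 : P.2 + (N + 1) ≤ n) :
    Function.Injective (emb n P : Fa N → V n) := by
  intro y z h
  obtain ⟨e1, e2⟩ := emb_val h1 h2 y
  obtain ⟨f1, f2⟩ := emb_val h1 h2 z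
  rw [h] at e1 e2
  refine Prod.ext (Fin.ext ?_) (Fin.ext ?_) <;> omega

/-- extension by zero -/
def exz (n : ℕ) [NeZero n] (P : ℕ × ℕ) (h : Fa N → ℤ) : V n → ℤ :=
  Function.extend (emb n P) h 0

lemma exz_emb {P : ℕ × ℕ} (h1 : P.1 + (N + 1) ≤ n) (h2 : P.2 + (N + 1) ≤ n) (h : Fa N → ℤ)
    (y : Fa N) : exz n P h (emb n P y) = h y :=
  (emb_inj h1 h2).extend_apply _ _ _

lemma exz_off {P : ℕ × ℕ} (h1 : P.1 + (N + 1) ≤ n) (h2 : P.2 + (N + 1) ≤ n) (h : Fa N → ℤ)
    {x : V n} (hx : x ∉ bx P (N + 1)) : exz n P h x = 0 := by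
  unfold exz
  rw [Function.extend_apply']
  · rfl
  · rintro ⟨y, rfl⟩
    exact hx (emb_mem h1 h2 y)

/-- the edge of the torus which crosses a bond -/
def eed (n : ℕ) (P : ℕ × ℕ) : Eb N → V n × Bool
  | Sum.inl p => (emb n P (p.1.castSucc, p.2), false)
  | Sum.inr p => (emb n P (p.1, p.2.castSucc), true)

lemma eed_tgt (P : ℕ × ℕ) (e : Eb N) :
    tgt (eed n P e) = match e with
      | Sum.inl p => emb n P (p.1.succ, p.2)
      | Sum.inr p => emb n P (p.1, p.2.succ) := by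
  rcases e with p | p
  · show (((P.1 + (p.1.castSucc : ℕ) : ℕ) : ZMod n) + 1, ((P.2 + (p.2 : ℕ) : ℕ) : ZMod n)) =
      (((P.1 + (p.1.succ : ℕ) : ℕ) : ZMod n), ((P.2 + (p.2 : ℕ) : ℕ) : ZMod n))
    refine Prod.ext ?_ rfl
    simp only [Fin.val_castSucc, Fin.val_succ]
    push_cast
    ring
  · show (((P.1 + (p.1 : ℕ) : ℕ) : ZMod n), ((P.2 + (p.2.castSucc : ℕ) : ℕ) : ZMod n) + 1) =
      (((P.1 + (p.1 : ℕ) : ℕ) : ZMod n), ((P.2 + (p.2.succ : ℕ) : ℕ) : ZMod n))
    refine Prod.ext rfl ?_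
    simp only [Fin.val_castSucc, Fin.val_succ]
    push_cast
    ring

lemma eed_inj {P : ℕ × ℕ} (h1 : P.1 + (N + 1) ≤ n) (h2 : P.2 + (N + 1) ≤ n) :
    Function.Injective (eed n P : Eb N → V n × Bool) := by
  intro e f h
  rcases e with p | p <;> rcases f with q | q
  · have h3 := emb_inj h1 h2 (congrArg Prod.fst h)
    have h4 := congrArg Prod.fst h3
    have h5 := congrArg Prod.snd h3
    have h6 : p.1 = q.1 := Fin.castSucc_injective _ h4
    exact congrArg Sum.inl (Prod.ext h6 h5)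
  · exact absurd (congrArg Prod.snd h) (by simp [eed])
  · exact absurd (congrArg Prod.snd h) (by simp [eed])
  · have h3 := emb_inj h1 h2 (congrArg Prod.fst h)
    have h4 := congrArg Prod.fst h3
    have h5 := congrArg Prod.snd h3
    have h6 : p.2 = q.2 := Fin.castSucc_injective _ h5
    exact congrArg Sum.inr (Prod.ext h4 h6)

lemma val_succ_lt {a : ZMod n} (h : a.val + 1 < n) : (a + 1).val = a.val + 1 := by
  have h1 : ((a.val + 1 : ℕ) : ZMod n) = a + 1 := by
    push_cast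
    rw [ZMod.natCast_zmod_val]
  rw [← h1]
  exact ZMod.val_natCast_of_lt h

lemma eb_eq {P : ℕ × ℕ} (h1 : P.1 + (N + 1) ≤ n) (h2 : P.2 + (N + 1) ≤ n) :
    (eb P (N + 1) : Finset (V n × Bool)) = univ.image (eed n P : Eb N → V n × Bool) := by
  classical
  ext e
  rw [mem_image]
  constructor
  · intro he
    unfold eb inn bx at he
    simp only [mem_filter, mem_univ, true_and] at he
    obtain ⟨h3, h4, h5⟩ := he
    obtain ⟨x, o⟩ := e
    cases o
    · simp only [Bool.false_eq_true, if_false] at h3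
      have h6 : tgt ((x, false) : V n × Bool) = (x.1 + 1, x.2) := rfl
      rw [h6] at h5
      simp only at h4 h5
      rw [val_succ_lt h3] at h5
      refine ⟨Sum.inl (⟨x.1.val - P.1, by omega⟩, ⟨x.2.val - P.2, by omega⟩), mem_univ _, ?_⟩
      show ((_, _), _) = _
      refine Prod.ext (Prod.ext ?_ ?_) rfl
      · show (((P.1 + (x.1.val - P.1) : ℕ)) : ZMod n) = x.1
        rw [Nat.add_sub_cancel' h4.1, ZMod.natCast_zmod_val]
      · show (((P.2 + (x.2.val - P.2) : ℕ)) : ZMod n) = x.2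
        rw [Nat.add_sub_cancel' h4.2.2.1, ZMod.natCast_zmod_val]
    · simp only [if_true] at h3
      have h6 : tgt ((x, true) : V n × Bool) = (x.1, x.2 + 1) := rfl
      rw [h6] at h5
      simp only at h4 h5
      rw [val_succ_lt h3] at h5
      refine ⟨Sum.inr (⟨x.1.val - P.1, by omega⟩, ⟨x.2.val - P.2, by omega⟩), mem_univ _, ?_⟩
      show ((_, _), _) = _
      refine Prod.ext (Prod.ext ?_ ?_) rfl
      · show (((P.1 + (x.1.val - P.1) : ℕ)) : ZMod n) = x.1
        rw [Nat.add_sub_cancel' h4.1, ZMod.natCast_zmod_val]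
      · show (((P.2 + (x.2.val - P.2) : ℕ)) : ZMod n) = x.2
        rw [Nat.add_sub_cancel' h4.2.2.1, ZMod.natCast_zmod_val]
  · rintro ⟨f, -, rfl⟩
    unfold eb inn
    simp only [mem_filter, mem_univ, true_and]
    refine ⟨?_, ?_, ?_⟩
    · rcases f with p | p
      · show (if (false : Bool) = true then _ else _)
        simp only [Bool.false_eq_true, if_false]
        show (emb n P (p.1.castSucc, p.2)).1.val + 1 < n
        rw [(emb_val h1 h2 _).1]
        have := p.1.2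
        simp only [Fin.val_castSucc]
        omega
      · show (if (true : Bool) = true then _ else _)
        simp only [if_true]
        show (emb n P (p.1, p.2.castSucc)).2.val + 1 < n
        rw [(emb_val h1 h2 _).2]
        have := p.2.2
        simp only [Fin.val_castSucc]
        omega
    · rcases f with p | p <;> exact emb_mem h1 h2 _
    · rw [eed_tgt]
      rcases f with p | p <;> exact emb_mem h1 h2 _

/-- the weight of the extension -/
lemma wt_exz {b : ℝ} (hb : 0 ≤ b) {P : ℕ × ℕ} (h1 : P.1 + (N + 1) ≤ n) (h2 : P.2 + (N + 1) ≤ n)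
    {h : Fa N → ℤ} (h0 : h (0, 0) = 0) :
    wt b (eb P (N + 1)) ((bx P (N + 1))ᶜ ∪ {cnr P}) (fun _ => 0) (exz n P h) = hWt N b h := by
  classical
  have hX : ∀ x ∈ ((bx P (N + 1) : Finset (V n))ᶜ ∪ {cnr P}), exz n P h x = 0 := by
    intro x hx
    rw [mem_union, mem_compl, mem_singleton] at hx
    rcases hx with hx | hx
    · exact exz_off h1 h2 h hx
    · rw [hx, ← emb_zero (N := N), exz_emb h1 h2, h0]
  unfold wt
  rw [if_pos hX, eb_eq h1 h2, prod_image fun e _ f _ h => eed_inj h1 h2 h, hWt_eq hb]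
  simp only [one_mul, neg_zero, zero_div, Real.exp_zero, mul_one]
  refine prod_congr rfl fun e _ => ?_
  rw [eed_tgt]
  rcases e with p | p
  · show wI b (exz n P h (emb n P (p.1.succ, p.2)) - exz n P h (emb n P (p.1.castSucc, p.2))) =
      wI b (h (p.1.castSucc, p.2) - h (p.1.succ, p.2))
    rw [exz_emb h1 h2, exz_emb h1 h2, ← wI_neg]
    congr 1
    ring
  · show wI b (exz n P h (emb n P (p.1, p.2.succ)) - exz n P h (emb n P (p.1, p.2.castSucc))) =
      wI b (h (p.1, p.2.succ) - h (p.1, p.2.castSucc))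
    rw [exz_emb h1 h2, exz_emb h1 h2]

/-- sums over the heights of the free box -/
lemma tsum_exz {P : ℕ × ℕ} (h1 : P.1 + (N + 1) ≤ n) (h2 : P.2 + (N + 1) ≤ n)
    (F : (V n → ℤ) → ℝ)
    (hF : ∀ H : V n → ℤ, F H ≠ 0 → ∀ x ∈ ((bx P (N + 1) : Finset (V n))ᶜ ∪ {cnr P}), H x = 0) :
    ∑' h : Hgt N, F (exz n P h.1) = ∑' H : V n → ℤ, F H := by
  have hinj : Function.Injective fun h : Hgt N => exz n P h.1 := by
    intro h k hk
    refine Subtype.ext (funext fun y => ?_)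
    have h3 := congrFun hk (emb n P y)
    simp only at h3
    rwa [exz_emb h1 h2, exz_emb h1 h2] at h3
  refine hinj.tsum_eq (f := F) fun H hH => ?_
  have h3 := hF H hH
  refine ⟨⟨fun y => H (emb n P y), ?_⟩, ?_⟩
  · show H (emb n P (0, 0)) = 0
    rw [emb_zero]
    exact h3 _ (by simp)
  · funext x
    show exz n P (fun y => H (emb n P y)) x = H x
    by_cases hx : x ∈ bx P (N + 1)
    · obtain ⟨y, rfl⟩ := emb_surj h1 h2 hx
      exact exz_emb h1 h2 _ y
    · rw [exz_off h1 h2 _ hx]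
      exact (h3 x (by rw [mem_union, mem_compl]; exact Or.inl hx)).symm

/-- the free box of heights as an expectation in the torus -/
theorem hE_eq_ex' {b : ℝ} (hb : 0 ≤ b) {P : ℕ × ℕ} (h1 : P.1 + (N + 1) ≤ n)
    (h2 : P.2 + (N + 1) ≤ n) (G : (Fa N → ℤ) → ℝ) (F : (V n → ℤ) → ℝ)
    (hGF : ∀ h : Fa N → ℤ, G h = F (exz n P h)) :
    hE N b G = ex b (eb P (N + 1)) ((bx P (N + 1))ᶜ ∪ {cnr P}) (fun _ => 0) F := by
  classical
  have hsup : ∀ H : V n → ℤ, wt b (eb P (N + 1)) ((bx P (N + 1))ᶜ ∪ {cnr P}) (fun _ => 0) H ≠ 0 →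
      ∀ x ∈ ((bx P (N + 1) : Finset (V n))ᶜ ∪ {cnr P}), H x = 0 := by
    intro H hH
    by_contra hx
    apply hH
    unfold wt
    rw [if_neg hx, zero_mul, zero_mul]
  unfold TM.H968.hE ex
  congr 1
  · rw [← tsum_exz h1 h2 (fun H => wt b (eb P (N + 1)) ((bx P (N + 1))ᶜ ∪ {cnr P})
      (fun _ => 0) H * F H) fun H hH => hsup H (left_ne_zero_of_mul hH)]
    refine tsum_congr fun h => ?_
    rw [wt_exz hb h1 h2 h.2, hGF]
  · rw [← tsum_exz h1 h2 (fun H => wt b (eb P (N + 1)) ((bx P (N + 1))ᶜ ∪ {cnr P})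
      (fun _ => 0) H) fun H hH => hsup H hH]
    refine tsum_congr fun h => ?_
    rw [wt_exz hb h1 h2 h.2]

/-- the function on the faces of the block, in the torus -/
def uP (n : ℕ) (P : ℕ × ℕ) (f : ℤ × ℤ → ℝ) (x : V n) : ℝ :=
  f ((x.1.val : ℤ) - P.1, (x.2.val : ℤ) - P.2)

/-- summation by parts on the torus -/
lemma pr_nl (u : V n → ℝ) (H : V n → ℤ) :
    pr (H856.nl u) H = ∑ e : V n × Bool, (u (tgt e) - u e.1) * ((H (tgt e) : ℝ) - H e.1) := by
  have key : ∀ a : V n, ∑ x, (u x - u (x - a)) * (H x : ℝ) =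
      ∑ x, (u (x + a) - u x) * (H (x + a) : ℝ) := by
    intro a
    rw [← Equiv.sum_comp (Equiv.addRight a) fun x => (u x - u (x - a)) * (H x : ℝ)]
    refine sum_congr rfl fun x _ => ?_
    simp only [Equiv.coe_addRight, add_sub_cancel_right]
  have e0 : pr (H856.nl u) H = ∑ x, (u x - u (x + (1, 0))) * (H x : ℝ) +
      ∑ x, (u x - u (x - (1, 0))) * (H x : ℝ) + ∑ x, (u x - u (x + (0, 1))) * (H x : ℝ) +
      ∑ x, (u x - u (x - (0, 1))) * (H x : ℝ) := by
    unfold pr H856.nl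
    rw [← sum_add_distrib, ← sum_add_distrib, ← sum_add_distrib]
    exact sum_congr rfl fun x _ => by ring
  have e2 : ∑ e : V n × Bool, (u (tgt e) - u e.1) * ((H (tgt e) : ℝ) - H e.1) =
      ∑ x : V n, ((u (tgt (x, true)) - u x) * ((H (tgt (x, true)) : ℝ) - H x) +
        (u (tgt (x, false)) - u x) * ((H (tgt (x, false)) : ℝ) - H x)) := by
    rw [Fintype.sum_prod_type]
    exact sum_congr rfl fun x _ => Fintype.sum_bool _
  rw [e0, key, key, e2, ← sum_add_distrib, ← sum_add_distrib, ← sum_add_distrib]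
  refine sum_congr rfl fun x _ => ?_
  have t1 : tgt ((x, true) : V n × Bool) = x + (0, 1) := by
    unfold tgt
    simp only [if_true]
    refine Prod.ext ?_ rfl
    simp
  have t2 : tgt ((x, false) : V n × Bool) = x + (1, 0) := by
    unfold tgt
    simp only [Bool.false_eq_true, if_false]
    refine Prod.ext rfl ?_
    simp
  rw [t1, t2]
  ring

lemma uP_ne {P : ℕ × ℕ} {f : ℤ × ℤ → ℝ} (hf : H856.Van N f) {x : V n} (hx : uP n P f x ≠ 0) :
    P.1 < x.1.val ∧ x.1.val < P.1 + N ∧ P.2 < x.2.val ∧ x.2.val < P.2 + N := by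
  by_contra h
  apply hx
  unfold uP
  refine hf _ fun h2 => h ?_
  simp only at h2
  omega

lemma uP_edge {P : ℕ × ℕ} (h1 : P.1 + (N + 1) ≤ n) (h2 : P.2 + (N + 1) ≤ n) {f : ℤ × ℤ → ℝ}
    (hf : H856.Van N f) {e : V n × Bool} (he : e ∉ eb P (N + 1)) :
    uP n P f (tgt e) - uP n P f e.1 = 0 := by
  obtain ⟨x, o⟩ := e
  by_contra hne
  have hor : uP n P f (tgt (x, o)) ≠ 0 ∨ uP n P f x ≠ 0 := by
    by_contra hc
    push Not at hc
    exact hne (by rw [hc.1]; simp [hc.2])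
  apply he
  unfold eb inn bx
  simp only [mem_filter, mem_univ, true_and]
  have hv : ∀ a : ZMod n, a.val + 1 < n ∨ a.val + 1 = n := fun a => by
    have := ZMod.val_lt a
    omega
  have hz : ∀ a : ZMod n, a.val + 1 = n → (a + 1).val = 0 := by
    intro a ha
    have h3 : ((a.val + 1 : ℕ) : ZMod n) = a + 1 := by
      push_cast
      rw [ZMod.natCast_zmod_val]
    rw [← h3, ha]
    simp
  cases o
  · have t2 : tgt ((x, false) : V n × Bool) = (x.1 + 1, x.2) := rfl
    rw [t2] at hor ⊢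
    simp only [Bool.false_eq_true, if_false]
    rcases hor with h | h
    · have h3 := uP_ne hf h
      simp only at h3
      rcases hv x.1 with h4 | h4
      · rw [val_succ_lt h4] at h3 ⊢
        omega
      · rw [hz _ h4] at h3
        omega
    · have h3 := uP_ne hf h
      rw [val_succ_lt (by omega)]
      omega
  · have t2 : tgt ((x, true) : V n × Bool) = (x.1, x.2 + 1) := rfl
    rw [t2] at hor ⊢
    simp only [if_true]
    rcases hor with h | h
    · have h3 := uP_ne hf h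
      simp only at h3
      rcases hv x.2 with h4 | h4
      · rw [val_succ_lt h4] at h3 ⊢
        omega
      · rw [hz _ h4] at h3
        omega
    · have h3 := uP_ne hf h
      rw [val_succ_lt (by omega)]
      omega

lemma uP_emb {P : ℕ × ℕ} (h1 : P.1 + (N + 1) ≤ n) (h2 : P.2 + (N + 1) ≤ n) (f : ℤ × ℤ → ℝ)
    (y : Fa N) : uP n P f (emb n P y) = f ((y.1 : ℕ), (y.2 : ℕ)) := by
  obtain ⟨e1, e2⟩ := emb_val h1 h2 y
  unfold uP
  rw [e1, e2]
  congr 1
  refine Prod.ext ?_ ?_ <;> simp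

/-- the linear functional of the field with stream function `f` -/
lemma lin_eq_pr {P : ℕ × ℕ} (h1 : P.1 + (N + 1) ≤ n) (h2 : P.2 + (N + 1) ≤ n) {f : ℤ × ℤ → ℝ}
    (hf : H856.Van N f) (h : Fa N → ℤ) :
    TM.H968.lin (tE (aS f) (bS f) : Eb N → ℝ) h = pr (H856.nl (uP n P f)) (exz n P h) := by
  classical
  rw [pr_nl]
  have e1 : ∑ e : V n × Bool, (uP n P f (tgt e) - uP n P f e.1) *
      ((exz n P h (tgt e) : ℝ) - exz n P h e.1) = ∑ e ∈ eb P (N + 1),
      (uP n P f (tgt e) - uP n P f e.1) * ((exz n P h (tgt e) : ℝ) - exz n P h e.1) := by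
    symm
    refine sum_subset (subset_univ _) fun e _ he => ?_
    rw [uP_edge h1 h2 hf he, zero_mul]
  rw [e1, eb_eq h1 h2, sum_image fun e _ f _ h => eed_inj h1 h2 h]
  unfold TM.H968.lin
  refine sum_congr rfl fun e _ => ?_
  rw [eed_tgt]
  rcases e with p | p
  · show bS f ((p.1.1 : ℤ) + 1, (p.2.1 : ℤ)) *
      ((h (p.1.castSucc, p.2) - h (p.1.succ, p.2) : ℤ) : ℝ) =
      (uP n P f (emb n P (p.1.succ, p.2)) - uP n P f (emb n P (p.1.castSucc, p.2))) *
      ((exz n P h (emb n P (p.1.succ, p.2)) : ℝ) - exz n P h (emb n P (p.1.castSucc, p.2)))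
    rw [exz_emb h1 h2, exz_emb h1 h2, uP_emb h1 h2, uP_emb h1 h2]
    unfold H856.bS
    simp only [Fin.val_castSucc, Fin.val_succ, Prod.mk_sub_mk, sub_zero, add_sub_cancel_right]
    push_cast
    ring
  · show aS f ((p.1.1 : ℤ), (p.2.1 : ℤ) + 1) *
      ((h (p.1, p.2.succ) - h (p.1, p.2.castSucc) : ℤ) : ℝ) =
      (uP n P f (emb n P (p.1, p.2.succ)) - uP n P f (emb n P (p.1, p.2.castSucc))) *
      ((exz n P h (emb n P (p.1, p.2.succ)) : ℝ) - exz n P h (emb n P (p.1, p.2.castSucc)))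
    rw [exz_emb h1 h2, exz_emb h1 h2, uP_emb h1 h2, uP_emb h1 h2]
    unfold H856.aS
    simp only [Fin.val_castSucc, Fin.val_succ, Prod.mk_sub_mk, sub_zero, add_sub_cancel_right]
    push_cast
    ring

/-- **the wired block of spins is at most the free box inside a torus** -/
theorem blk_le_ex {b : ℝ} (hb : 0 < b) {P : ℕ × ℕ} (h1 : P.1 + (N + 1) ≤ n)
    (h2 : P.2 + (N + 1) ≤ n) {f : ℤ × ℤ → ℝ} (hf : H856.Van N f) :
    H856.qG b (H950.blk 0 (N + 1)) (sF f) ≤
      ex b (eb P (N + 1)) ((bx P (N + 1))ᶜ ∪ {cnr P}) (fun _ => 0)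
        (fun H => pr (H856.nl (uP n P f)) H ^ 2) := by
  have h3 := blk_le_hE (N := N) hb (aS f) (bS f)
    (fun i => by
      unfold H856.aS
      rw [hf _ (by simp), hf _ (by simp), sub_zero])
    (fun i => by
      unfold H856.aS
      rw [hf _ (by simp), hf _ (by simp), sub_zero])
    (fun i => by
      unfold H856.bS
      rw [hf _ (by simp), hf _ (by simp), sub_zero])
    (fun i => by
      unfold H856.bS
      rw [hf _ (by simp), hf _ (by simp), sub_zero])
  have h4 : H856.qG b (H950.blk 0 (N + 1)) (sF f) ≤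
      hE N b (fun h => TM.H968.lin (tE (aS f) (bS f) : Eb N → ℝ) h ^ 2) := h3
  refine h4.trans (le_of_eq ?_)
  exact hE_eq_ex' hb.le h1 h2 _ _ fun h => by rw [lin_eq_pr h1 h2 hf]

end

end Vale.Agent.P159.H340
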