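import Vale.Agent.P159.H340.Lw2
import Vale.Agent.P159.H276.Eta2

/-!
P159 (helper340), LINKW (B), part 3: the torus side (rough modes by the bare bound), and the free
block against the torus with the full mass.
-/

set_option linter.unusedSectionVars false

open Finset

namespace Vale.Agent.P159.H340

open Vale.Agent.P159
open Vale.Agent.P159.TM.H764 (Gh cN sN dt ch EE frm grd hatu)
open Vale.Agent.P159.H37 (Zs wM qf re Gm Pik Ght Ev)
open Vale.Agent.P159.TM.SpecI (V ex pr full)
open Vale.Agent.P159.H963 (Pin Gnh)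
open Vale.Agent.P159.H856 (nl aS bS sF)
open Vale.Agent.P159.H864 (hsq)

noncomputable section

variable {n : ℕ} [NeZero n] {b : ℝ}

/-- **torus side**: lower bounds of the self energy at the smooth momenta only -/
theorem tor_up {t a κ : ℝ} (hb : 0 < b) (ht : 0 < t) (ha : 0 < a) (hκ : 0 < κ)
    (hk : ∀ k : V n, k ≠ 0 → EE k ≤ κ → a * EE k ≤ Pin n b t k) (u : V n → ℝ) :
    qf (Gm (H37.wt n b t)) (nl u) ≤ 1 / a * grd u + b / κ * ∑ x, nl u x ^ 2 := by
  have hTI := H864.ti_Gm_wt (N := n) (b := b) t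
  rw [H864.qf_eq_sum hTI, ← H864.qf_lapM, H864.qf_eq_sum H864.ti_lapM, ← H864.sum_hsq (nl u)]
  have hN : 0 ≤ ((n : ℝ) ^ 2)⁻¹ := by positivity
  have key : ∑ k : V n, H864.sym (Gm (H37.wt n b t)) k * hsq (nl u) k ≤
      ∑ k : V n, (1 / a * (H864.sym H864.lapM k * hsq u k) + b / κ * hsq (nl u) k) := by
    refine sum_le_sum fun k _ => ?_
    rw [H864.sym_lapM, H864.sym_Gm_wt, H856.hsq_nl]
    have hE := TM.H764.EE_nonneg k
    have hs := H864.hsq_nonneg u k
    have hG := H864.Ght_nonneg (N := n) hb.le ht k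
    have h0 : EE k ^ 2 * Ght n b t k ≤ 1 / a * EE k + b / κ * EE k ^ 2 := by
      rcases eq_or_lt_of_le hE with h1 | h1
      · rw [← h1]
        simp
      · have hk0 : k ≠ 0 := by
          intro h
          rw [h] at h1
          have h2 : EE (0 : V n) = 0 := by
            unfold TM.H764.EE
            simp [TM.H764.cN_zero]
          rw [h2] at h1
          exact lt_irrefl _ h1
        have hGn := H963.Ght_le_Gnh (N := n) hb.le ht hk0
        have hP0 := H963.Pin_nonneg (N := n) hb ht hk0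
        have hGi : Gnh n b t k = (t + Pin n b t k)⁻¹ := by
          have h3 : t + Pin n b t k = (Gnh n b t k)⁻¹ := by
            unfold H963.Pin
            ring
          rw [h3, inv_inv]
        have hpos : 0 < t + Pin n b t k := by linarith
        rcases le_or_gt (EE k) κ with h2 | h2
        · have h3 := hk k hk0 h2
          have h4 : Ght n b t k ≤ (a * EE k)⁻¹ := by
            refine hGn.trans ?_
            rw [hGi]
            exact inv_anti₀ (by positivity) (by linarith)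
          have h5 : EE k ^ 2 * Ght n b t k ≤ EE k ^ 2 * (a * EE k)⁻¹ :=
            mul_le_mul_of_nonneg_left h4 (by positivity)
          have h6 : EE k ^ 2 * (a * EE k)⁻¹ = 1 / a * EE k := by
            field_simp
          have h7 : 0 ≤ b / κ * EE k ^ 2 := by positivity
          linarith
        · have h3 := H276.Pin_ge (N := n) hb ht hk0
          have h4 : Ght n b t k ≤ (1 / b * EE k)⁻¹ := by
            refine hGn.trans ?_
            rw [hGi]
            exact inv_anti₀ (by positivity) (by linarith)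
          have h5 : EE k ^ 2 * Ght n b t k ≤ EE k ^ 2 * (1 / b * EE k)⁻¹ :=
            mul_le_mul_of_nonneg_left h4 (by positivity)
          have h6 : EE k ^ 2 * (1 / b * EE k)⁻¹ = b * EE k := by
            field_simp
          have h7 : b * EE k ≤ b / κ * EE k ^ 2 := by
            rw [div_mul_eq_mul_div, le_div_iff₀ hκ]
            have := mul_le_mul_of_nonneg_left h2.le (show 0 ≤ b * EE k by positivity)
            nlinarith
          have h8 : 0 ≤ 1 / a * EE k := by positivity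
          linarith
    have := mul_le_mul_of_nonneg_right h0 hs
    nlinarith
  have h5 := mul_le_mul_of_nonneg_left key hN
  refine h5.trans (le_of_eq ?_)
  rw [sum_add_distrib, ← mul_sum, ← mul_sum]
  ring

/-- **free block against the torus with the full mass**, any neutral functional with support in a
box of side `r` -/
theorem blk_full {b : ℝ} (hb : 0 < b) : ∃ C c : ℝ, 0 < C ∧ 0 < c ∧
    ∀ (n : ℕ) [NeZero n] (K r m L : ℕ) (P q : ℕ × ℕ), 2 ≤ r → 1 ≤ m →
    (2 * m + 1) * r ≤ 2 ^ K → 2 ^ (K + 1) + 1 ≤ n → P.1 + L ≤ n → P.2 + L ≤ n →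
    P.1 + m * r + 1 ≤ q.1 → P.2 + m * r + 1 ≤ q.2 →
    q.1 + r + m * r + 1 ≤ P.1 + L → q.2 + r + m * r + 1 ≤ P.2 + L →
    ∀ t : ℝ, 0 < t → t * 4 ^ K ≤ 1 →
    ∀ (A : ℝ) (g : V n → ℝ), 0 < A → ∑ x, g x = 0 → (∀ x, x ∉ TM.H574.bx q r → g x = 0) →
      (∀ x, |g x| ≤ A / (r : ℝ) ^ 2) →
      ex b (TM.H574.eb P L) ((TM.H574.bx P L)ᶜ ∪ {TM.H574.cnr P}) (fun _ => 0)
          (fun h => pr g h ^ 2) ≤
        qf (Gm (H37.wt n b t)) g + A ^ 2 * (C * ((m : ℝ) ^ (-c) + √(t * 4 ^ K))) := by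
  classical
  obtain ⟨C, c, hC, hc, hT⟩ := blk_good hb.le
  refine ⟨C, c, hC, hc, ?_⟩
  intro n _ K r m L P q hr hm hKr hn hP1 hP2 hq1 hq2 hq3 hq4 t ht ht1 A g hA hg hgs hgb
  have hMl : ∀ u : V n → ℝ, t * ∑ x, u x ^ 2 ≤ qf (t • (1 : Matrix (V n) (V n) ℝ)) u := fun u => by
    rw [H37.qf_smul_one]
  have sM : TM.H574.SQ (H375.mf (t • (1 : Matrix (V n) (V n) ℝ))) :=
    H375.sq_mf (by rw [Matrix.transpose_smul, Matrix.transpose_one]) fun u =>
      le_trans (by positivity) (hMl u)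
  have cM : TM.H574.Coe univ ∅ (H375.mf (t • (1 : Matrix (V n) (V n) ℝ))) :=
    H375.coe_of_full ht fun k => hMl (H37.re k)
  have hMR : ∀ h : V n → ℤ, H375.mf (t • (1 : Matrix (V n) (V n) ℝ)) h +
      (fun _ : V n → ℤ => (0 : ℝ)) h = full t h := fun h => by
    rw [H375.mf_sum, H37.qf_smul_one, H375.full_eq]
    ring
  have hGm : ∀ g : V n → ℝ, qf (Gm (H37.wt n b t)) g =
      ex b univ ∅ (H375.mf (t • (1 : Matrix (V n) (V n) ℝ))) (fun h => pr g h ^ 2) := fun g =>
    H375.qf_Gm_ex hb.le ht hMl g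
  -- scaling
  obtain ⟨g1, hg1⟩ : ∃ g1 : V n → ℝ, g1 = fun x => A⁻¹ * g x := ⟨_, rfl⟩
  have s1 : ∑ x, g1 x = 0 := by
    rw [hg1, ← mul_sum, hg, mul_zero]
  have s2 : ∀ x, x ∉ TM.H574.bx q r → g1 x = 0 := fun x hx => by
    rw [hg1]
    simp only
    rw [hgs x hx, mul_zero]
  have s3 : ∀ x, |g1 x| ≤ 1 / (r : ℝ) ^ 2 := fun x => by
    rw [hg1]
    simp only
    rw [abs_mul, abs_of_pos (inv_pos.2 hA)]
    have := mul_le_mul_of_nonneg_left (hgb x) (inv_pos.2 hA).le
    refine this.trans (le_of_eq ?_)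
    field_simp
  have h1 := hT n K r m L P q hr hm hKr hn hP1 hP2 hq1 hq2 hq3 hq4 t ht.le ht1 g1 s1 s2 s3 _
    (fun _ => 0) sM cM TM.H574.SQ.zero hMR
  have e1 : ∀ h : V n → ℤ, pr g h ^ 2 = A ^ 2 * pr g1 h ^ 2 := by
    intro h
    have : pr g h = A * pr g1 h := by
      unfold TM.SpecI.pr
      rw [mul_sum]
      refine sum_congr rfl fun x _ => ?_
      rw [hg1]
      field_simp
    rw [this]
    ring
  have e2 : ∀ (es : Finset (V n × Bool)) (X : Finset (V n)) (Q : (V n → ℤ) → ℝ),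
      ex b es X Q (fun h => pr g h ^ 2) = A ^ 2 * ex b es X Q (fun h => pr g1 h ^ 2) := by
    intro es X Q
    simp only [e1]
    unfold TM.SpecI.ex
    rw [← mul_div_assoc, ← tsum_mul_left]
    congr 1
    exact tsum_congr fun h => by ring
  rw [hGm, e2, e2]
  have h2 := mul_le_mul_of_nonneg_left h1 (sq_nonneg A)
  nlinarith

end

end Vale.Agent.P159.H340
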