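import Vale.Agent.P159.H340.Lw3

/-!
P159 (helper340), LINKW (B), part 4: stream functions of the block on a larger torus.
-/

set_option linter.unusedSectionVars false

open Finset

namespace Vale.Agent.P159.H340

open Vale.Agent.P159 Vale.Agent.P159.R2.H254
open Vale.Agent.P159.TM.H764 (EE grd)
open Vale.Agent.P159.H37 (qf Gm)
open Vale.Agent.P159.TM.SpecI (V ex pr full tgt)
open Vale.Agent.P159.TM.H574 (eb bx cnr)
open Vale.Agent.P159.H963 (Pin)
open Vale.Agent.P159.H856 (nl aS bS sF Van nG qG HF tu)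
open Vale.Agent.P159.H950 (blk)

noncomputable section

/-- `- Laplacian` on `ℤ²` -/
def lapZ (f : ℤ × ℤ → ℝ) (c : ℤ × ℤ) : ℝ :=
  4 * f c - f (c + (1, 0)) - f (c - (1, 0)) - f (c + (0, 1)) - f (c - (0, 1))

variable {n : ℕ} [NeZero n] {N : ℕ} {b : ℝ}

lemma u_e {f : ℤ × ℤ → ℝ} (hf : Van N f) (hn : N + 1 ≤ n) (x : V n) :
    uP n (0, 0) f (x + (1, 0)) = f ((x.1.val : ℤ) + 1, (x.2.val : ℤ)) ∧
      uP n (0, 0) f (x + (0, 1)) = f ((x.1.val : ℤ), (x.2.val : ℤ) + 1) := by
  have hv : ∀ a : ZMod n, a.val + 1 < n ∨ a.val + 1 = n := fun a => by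
    have := ZMod.val_lt a
    omega
  have hz : ∀ a : ZMod n, a.val + 1 = n → (a + 1).val = 0 := by
    intro a ha
    have h3 : ((a.val + 1 : ℕ) : ZMod n) = a + 1 := by
      push_cast
      rw [ZMod.natCast_zmod_val]
    rw [← h3, ha]
    simp
  have e1 : (x + (1, 0)).1 = x.1 + 1 := rfl
  have e2 : (x + (1, 0)).2 = x.2 := by simp
  have e3 : (x + (0, 1)).1 = x.1 := by simp
  have e4 : (x + (0, 1)).2 = x.2 + 1 := rfl
  constructor
  · unfold uP
    rw [e1, e2]
    rcases hv x.1 with h | h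
    · rw [val_succ_lt h]
      simp
    · rw [hz _ h, hf _ (by simp), hf _ (by
        simp only
        omega)]
  · unfold uP
    rw [e3, e4]
    rcases hv x.2 with h | h
    · rw [val_succ_lt h]
      simp
    · rw [hz _ h, hf _ (by simp), hf _ (by
        simp only
        omega)]

lemma u_s {f : ℤ × ℤ → ℝ} (hf : Van N f) (hn : N + 1 ≤ n) (x : V n) :
    uP n (0, 0) f (x - (1, 0)) = f ((x.1.val : ℤ) - 1, (x.2.val : ℤ)) ∧
      uP n (0, 0) f (x - (0, 1)) = f ((x.1.val : ℤ), (x.2.val : ℤ) - 1) := by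
  have hv : ∀ a : ZMod n, a.val + 1 < n ∨ a.val + 1 = n := fun a => by
    have := ZMod.val_lt a
    omega
  have hz : ∀ a : ZMod n, a.val + 1 = n → (a + 1).val = 0 := by
    intro a ha
    have h3 : ((a.val + 1 : ℕ) : ZMod n) = a + 1 := by
      push_cast
      rw [ZMod.natCast_zmod_val]
    rw [← h3, ha]
    simp
  constructor
  · obtain ⟨y, rfl⟩ : ∃ y : V n, x = y + (1, 0) := ⟨x - (1, 0), (sub_add_cancel _ _).symm⟩
    rw [add_sub_cancel_right]
    have e1 : (y + (1, 0)).1 = y.1 + 1 := rfl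
    have e2 : (y + (1, 0)).2 = y.2 := by simp
    rw [e1, e2]
    unfold uP
    rcases hv y.1 with h | h
    · rw [val_succ_lt h]
      simp
    · rw [hz _ h, hf _ (by
        simp only
        omega), hf _ (by simp)]
  · obtain ⟨y, rfl⟩ : ∃ y : V n, x = y + (0, 1) := ⟨x - (0, 1), (sub_add_cancel _ _).symm⟩
    rw [add_sub_cancel_right]
    have e1 : (y + (0, 1)).1 = y.1 := by simp
    have e2 : (y + (0, 1)).2 = y.2 + 1 := rfl
    rw [e1, e2]
    unfold uP
    rcases hv y.2 with h | h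
    · rw [val_succ_lt h]
      simp
    · rw [hz _ h, hf _ (by
        simp only
        omega), hf _ (by simp)]

/-- the Laplacian on the torus -/
lemma nl_uP {f : ℤ × ℤ → ℝ} (hf : Van N f) (hn : N + 1 ≤ n) (x : V n) :
    nl (uP n (0, 0) f) x = lapZ f ((x.1.val : ℤ), (x.2.val : ℤ)) := by
  obtain ⟨h1, h2⟩ := u_e hf hn x
  obtain ⟨h3, h4⟩ := u_s hf hn x
  unfold H856.nl lapZ
  rw [h1, h2, h3, h4]
  have h0 : uP n (0, 0) f x = f ((x.1.val : ℤ), (x.2.val : ℤ)) := by
    unfold uP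
    simp
  rw [h0]
  simp only [Prod.mk_add_mk, Prod.mk_sub_mk, add_zero, sub_zero]
  ring

lemma sum_nl_sq {f : ℤ × ℤ → ℝ} (hf : Van N f) (hn : N + 1 ≤ n) {B : ℝ}
    (hB : ∀ R : Finset (ℤ × ℤ), ∑ c ∈ R, lapZ f c ^ 2 ≤ B) :
    ∑ x, nl (uP n (0, 0) f) x ^ 2 ≤ B := by
  classical
  have hinj : Function.Injective fun x : V n => (((x.1.val : ℤ), (x.2.val : ℤ)) : ℤ × ℤ) := by
    intro x y h
    have h1 := congrArg Prod.fst h
    have h2 := congrArg Prod.snd h
    simp only [Nat.cast_inj] at h1 h2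
    exact Prod.ext (ZMod.val_injective n h1) (ZMod.val_injective n h2)
  have h1 := hB (univ.image fun x : V n => (((x.1.val : ℤ), (x.2.val : ℤ)) : ℤ × ℤ))
  rw [sum_image fun x _ y _ h => hinj h] at h1
  refine le_trans (le_of_eq (sum_congr rfl fun x _ => ?_)) h1
  rw [nl_uP hf hn]

lemma nl_sum_zero (u : V n → ℝ) : ∑ x, nl u x = 0 := by
  have h1 := pr_nl u fun _ => 1
  have h2 : pr (nl u) (fun _ => 1) = ∑ x, nl u x := by
    unfold TM.SpecI.pr
    exact sum_congr rfl fun x _ => by push_cast; ring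
  rw [← h2, h1]
  exact sum_eq_zero fun e _ => by push_cast; ring

/-- the Dirichlet energy on the torus, by bonds -/
lemma grd_bonds {f : ℤ × ℤ → ℝ} (hf : Van N f) (hn : N + 1 ≤ n) :
    grd (uP n (0, 0) f) = ∑ e : Eb N, (tE (aS f) (bS f) e) ^ 2 := by
  classical
  have h1 : ((0, 0) : ℕ × ℕ).1 + (N + 1) ≤ n := by simpa using hn
  have h2 : ((0, 0) : ℕ × ℕ).2 + (N + 1) ≤ n := by simpa using hn
  set u := uP n (0, 0) f with hu
  have e0 : grd u = ∑ e : V n × Bool, (u (tgt e) - u e.1) ^ 2 := by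
    have e2 : ∑ e : V n × Bool, (u (tgt e) - u e.1) ^ 2 =
        ∑ x : V n, ((u (tgt (x, true)) - u x) ^ 2 + (u (tgt (x, false)) - u x) ^ 2) := by
      rw [Fintype.sum_prod_type]
      exact sum_congr rfl fun x _ => Fintype.sum_bool _
    rw [e2, sum_add_distrib]
    have t1 : ∀ x : V n, tgt ((x, true) : V n × Bool) = x + (0, 1) := by
      intro x
      unfold TM.SpecI.tgt
      simp only [if_true]
      refine Prod.ext ?_ rfl
      simp
    have t2 : ∀ x : V n, tgt ((x, false) : V n × Bool) = x + (1, 0) := by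
      intro x
      unfold TM.SpecI.tgt
      simp only [Bool.false_eq_true, if_false]
      refine Prod.ext rfl ?_
      simp
    simp only [t1, t2]
    unfold TM.H764.grd TM.H764.Q
    rw [add_comm]
  have e1 : ∑ e : V n × Bool, (u (tgt e) - u e.1) ^ 2 =
      ∑ e ∈ eb (0, 0) (N + 1), (u (tgt e) - u e.1) ^ 2 := by
    symm
    refine sum_subset (subset_univ _) fun e _ he => ?_
    rw [hu, uP_edge h1 h2 hf he]
    norm_num
  rw [e0, e1, eb_eq h1 h2, sum_image fun e _ f _ h => eed_inj h1 h2 h]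
  refine sum_congr rfl fun e _ => ?_
  rw [eed_tgt]
  rcases e with p | p
  · show (uP n (0, 0) f (emb n (0, 0) (p.1.succ, p.2)) -
        uP n (0, 0) f (emb n (0, 0) (p.1.castSucc, p.2))) ^ 2 =
      (bS f ((p.1.1 : ℤ) + 1, (p.2.1 : ℤ))) ^ 2
    rw [uP_emb h1 h2, uP_emb h1 h2]
    unfold H856.bS
    simp only [Fin.val_castSucc, Fin.val_succ, Prod.mk_sub_mk, sub_zero, add_sub_cancel_right]
    push_cast
    ring
  · show (uP n (0, 0) f (emb n (0, 0) (p.1, p.2.succ)) -
        uP n (0, 0) f (emb n (0, 0) (p.1, p.2.castSucc))) ^ 2 =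
      (aS f ((p.1.1 : ℤ), (p.2.1 : ℤ) + 1)) ^ 2
    rw [uP_emb h1 h2, uP_emb h1 h2]
    unfold H856.aS
    simp only [Fin.val_castSucc, Fin.val_succ, Prod.mk_sub_mk, sub_zero, add_sub_cancel_right]
    push_cast
    ring

/-- the Dirichlet energy on any larger torus is half of the norm of the field -/
lemma grd_uP {f : ℤ × ℤ → ℝ} (hf : Van N f) (hn : N + 1 ≤ n) :
    grd (uP n (0, 0) f) = nG (blk 0 (N + 1)) (sF f) / 2 := by
  have h1 := grd_bonds (n := n) hf hn
  have h2 := grd_bonds (n := N + 1) hf le_rfl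
  have h3 : uP (N + 1) (0, 0) f = tu N f := by
    funext x
    unfold uP H856.tu
    simp
  rw [h3] at h2
  rw [H856.nG_tu hf, h1, h2]
  ring

end

end Vale.Agent.P159.H340
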