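import Vale.Agent.P159.H340.Lw4

/-!
P159 (helper340), LINKW (B), part 5: the wired block on a smooth field and on a field close to a
smooth field.
-/

set_option linter.unusedSectionVars false

open Finset

namespace Vale.Agent.P159.H340

open Vale.Agent.P159 Vale.Agent.P159.R2.H254
open Vale.Agent.P159.TM.H764 (EE grd)
open Vale.Agent.P159.H37 (qf Gm)
open Vale.Agent.P159.TM.SpecI (V ex pr full tgt)
open Vale.Agent.P159.TM.H574 (eb bx cnr)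
open Vale.Agent.P159.H963 (Pin)
open Vale.Agent.P159.H856 (nl aS bS sF Van nG qG HF)
open Vale.Agent.P159.H950 (blk)

noncomputable section

/-- smooth approximation `fs` (scale `s`) of a stream function `F` of slope one with support in a
box of half side `2 p` -/
structure Sm (C : ℝ) (x0 y0 : ℤ) (p s : ℕ) (F fs : ℤ × ℤ → ℝ) : Prop where
  sup : ∀ c, fs c ≠ 0 → (x0 - 2 * p < c.1 ∧ c.1 + 1 < x0 + 2 * p) ∧
    (y0 - 2 * p < c.2 ∧ c.2 + 1 < y0 + 2 * p)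
  lap : ∀ c, |lapZ fs c| ≤ C / s
  lapS : ∀ R : Finset (ℤ × ℤ), ∑ c ∈ R, lapZ fs c ^ 2 ≤ C * p / s
  dif : ∀ R : Finset (ℤ × ℤ), nG R (sF F - sF fs) ≤ C * p * s
  jen : ∀ N : ℕ, 2 * (p : ℤ) ≤ x0 → x0 + 2 * p ≤ N → 2 * (p : ℤ) ≤ y0 → y0 + 2 * p ≤ N →
    nG (blk 0 (N + 1)) (sF fs) ≤ nG (blk 0 (N + 1)) (sF F)

/-- **smooth fields**: the wired block against ONE local functional of the torus -/
theorem lw_smooth0 {b : ℝ} (hb : 0 < b) : ∃ C c : ℝ, 0 < C ∧ 0 < c ∧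
    ∀ (n : ℕ) [NeZero n] (K m N p : ℕ) (x0 y0 : ℤ), 1 ≤ m → 1 ≤ p →
    (2 * m + 1) * (4 * p) ≤ 2 ^ K → 2 ^ (K + 1) + 1 ≤ n → N + 1 ≤ n →
    ((m * (4 * p) : ℕ) : ℤ) + 1 + 2 * p ≤ x0 → x0 + 2 * p + ((m * (4 * p) : ℕ) : ℤ) ≤ N →
    ((m * (4 * p) : ℕ) : ℤ) + 1 + 2 * p ≤ y0 → y0 + 2 * p + ((m * (4 * p) : ℕ) : ℤ) ≤ N →
    ∀ t : ℝ, 0 < t → t * 4 ^ K ≤ 1 → ∀ (B : ℝ) (f : ℤ × ℤ → ℝ), 0 < B →
    (∀ c, f c ≠ 0 → (x0 - 2 * p < c.1 ∧ c.1 + 1 < x0 + 2 * p) ∧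
      (y0 - 2 * p < c.2 ∧ c.2 + 1 < y0 + 2 * p)) →
    (∀ c, |lapZ f c| ≤ B) →
    Van N f ∧ qG b (blk 0 (N + 1)) (sF f) ≤ qf (Gm (H37.wt n b t)) (nl (uP n (0, 0) f)) +
      B ^ 2 * (p : ℝ) ^ 4 * (C * ((m : ℝ) ^ (-c) + √(t * 4 ^ K))) := by
  classical
  obtain ⟨C, c, hC, hc, hT⟩ := blk_full hb
  refine ⟨256 * C, c, by positivity, hc, ?_⟩
  intro n _ K m N p x0 y0 hm hp hK hn hN hx1 hx2 hy1 hy2 t ht ht1 B f hB hf hl
  have hvan : Van N f := by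
    intro c hc0
    by_contra h
    have h1 := hf c h
    apply hc0
    generalize m * (4 * p) = mr at *
    omega
  refine ⟨hvan, ?_⟩
  have hpz : (0 : ℤ) < p := by exact_mod_cast hp
  obtain ⟨q1, hq1⟩ : ∃ q1 : ℕ, (q1 : ℤ) = x0 - 2 * p := ⟨(x0 - 2 * p).toNat, by
    rw [Int.toNat_of_nonneg]
    generalize m * (4 * p) = mr at *
    omega⟩
  obtain ⟨q2, hq2⟩ : ∃ q2 : ℕ, (q2 : ℤ) = y0 - 2 * p := ⟨(y0 - 2 * p).toNat, by
    rw [Int.toNat_of_nonneg]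
    generalize m * (4 * p) = mr at *
    omega⟩
  have g0 : ∑ x, nl (uP n (0, 0) f) x = 0 := nl_sum_zero _
  have gs : ∀ x : V n, x ∉ bx (q1, q2) (4 * p) → nl (uP n (0, 0) f) x = 0 := by
    intro x hx
    rw [nl_uP hvan hN]
    by_contra hne
    apply hx
    unfold TM.H574.bx
    rw [mem_filter]
    refine ⟨mem_univ _, ?_⟩
    have h5 : f ((x.1.val : ℤ), (x.2.val : ℤ)) ≠ 0 ∨
        f (((x.1.val : ℤ), (x.2.val : ℤ)) + (1, 0)) ≠ 0 ∨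
        f (((x.1.val : ℤ), (x.2.val : ℤ)) - (1, 0)) ≠ 0 ∨
        f (((x.1.val : ℤ), (x.2.val : ℤ)) + (0, 1)) ≠ 0 ∨
        f (((x.1.val : ℤ), (x.2.val : ℤ)) - (0, 1)) ≠ 0 := by
      by_contra hc0
      push Not at hc0
      obtain ⟨a1, a2, a3, a4, a5⟩ := hc0
      apply hne
      unfold lapZ
      rw [a1, a2, a3, a4, a5]
      ring
    simp only
    rcases h5 with h | h | h | h | h
    all_goals
      have h6 := hf _ h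
      simp only [Prod.mk_add_mk, Prod.mk_sub_mk, add_zero, sub_zero] at h6
      omega
  have hp0 : (0 : ℝ) < p := by exact_mod_cast hp
  have gb : ∀ x : V n, |nl (uP n (0, 0) f) x| ≤ (16 * (p : ℝ) ^ 2 * B) /
      ((4 * p : ℕ) : ℝ) ^ 2 := by
    intro x
    rw [nl_uP hvan hN]
    refine (hl _).trans (le_of_eq ?_)
    push_cast
    field_simp
    ring
  have h1 := hT n K (4 * p) m (N + 1) (0, 0) (q1, q2) (by omega) hm hK hn (by simpa using hN)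
    (by simpa using hN) (by
      simp only
      generalize m * (4 * p) = mr at *
      omega) (by
      simp only
      generalize m * (4 * p) = mr at *
      omega) (by
      simp only
      generalize m * (4 * p) = mr at *
      omega) (by
      simp only
      generalize m * (4 * p) = mr at *
      omega) t ht ht1 (16 * (p : ℝ) ^ 2 * B) (nl (uP n (0, 0) f)) (by positivity) g0 gs gb
  have h2 := blk_le_ex (n := n) (N := N) hb (P := (0, 0)) (by simpa using hN) (by simpa using hN)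
    hvan
  have h5 : (16 * (p : ℝ) ^ 2 * B) ^ 2 * (C * ((m : ℝ) ^ (-c) + √(t * 4 ^ K))) =
      B ^ 2 * (p : ℝ) ^ 4 * (256 * C * ((m : ℝ) ^ (-c) + √(t * 4 ^ K))) := by ring
  rw [h5] at h1
  linarith

/-- **smooth fields** -/
theorem lw_smooth {b : ℝ} (hb : 0 < b) : ∃ C c : ℝ, 0 < C ∧ 0 < c ∧
    ∀ (n : ℕ) [NeZero n] (K m N p : ℕ) (x0 y0 : ℤ), 1 ≤ m → 1 ≤ p →
    (2 * m + 1) * (4 * p) ≤ 2 ^ K → 2 ^ (K + 1) + 1 ≤ n → N + 1 ≤ n →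
    ((m * (4 * p) : ℕ) : ℤ) + 1 + 2 * p ≤ x0 → x0 + 2 * p + ((m * (4 * p) : ℕ) : ℤ) ≤ N →
    ((m * (4 * p) : ℕ) : ℤ) + 1 + 2 * p ≤ y0 → y0 + 2 * p + ((m * (4 * p) : ℕ) : ℤ) ≤ N →
    ∀ t : ℝ, 0 < t → t * 4 ^ K ≤ 1 → ∀ a κ : ℝ, 0 < a → 0 < κ →
    (∀ k : V n, k ≠ 0 → EE k ≤ κ → a * EE k ≤ Pin n b t k) →
    ∀ (B B2 : ℝ) (f : ℤ × ℤ → ℝ), 0 < B →
    (∀ c, f c ≠ 0 → (x0 - 2 * p < c.1 ∧ c.1 + 1 < x0 + 2 * p) ∧
      (y0 - 2 * p < c.2 ∧ c.2 + 1 < y0 + 2 * p)) →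
    (∀ c, |lapZ f c| ≤ B) → (∀ R : Finset (ℤ × ℤ), ∑ c ∈ R, lapZ f c ^ 2 ≤ B2) →
    qG b (blk 0 (N + 1)) (sF f) ≤ 1 / a * (nG (blk 0 (N + 1)) (sF f) / 2) + b / κ * B2 +
      B ^ 2 * (p : ℝ) ^ 4 * (C * ((m : ℝ) ^ (-c) + √(t * 4 ^ K))) := by
  obtain ⟨C, c, hC, hc, hT⟩ := lw_smooth0 hb
  refine ⟨C, c, hC, hc, ?_⟩
  intro n _ K m N p x0 y0 hm hp hK hn hN hx1 hx2 hy1 hy2 t ht ht1 a κ ha hκ hk B B2 f hB hf hl hl2
  obtain ⟨hvan, h1⟩ := hT n K m N p x0 y0 hm hp hK hn hN hx1 hx2 hy1 hy2 t ht ht1 B f hB hf hl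
  have h3 := tor_up hb ht ha hκ hk (uP n (0, 0) f)
  rw [grd_uP hvan hN] at h3
  have h4 := mul_le_mul_of_nonneg_left (sum_nl_sq hvan hN hl2) (show 0 ≤ b / κ by positivity)
  linarith

/-- arithmetic of `lw_of` -/
theorem lw_arith {b C1 C η a nF nS P2 X Y Q Qs Qd : ℝ} (hb : 0 < b) (hC1 : 0 < C1) (hC : 0 < C)
    (ha : 0 < a) (hη0 : 0 < η) (hη1 : η ≤ 1) (hnF : 0 ≤ nF) (hP2 : 0 ≤ P2) (hX : 0 ≤ X)
    (hY : 0 ≤ Y) (hab : 1 / a ≤ b) (h2 : Qs ≤ 1 / a * (nS / 2) + b * C1 * X + C1 ^ 2 * C * Y)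
    (h3 : nS ≤ nF) (h1 : Q ≤ (1 + η) * Qs + (1 + 1 / η) * Qd)
    (h4 : (1 + 1 / η) * Qd ≤ b * C1 * (η * P2)) :
    Q ≤ 1 / a * (nF / 2) + (b + 2 * b * C1 + 2 * C1 ^ 2 * C) *
      (η * (nF / 2 + P2) + (X + Y)) := by
  have ha' : 0 < 1 / a := by positivity
  generalize 1 / a = α at *
  have e1 : α * (nS / 2) ≤ α * (nF / 2) := by gcongr
  have e2 : Qs ≤ α * (nF / 2) + (b * C1 * X + C1 ^ 2 * C * Y) := by linarith
  have e3 := mul_le_mul_of_nonneg_left e2 (show 0 ≤ 1 + η by positivity)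
  have f0 : 0 ≤ b * C1 * X + C1 ^ 2 * C * Y := by positivity
  have e4 : η * (b * C1 * X + C1 ^ 2 * C * Y) ≤ 1 * (b * C1 * X + C1 ^ 2 * C * Y) :=
    mul_le_mul_of_nonneg_right hη1 f0
  have e5 : α * (η * (nF / 2)) ≤ b * (η * (nF / 2)) :=
    mul_le_mul_of_nonneg_right hab (by positivity)
  have t1 : 0 ≤ b * (X + Y) := by positivity
  have t2 : 0 ≤ (2 * b * C1 + 2 * C1 ^ 2 * C) * (η * (nF / 2)) := by positivity
  have t3 : 0 ≤ (b + b * C1 + 2 * C1 ^ 2 * C) * (η * P2) := by positivity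
  have t4 : 0 ≤ 2 * b * C1 * Y := by positivity
  have t5 : 0 ≤ 2 * C1 ^ 2 * C * X := by positivity
  linarith

/-- arithmetic of the rough part -/
theorem lw_arith2 {b C1 η p s : ℝ} (hb : 0 < b) (hC1 : 0 < C1) (hη0 : 0 < η) (hη1 : η ≤ 1)
    (hp : 0 < p) (hs : s = η ^ 2 * p) :
    (1 + 1 / η) * (b / 2 * (C1 * p * s)) ≤ b * C1 * (η * p ^ 2) := by
  have e1 : 1 + 1 / η ≤ 2 / η := by
    rw [show (2 : ℝ) / η = 1 / η + 1 / η by ring]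
    have : 1 ≤ 1 / η := by
      rw [le_div_iff₀ hη0]
      linarith
    linarith
  have hs0 : 0 ≤ s := by rw [hs]; positivity
  have e2 : (1 + 1 / η) * (b / 2 * (C1 * p * s)) ≤ 2 / η * (b / 2 * (C1 * p * s)) :=
    mul_le_mul_of_nonneg_right e1 (by positivity)
  refine e2.trans (le_of_eq ?_)
  rw [hs]
  field_simp

theorem lw_arith3 {b C1 C κ p s E : ℝ} (hκ : 0 < κ) (hp : 0 < p) (hs : 0 < s) :
    b / κ * (C1 * p / s) = b * C1 * (p ^ 2 * (1 / (κ * p * s))) ∧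
      (C1 / s) ^ 2 * p ^ 4 * (C * E) = C1 ^ 2 * C * (p ^ 2 * ((p / s) ^ 2 * E)) := by
  constructor <;> field_simp

/-- **fields close to a smooth field** -/
theorem lw_of {b : ℝ} (hb : 0 < b) {C1 : ℝ} (hC1 : 0 < C1) : ∃ C c : ℝ, 0 < C ∧ 0 < c ∧
    ∀ (n : ℕ) [NeZero n] (K m N p s : ℕ) (x0 y0 : ℤ), 1 ≤ m → 1 ≤ s → s ≤ p →
    (2 * m + 1) * (4 * p) ≤ 2 ^ K → 2 ^ (K + 1) + 1 ≤ n → N + 1 ≤ n →
    ((m * (4 * p) : ℕ) : ℤ) + 1 + 2 * p ≤ x0 → x0 + 2 * p + ((m * (4 * p) : ℕ) : ℤ) ≤ N →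
    ((m * (4 * p) : ℕ) : ℤ) + 1 + 2 * p ≤ y0 → y0 + 2 * p + ((m * (4 * p) : ℕ) : ℤ) ≤ N →
    ∀ t : ℝ, 0 < t → t * 4 ^ K ≤ 1 → ∀ a κ : ℝ, 0 < a → 0 < κ →
    (∀ k : V n, k ≠ 0 → EE k ≤ κ → a * EE k ≤ Pin n b t k) →
    ∀ F fs : ℤ × ℤ → ℝ, Sm C1 x0 y0 p s F fs →
    qG b (blk 0 (N + 1)) (sF F) ≤ 1 / a * (nG (blk 0 (N + 1)) (sF F) / 2) +
      C * (√(s / p) * (nG (blk 0 (N + 1)) (sF F) / 2 + (p : ℝ) ^ 2) + (p : ℝ) ^ 2 *
        (1 / (κ * p * s) + ((p : ℝ) / s) ^ 2 * ((m : ℝ) ^ (-c) + √(t * 4 ^ K)))) := by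
  obtain ⟨C, c, hC, hc, hT⟩ := lw_smooth hb
  refine ⟨b + 2 * b * C1 + 2 * C1 ^ 2 * C, c, by positivity, hc, ?_⟩
  intro n _ K m N p s x0 y0 hm hs hsp hK hn hN hx1 hx2 hy1 hy2 t ht ht1 a κ ha hκ hk F fs hS
  have hp : 1 ≤ p := hs.trans hsp
  have hs0 : (0 : ℝ) < s := by exact_mod_cast hs
  have hp0 : (0 : ℝ) < p := by exact_mod_cast hp
  have hsp' : (s : ℝ) ≤ p := by exact_mod_cast hsp
  have hnF0 : 0 ≤ nG (blk 0 (N + 1)) (sF F) := H856.nG_nonneg _ _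
  have hE0 : 0 ≤ (m : ℝ) ^ (-c) + √(t * 4 ^ K) := by
    have := Real.rpow_nonneg (Nat.cast_nonneg (α := ℝ) m) (-c)
    have := Real.sqrt_nonneg (t * 4 ^ K)
    linarith
  obtain ⟨η, hη⟩ : ∃ η, η = √((s : ℝ) / p) := ⟨_, rfl⟩
  have hη0 : 0 < η := by rw [hη]; exact Real.sqrt_pos.2 (by positivity)
  have hη2 : η ^ 2 = s / p := by rw [hη]; exact Real.sq_sqrt (by positivity)
  have hη1 : η ≤ 1 := by
    rw [hη]
    refine Real.sqrt_le_one.2 ?_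
    rw [div_le_one hp0]
    exact hsp'
  rw [← hη, mul_add ((p : ℝ) ^ 2) (1 / (κ * p * s))]
  have hX0 : 0 ≤ (p : ℝ) ^ 2 * (1 / (κ * p * s)) := by positivity
  have hY0 : 0 ≤ (p : ℝ) ^ 2 * (((p : ℝ) / s) ^ 2 * ((m : ℝ) ^ (-c) + √(t * 4 ^ K))) := by
    positivity
  rcases le_or_gt (1 / a) b with hab | hab
  · -- the main case
    have hdec : sF F = sF fs + (sF F - sF fs) := by abel
    have h1 := H856.qG_add_le hb.le (blk 0 (N + 1)) (sF fs) (sF F - sF fs) hη0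
    rw [← hdec] at h1
    have h2 := hT n K m N p x0 y0 hm hp hK hn hN hx1 hx2 hy1 hy2 t ht ht1 a κ ha hκ hk (C1 / s)
      (C1 * p / s) fs (by positivity) hS.sup hS.lap hS.lapS
    have h3 := hS.jen N (by
      generalize m * (4 * p) = mr at *
      omega) (by
      generalize m * (4 * p) = mr at *
      omega) (by
      generalize m * (4 * p) = mr at *
      omega) (by
      generalize m * (4 * p) = mr at *
      omega)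
    have h4 := (H856.qG_le hb.le (blk 0 (N + 1)) (sF F - sF fs)).trans
      (mul_le_mul_of_nonneg_left (hS.dif (blk 0 (N + 1))) (by positivity))
    obtain ⟨e1, e2⟩ := lw_arith3 (b := b) (C1 := C1) (C := C)
      (E := (m : ℝ) ^ (-c) + √(t * 4 ^ K)) hκ hp0 hs0
    rw [e1, e2] at h2
    have e3 : (s : ℝ) = η ^ 2 * p := by
      rw [hη2, div_mul_cancel₀ _ hp0.ne']
    have h7 := lw_arith2 hb hC1 hη0 hη1 hp0 e3
    have h8 := (mul_le_mul_of_nonneg_left h4 (show 0 ≤ 1 + 1 / η by positivity)).trans h7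
    exact lw_arith hb hC1 hC ha hη0 hη1 hnF0 (sq_nonneg _) hX0 hY0 hab h2 h3 h1 h8
  · -- the trivial case
    have h1 := H856.qG_le hb.le (blk 0 (N + 1)) (sF F)
    generalize nG (blk 0 (N + 1)) (sF F) = nF at *
    generalize (p : ℝ) ^ 2 * (1 / (κ * p * s)) = X at *
    generalize (p : ℝ) ^ 2 * (((p : ℝ) / s) ^ 2 * ((m : ℝ) ^ (-c) + √(t * 4 ^ K))) = Y at *
    have h2 : b * (nF / 2) ≤ 1 / a * (nF / 2) :=
      mul_le_mul_of_nonneg_right hab.le (by positivity)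
    have h3 : 0 ≤ (b + 2 * b * C1 + 2 * C1 ^ 2 * C) *
        (η * (nF / 2 + (p : ℝ) ^ 2) + (X + Y)) := by positivity
    linarith

end

end Vale.Agent.P159.H340
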