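import Vale.Agent.P159.H340.Lw5
import Vale.Agent.P159.H859.Smo3
import Vale.Agent.P159.H856.Pf5

/-!
P159 (helper340), LINKW (B), part 6: **the wired block on the pyramid against the torus** and the
combination with the finite size pyramid inequality of helper856: the stiffness of the large wired
block is at most the inverse slope of the torus at smooth momenta, with power law errors.
-/

set_option linter.unusedSectionVars false

open Finset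

namespace Vale.Agent.P159.H340

open Vale.Agent.P159 Vale.Agent.P159.R2.H254
open Vale.Agent.P159.TM.H764 (EE grd)
open Vale.Agent.P159.TM.SpecI (V)
open Vale.Agent.P159.H963 (Pin)
open Vale.Agent.P159.H856 (nl aS bS sF Van nG qG HF pyr)
open Vale.Agent.P159.H950 (blk)

noncomputable section

lemma lapz_eq (f : ℤ × ℤ → ℝ) (c : ℤ × ℤ) : H859.lapz f c = lapZ f c := by
  rw [H859.lapz_def]
  rfl

/-- the smoothed pyramid in the letters of part 5 -/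
theorem sm_pyr (x0 y0 : ℤ) {p s : ℕ} (hs : 1 ≤ s) (hsp : s ≤ p) :
    ∃ fs : ℤ × ℤ → ℝ, Sm 128 x0 y0 p s (H859.pf x0 y0 p) fs := by
  obtain ⟨fs, h1, h2, h3, h4, h5, -⟩ := H859.smo x0 y0 hs hsp
  have hs0 : (0 : ℝ) < s := by exact_mod_cast hs
  refine ⟨fs, ⟨fun c hc => ?_, fun c => ?_, fun R => ?_, fun R => ?_, fun N g1 g2 g3 g4 => ?_⟩⟩
  · have := h1 c hc
    omega
  · rw [← lapz_eq]
    refine (h2 c).trans ?_
    gcongr
    norm_num
  · refine le_trans (le_of_eq ?_) (h3 R)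
    exact sum_congr rfl fun c _ => by rw [lapz_eq]
  · have e : sF (H859.pf x0 y0 p) - sF fs = sF fun c => H859.pf x0 y0 p c - fs c := by
      funext t z
      rw [H859.sF_sub]
      rfl
    rw [e]
    exact h4 R
  · have h6 := h5 (blk 0 (N + 1)) fun c k1 k2 k3 k4 => by
      rw [H950.mem_blk]
      simp only [Prod.fst_zero, Prod.snd_zero]
      push_cast
      omega
    rwa [H859.pyr_sF x0 y0 (p : ℤ) (by positivity)] at h6

/-- **LINKW (B)** -/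
theorem lw_B {b : ℝ} (hb : 0 < b) : ∃ C c : ℝ, 0 < C ∧ 0 < c ∧
    ∀ (n : ℕ) [NeZero n] (K m N p s : ℕ) (x0 y0 : ℤ), 1 ≤ m → 1 ≤ s → s ≤ p → 2 ≤ p →
    (2 * m + 1) * (4 * p) ≤ 2 ^ K → 2 ^ (K + 1) + 1 ≤ n → N + 1 ≤ n →
    ((m * (4 * p) : ℕ) : ℤ) + 1 + 2 * p ≤ x0 → x0 + 2 * p + ((m * (4 * p) : ℕ) : ℤ) ≤ N →
    ((m * (4 * p) : ℕ) : ℤ) + 1 + 2 * p ≤ y0 → y0 + 2 * p + ((m * (4 * p) : ℕ) : ℤ) ≤ N →
    ∀ t : ℝ, 0 < t → t * 4 ^ K ≤ 1 → ∀ a κ : ℝ, 0 < a → 0 < κ →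
    (∀ k : V n, k ≠ 0 → EE k ≤ κ → a * EE k ≤ Pin n b t k) →
    qG b (blk 0 (N + 1)) (pyr x0 y0 p) ≤ (1 / a + C * (√(s / p) + (1 / (κ * p * s) +
      ((p : ℝ) / s) ^ 2 * ((m : ℝ) ^ (-c) + √(t * 4 ^ K))))) *
      (nG (blk 0 (N + 1)) (pyr x0 y0 p) / 2) := by
  obtain ⟨C, c, hC, hc, hT⟩ := lw_of hb (C1 := 128) (by norm_num)
  refine ⟨9 * C, c, by positivity, hc, ?_⟩
  intro n _ K m N p s x0 y0 hm hs hsp hp2 hK hn hN hx1 hx2 hy1 hy2 t ht ht1 a κ ha hκ hk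
  have hs0 : (0 : ℝ) < s := by exact_mod_cast hs
  have hp0 : (0 : ℝ) < p := by exact_mod_cast hs.trans hsp
  obtain ⟨fs, hfs⟩ := sm_pyr x0 y0 hs hsp
  have h1 := hT n K m N p s x0 y0 hm hs hsp hK hn hN hx1 hx2 hy1 hy2 t ht ht1 a κ ha hκ hk _ fs hfs
  rw [← H859.pyr_sF x0 y0 (p : ℤ) (by positivity)] at h1
  have h2 := (H859.nG_pyr (R := blk 0 (N + 1)) (x0 := x0) (y0 := y0) (p := (p : ℤ)) (by omega)
    fun c k1 k2 k3 k4 => by
      rw [H950.mem_blk]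
      simp only [Prod.fst_zero, Prod.snd_zero]
      push_cast
      generalize m * (4 * p) = mr at *
      omega).2.1
  have hp2' : (2 : ℝ) ≤ p := by exact_mod_cast hp2
  have h3 : (p : ℝ) ^ 2 ≤ 8 * (nG (blk 0 (N + 1)) (pyr x0 y0 p) / 2) := by
    push_cast at h2
    nlinarith
  have hE0 : 0 ≤ 1 / (κ * p * s) + ((p : ℝ) / s) ^ 2 * ((m : ℝ) ^ (-c) + √(t * 4 ^ K)) := by
    have := Real.rpow_nonneg (Nat.cast_nonneg (α := ℝ) m) (-c)
    have := Real.sqrt_nonneg (t * 4 ^ K)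
    positivity
  have hη0 := Real.sqrt_nonneg ((s : ℝ) / p)
  have hX0 : 0 ≤ nG (blk 0 (N + 1)) (pyr x0 y0 p) / 2 :=
    div_nonneg (H856.nG_nonneg _ _) (by norm_num)
  generalize nG (blk 0 (N + 1)) (pyr x0 y0 p) / 2 = X at *
  generalize qG b (blk 0 (N + 1)) (pyr x0 y0 p) = Q at *
  generalize 1 / (κ * p * s) + ((p : ℝ) / s) ^ 2 * ((m : ℝ) ^ (-c) + √(t * 4 ^ K)) = W at *
  generalize √((s : ℝ) / p) = η at *
  generalize (p : ℝ) ^ 2 = P2 at *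
  have e1 : η * (X + P2) ≤ η * (9 * X) := mul_le_mul_of_nonneg_left (by linarith) hη0
  have e2 : P2 * W ≤ 8 * X * W := mul_le_mul_of_nonneg_right h3 hE0
  have e3 : C * (η * (X + P2) + P2 * W) ≤ C * (η * (9 * X) + 8 * X * W) :=
    mul_le_mul_of_nonneg_left (by linarith) hC.le
  have e4 : 0 ≤ C * (X * W) := by positivity
  have e5 : (1 / a + 9 * C * (η + W)) * X = 1 / a * X + C * (η * (9 * X) + 8 * X * W) +
      C * (X * W) := by ring
  rw [e5]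
  linarith

/-- **LINKW (A) + (B)**: the stiffness of a large wired block is at most the inverse slope of ONE
torus at smooth momenta -/
theorem lw_AB {b : ℝ} (hb : 0 < b) : ∃ C c : ℝ, 0 < C ∧ 0 < c ∧
    ∀ (n : ℕ) [NeZero n] (K m p s Λ L : ℕ), 1 ≤ m → 1 ≤ s → s ≤ p → 2 ≤ p → 1 ≤ Λ →
    (2 * m + 1) * (4 * p) ≤ 2 ^ K → 2 ^ (K + 1) + 1 ≤ n → 96 * Λ ^ 4 * 2 ^ (K + 1) ≤ L →
    ∀ t : ℝ, 0 < t → t * 4 ^ K ≤ 1 → ∀ a κ : ℝ, 0 < a → 0 < κ →
    (∀ k : V n, k ≠ 0 → EE k ≤ κ → a * EE k ≤ Pin n b t k) →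
    stiff L b ≤ 1 / a + C * (√(s / p) + (1 / (κ * p * s) +
      ((p : ℝ) / s) ^ 2 * ((m : ℝ) ^ (-c) + √(t * 4 ^ K))) + (1 / √Λ + 1 / √p)) := by
  obtain ⟨C, c, hC, hc, hT⟩ := lw_B hb
  refine ⟨C + 40 * b, c, by positivity, hc, ?_⟩
  intro n _ K m p s Λ L hm hs hsp hp2 hΛ hK hn hL t ht ht1 a κ ha hκ hk
  have hs0 : (0 : ℝ) < s := by exact_mod_cast hs
  have hp0 : (0 : ℝ) < p := by exact_mod_cast hs.trans hsp
  obtain ⟨mr, hmr⟩ : ∃ mr : ℕ, m * (4 * p) = mr := ⟨_, rfl⟩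
  obtain ⟨N, hN⟩ : ∃ N, N = 2 * mr + 4 * p + 1 := ⟨_, rfl⟩
  have hN1 : N + 1 ≤ 2 ^ (K + 1) := by
    have e1 : (2 * m + 1) * (4 * p) = 2 * mr + 4 * p := by rw [← hmr]; ring
    rw [e1] at hK
    have e2 : 2 ^ (K + 1) = 2 * 2 ^ K := pow_succ' 2 K
    omega
  obtain ⟨x0, hx0⟩ : ∃ x0 : ℤ, x0 = (mr : ℤ) + 1 + 2 * p := ⟨_, rfl⟩
  have h1 := hT n K m N p s x0 x0 hm hs hsp hp2 hK hn (by omega) (by rw [hmr]; omega)
    (by rw [hmr]; omega) (by rw [hmr]; omega) (by rw [hmr]; omega) t ht ht1 a κ ha hκ hk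
  have h2 := H856.pyrf hb (p := p) (Λ := Λ) (by omega) hΛ (LB := N + 1) (L := L) (q := 0)
    (x0 := x0) (y0 := x0) (by simp only [Prod.fst_zero]; omega)
    (by
      simp only [Prod.fst_zero]
      push_cast
      omega)
    (by simp only [Prod.snd_zero]; omega)
    (by
      simp only [Prod.snd_zero]
      push_cast
      omega)
    ((Nat.mul_le_mul_left _ hN1).trans hL)
  have h3 := h2.trans h1
  have hX : 0 < nG (blk 0 (N + 1)) (pyr x0 x0 p) / 2 := by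
    have h4 := (H859.nG_pyr (R := blk 0 (N + 1)) (x0 := x0) (y0 := x0) (p := (p : ℤ)) (by omega)
      fun c k1 k2 k3 k4 => by
        rw [H950.mem_blk]
        simp only [Prod.fst_zero, Prod.snd_zero]
        push_cast
        omega).2.1
    have hp2' : (2 : ℝ) ≤ p := by exact_mod_cast hp2
    push_cast at h4 ⊢
    nlinarith
  rw [mul_comm] at h3
  have h5 := le_of_mul_le_mul_right h3 hX
  have hE0 : 0 ≤ 1 / (κ * p * s) + ((p : ℝ) / s) ^ 2 * ((m : ℝ) ^ (-c) + √(t * 4 ^ K)) := by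
    have := Real.rpow_nonneg (Nat.cast_nonneg (α := ℝ) m) (-c)
    have := Real.sqrt_nonneg (t * 4 ^ K)
    positivity
  have hη0 := Real.sqrt_nonneg ((s : ℝ) / p)
  have hl0 : 0 ≤ 1 / √(Λ : ℝ) + 1 / √(p : ℝ) := by positivity
  generalize 1 / (κ * p * s) + ((p : ℝ) / s) ^ 2 * ((m : ℝ) ^ (-c) + √(t * 4 ^ K)) = W at *
  generalize √((s : ℝ) / p) = η at *
  generalize 1 / √(Λ : ℝ) + 1 / √(p : ℝ) = Z at *
  have e1 : 0 ≤ C * Z := by positivity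
  have e2 : 0 ≤ 40 * b * (η + W) := by positivity
  have e3 : (C + 40 * b) * (η + W + Z) = C * (η + W) + 40 * b * Z + C * Z +
      40 * b * (η + W) := by ring
  rw [e3]
  linarith

end

end Vale.Agent.P159.H340
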