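import Vale.Agent.P159.H340.Lw7

/-!
P159 (helper340), LINKW (B), part 8: the version with ONE LOCAL hypothesis on the torus (the variance
of the Laplacian of the smoothed pyramid), letters of helper972, helper859.
-/

set_option linter.unusedSectionVars false

open Finset

namespace Vale.Agent.P159.H340

open Vale.Agent.P159
open Vale.Agent.P159.H37 (qf Gm)
open Vale.Agent.P159.TM.SpecI (V)
open Vale.Agent.P159.H856 (nl sF Van nG qG pyr)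
open Vale.Agent.P159.H950 (blk)
open Vale.Agent.P159.H859 (lapz smz pf enz)

noncomputable section

/-- arithmetic of `lw_loc` -/
theorem lw_arith4 {b C1 C η κ nF P2 Y e Q Qs Qd : ℝ} (hb : 0 < b) (hC1 : 0 < C1) (hC : 0 < C)
    (hκ : 0 ≤ κ) (hη0 : 0 < η) (hη1 : η ≤ 1) (hnF : 0 ≤ nF) (hP2 : 0 ≤ P2)
    (hY : 0 ≤ Y) (hab : κ ≤ b) (h2 : Qs ≤ κ * e + C1 ^ 2 * C * Y)
    (h3 : e ≤ nF / 2) (h1 : Q ≤ (1 + η) * Qs + (1 + 1 / η) * Qd)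
    (h4 : (1 + 1 / η) * Qd ≤ b * C1 * (η * P2)) :
    Q ≤ κ * (nF / 2) + (b + b * C1 + 2 * C1 ^ 2 * C) * (η * (nF / 2 + P2) + Y) := by
  have e1 : κ * e ≤ κ * (nF / 2) := mul_le_mul_of_nonneg_left h3 hκ
  have e2 : Qs ≤ κ * (nF / 2) + C1 ^ 2 * C * Y := by linarith
  have e3 := mul_le_mul_of_nonneg_left e2 (show 0 ≤ 1 + η by positivity)
  have f0 : 0 ≤ C1 ^ 2 * C * Y := by positivity
  have e4 : η * (C1 ^ 2 * C * Y) ≤ 1 * (C1 ^ 2 * C * Y) := mul_le_mul_of_nonneg_right hη1 f0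
  have e5 : κ * (η * (nF / 2)) ≤ b * (η * (nF / 2)) :=
    mul_le_mul_of_nonneg_right hab (by positivity)
  have t1 : 0 ≤ (b + b * C1) * Y := by positivity
  have t2 : 0 ≤ (b * C1 + 2 * C1 ^ 2 * C) * (η * (nF / 2)) := by positivity
  have t3 : 0 ≤ (b + 2 * C1 ^ 2 * C) * (η * P2) := by positivity
  linarith

/-- **LINKW (B), local form** -/
theorem lw_loc {b : ℝ} (hb : 0 < b) : ∃ C c : ℝ, 0 < C ∧ 0 < c ∧
    ∀ (n : ℕ) [NeZero n] (K m N p s : ℕ) (x0 y0 : ℤ), 1 ≤ m → 1 ≤ s → s ≤ p → 2 ≤ p →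
    (2 * m + 1) * (4 * p) ≤ 2 ^ K → 2 ^ (K + 1) + 1 ≤ n → N + 1 ≤ n →
    ((m * (4 * p) : ℕ) : ℤ) + 1 + 2 * p ≤ x0 → x0 + 2 * p + ((m * (4 * p) : ℕ) : ℤ) ≤ N →
    ((m * (4 * p) : ℕ) : ℤ) + 1 + 2 * p ≤ y0 → y0 + 2 * p + ((m * (4 * p) : ℕ) : ℤ) ≤ N →
    ∀ t : ℝ, 0 < t → t * 4 ^ K ≤ 1 → ∀ κ : ℝ, 0 ≤ κ →
    qf (Gm (H37.wt n b t)) (fun x => lapz (smz s (pf x0 y0 p)) ((x.1.val : ℤ), (x.2.val : ℤ))) ≤
      κ * enz (pf x0 y0 p) →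
    qG b (blk 0 (N + 1)) (pyr x0 y0 p) ≤ (κ + C * (√(s / p) +
      ((p : ℝ) / s) ^ 2 * ((m : ℝ) ^ (-c) + √(t * 4 ^ K)))) *
      (nG (blk 0 (N + 1)) (pyr x0 y0 p) / 2) := by
  obtain ⟨C, c, hC, hc, hT⟩ := lw_smooth0 hb
  refine ⟨9 * (b + b * 128 + 2 * 128 ^ 2 * C), c, by positivity, hc, ?_⟩
  intro n _ K m N p s x0 y0 hm hs hsp hp2 hK hn hN hx1 hx2 hy1 hy2 t ht ht1 κ hκ hk
  have hs0 : (0 : ℝ) < s := by exact_mod_cast hs
  have hp : 1 ≤ p := hs.trans hsp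
  have hp0 : (0 : ℝ) < p := by exact_mod_cast hp
  have hpz : (1 : ℤ) ≤ (p : ℤ) := by exact_mod_cast hp
  have hsp' : (s : ℝ) ≤ p := by exact_mod_cast hsp
  have hbox : ∀ c : ℤ × ℤ, x0 - p ≤ c.1 → c.1 < x0 + p → y0 - p ≤ c.2 → c.2 < y0 + p →
      c ∈ blk 0 (N + 1) := by
    intro c k1 k2 k3 k4
    rw [H950.mem_blk]
    simp only [Prod.fst_zero, Prod.snd_zero]
    push_cast
    generalize m * (4 * p) = mr at *
    omega
  obtain ⟨hn1, hn2, -⟩ := H859.nG_pyr (R := blk 0 (N + 1)) (x0 := x0) (y0 := y0) (p := (p : ℤ))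
    hpz hbox
  have hp2' : (2 : ℝ) ≤ p := by exact_mod_cast hp2
  have h8 : (p : ℝ) ^ 2 ≤ 8 * (nG (blk 0 (N + 1)) (pyr x0 y0 p) / 2) := by
    push_cast at hn2
    nlinarith
  have hE0 : 0 ≤ ((p : ℝ) / s) ^ 2 * ((m : ℝ) ^ (-c) + √(t * 4 ^ K)) := by
    have := Real.rpow_nonneg (Nat.cast_nonneg (α := ℝ) m) (-c)
    have := Real.sqrt_nonneg (t * 4 ^ K)
    positivity
  obtain ⟨η, hη⟩ : ∃ η, η = √((s : ℝ) / p) := ⟨_, rfl⟩
  have hη0 : 0 < η := by rw [hη]; exact Real.sqrt_pos.2 (by positivity)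
  have hη2 : η ^ 2 = s / p := by rw [hη]; exact Real.sq_sqrt (by positivity)
  have hη1 : η ≤ 1 := by
    rw [hη]
    refine Real.sqrt_le_one.2 ?_
    rw [div_le_one hp0]
    exact hsp'
  rw [← hη]
  have hnF0 : 0 ≤ nG (blk 0 (N + 1)) (pyr x0 y0 p) := H856.nG_nonneg _ _
  -- the smooth field
  have hsup : ∀ c, smz s (pf x0 y0 p) c ≠ 0 → (x0 - 2 * p < c.1 ∧ c.1 + 1 < x0 + 2 * p) ∧
      (y0 - 2 * p < c.2 ∧ c.2 + 1 < y0 + 2 * p) := by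
    intro c hc0
    have h := H859.smz_ne hc0
    have : (s : ℤ) ≤ p := by exact_mod_cast hsp
    omega
  have hlap : ∀ c, |lapZ (smz s (pf x0 y0 p)) c| ≤ 128 / s := by
    intro c
    rw [← lapz_eq]
    refine (H859.lapz_smz_le x0 y0 (p : ℤ) hs c).trans ?_
    gcongr
    norm_num
  obtain ⟨hvan, h2⟩ := hT n K m N p x0 y0 hm hp hK hn hN hx1 hx2 hy1 hy2 t ht ht1 (128 / s)
    (smz s (pf x0 y0 p)) (by positivity) hsup hlap
  have e0 : nl (uP n (0, 0) (smz s (pf x0 y0 p))) =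
      fun x => lapz (smz s (pf x0 y0 p)) ((x.1.val : ℤ), (x.2.val : ℤ)) := by
    funext x
    rw [nl_uP hvan hN, lapz_eq]
  rw [e0] at h2
  have h3 : enz (pf x0 y0 p) ≤ nG (blk 0 (N + 1)) (pyr x0 y0 p) / 2 := by
    rw [hn1]
    linarith
  have e2 := (lw_arith3 (b := b) (C1 := 128) (C := C) (κ := 1)
    (E := (m : ℝ) ^ (-c) + √(t * 4 ^ K)) one_pos hp0 hs0).2
  rw [e2] at h2
  have h5 := h2.trans (add_le_add_left hk _)
  have hdif : qG b (blk 0 (N + 1)) (pyr x0 y0 p - sF (smz s (pf x0 y0 p))) ≤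
      b / 2 * (128 * p * s) := by
    refine (H856.qG_le hb.le (blk 0 (N + 1)) _).trans (mul_le_mul_of_nonneg_left ?_ (by positivity))
    have e : pyr x0 y0 p - sF (smz s (pf x0 y0 p)) =
        sF fun c => pf x0 y0 p c - smz s (pf x0 y0 p) c := by
      rw [H859.pyr_sF x0 y0 (p : ℤ) (by positivity)]
      funext t z
      rw [H859.sF_sub]
      rfl
    rw [e]
    refine (H859.nG_diff_le _ x0 y0 hpz hs).trans ?_
    push_cast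
    nlinarith
  have hdec : pyr x0 y0 p = sF (smz s (pf x0 y0 p)) +
      (pyr x0 y0 p - sF (smz s (pf x0 y0 p))) := by abel
  have h1 := H856.qG_add_le hb.le (blk 0 (N + 1)) (sF (smz s (pf x0 y0 p)))
    (pyr x0 y0 p - sF (smz s (pf x0 y0 p))) hη0
  rw [← hdec] at h1
  have e3 : (s : ℝ) = η ^ 2 * p := by
    rw [hη2, div_mul_cancel₀ _ hp0.ne']
  have h7 := lw_arith2 (C1 := 128) hb (by norm_num) hη0 hη1 hp0 e3
  have h9 := (mul_le_mul_of_nonneg_left hdif (show 0 ≤ 1 + 1 / η by positivity)).trans h7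
  have hY0 : 0 ≤ (p : ℝ) ^ 2 * (((p : ℝ) / s) ^ 2 * ((m : ℝ) ^ (-c) + √(t * 4 ^ K))) :=
    mul_nonneg (sq_nonneg _) hE0
  have hX0 : 0 ≤ nG (blk 0 (N + 1)) (pyr x0 y0 p) / 2 := div_nonneg hnF0 (by norm_num)
  have hfin : qG b (blk 0 (N + 1)) (pyr x0 y0 p) ≤ κ * (nG (blk 0 (N + 1)) (pyr x0 y0 p) / 2) +
      (b + b * 128 + 2 * 128 ^ 2 * C) * (η * (nG (blk 0 (N + 1)) (pyr x0 y0 p) / 2 +
        (p : ℝ) ^ 2) + (p : ℝ) ^ 2 * (((p : ℝ) / s) ^ 2 * ((m : ℝ) ^ (-c) + √(t * 4 ^ K)))) := by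
    rcases le_or_gt κ b with hab | hab
    · exact lw_arith4 hb (by norm_num) hC hκ hη0 hη1 hnF0 (sq_nonneg _) hY0 hab h5 h3 h1 h9
    · have g1 := H856.qG_le hb.le (blk 0 (N + 1)) (pyr x0 y0 p)
      generalize nG (blk 0 (N + 1)) (pyr x0 y0 p) = nF at *
      generalize (p : ℝ) ^ 2 * (((p : ℝ) / s) ^ 2 * ((m : ℝ) ^ (-c) + √(t * 4 ^ K))) = Y at *
      have g2 : b * (nF / 2) ≤ κ * (nF / 2) := mul_le_mul_of_nonneg_right hab.le hX0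
      have g3 : 0 ≤ (b + b * 128 + 2 * 128 ^ 2 * C) * (η * (nF / 2 + (p : ℝ) ^ 2) + Y) := by
        positivity
      linarith
  refine hfin.trans ?_
  clear hfin h1 h2 h5 h9 hdif hk
  obtain ⟨D, hD⟩ : ∃ D, D = b + b * 128 + 2 * 128 ^ 2 * C := ⟨_, rfl⟩
  have hD0 : 0 ≤ D := by rw [hD]; positivity
  rw [← hD]
  generalize nG (blk 0 (N + 1)) (pyr x0 y0 p) / 2 = X at *
  generalize ((p : ℝ) / s) ^ 2 * ((m : ℝ) ^ (-c) + √(t * 4 ^ K)) = W at *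
  have f1 : η * (X + (p : ℝ) ^ 2) ≤ η * (9 * X) := mul_le_mul_of_nonneg_left (by linarith) hη0.le
  have f2 : (p : ℝ) ^ 2 * W ≤ 8 * X * W := mul_le_mul_of_nonneg_right h8 hE0
  have f3 : D * (η * (X + (p : ℝ) ^ 2) + (p : ℝ) ^ 2 * W) ≤ D * (η * (9 * X) + 8 * X * W) :=
    mul_le_mul_of_nonneg_left (by linarith) hD0
  have f4 : 0 ≤ D * (X * W) := mul_nonneg hD0 (mul_nonneg hX0 hE0)
  have f5 : (κ + 9 * D * (η + W)) * X = κ * X + D * (η * (9 * X) + 8 * X * W) +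
      D * (X * W) := by ring
  rw [f5]
  linarith

/-- **LINKW (A) + (B), local form** -/
theorem lw_ABloc {b : ℝ} (hb : 0 < b) : ∃ C c : ℝ, 0 < C ∧ 0 < c ∧
    ∀ (n : ℕ) [NeZero n] (K m N p s Λ L : ℕ) (x0 y0 : ℤ), 1 ≤ m → 1 ≤ s → s ≤ p → 2 ≤ p →
    1 ≤ Λ → (2 * m + 1) * (4 * p) ≤ 2 ^ K → 2 ^ (K + 1) + 1 ≤ n → N + 1 ≤ n →
    ((m * (4 * p) : ℕ) : ℤ) + 1 + 2 * p ≤ x0 → x0 + 2 * p + ((m * (4 * p) : ℕ) : ℤ) ≤ N →
    ((m * (4 * p) : ℕ) : ℤ) + 1 + 2 * p ≤ y0 → y0 + 2 * p + ((m * (4 * p) : ℕ) : ℤ) ≤ N →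
    96 * Λ ^ 4 * (N + 1) ≤ L → ∀ t : ℝ, 0 < t → t * 4 ^ K ≤ 1 → ∀ κ : ℝ, 0 ≤ κ →
    qf (Gm (H37.wt n b t)) (fun x => lapz (smz s (pf x0 y0 p)) ((x.1.val : ℤ), (x.2.val : ℤ))) ≤
      κ * enz (pf x0 y0 p) →
    stiff L b ≤ κ + C * (√(s / p) + ((p : ℝ) / s) ^ 2 * ((m : ℝ) ^ (-c) + √(t * 4 ^ K)) +
      (1 / √Λ + 1 / √p)) := by
  obtain ⟨C, c, hC, hc, hT⟩ := lw_loc hb
  refine ⟨C + 40 * b, c, by positivity, hc, ?_⟩
  intro n _ K m N p s Λ L x0 y0 hm hs hsp hp2 hΛ hK hn hN hx1 hx2 hy1 hy2 hL t ht ht1 κ hκ hk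
  have hp0 : (0 : ℝ) < p := by exact_mod_cast hs.trans hsp
  have h1 := hT n K m N p s x0 y0 hm hs hsp hp2 hK hn hN hx1 hx2 hy1 hy2 t ht ht1 κ hκ hk
  generalize m * (4 * p) = mr at *
  have h2 := H856.pyrf hb (p := p) (Λ := Λ) (by omega) hΛ (LB := N + 1) (L := L) (q := 0)
    (x0 := x0) (y0 := y0) (by simp only [Prod.fst_zero]; omega)
    (by
      simp only [Prod.fst_zero]
      push_cast
      omega)
    (by simp only [Prod.snd_zero]; omega)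
    (by
      simp only [Prod.snd_zero]
      push_cast
      omega) hL
  have h3 := h2.trans h1
  have hX : 0 < nG (blk 0 (N + 1)) (pyr x0 y0 p) / 2 := by
    have h4 := (H859.nG_pyr (R := blk 0 (N + 1)) (x0 := x0) (y0 := y0) (p := (p : ℤ)) (by omega)
      fun c k1 k2 k3 k4 => by
        rw [H950.mem_blk]
        simp only [Prod.fst_zero, Prod.snd_zero]
        push_cast
        omega).2.1
    have hp2' : (2 : ℝ) ≤ p := by exact_mod_cast hp2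
    push_cast at h4 ⊢
    nlinarith
  rw [mul_comm] at h3
  have h5 := le_of_mul_le_mul_right h3 hX
  have hE0 : 0 ≤ ((p : ℝ) / s) ^ 2 * ((m : ℝ) ^ (-c) + √(t * 4 ^ K)) := by
    have := Real.rpow_nonneg (Nat.cast_nonneg (α := ℝ) m) (-c)
    have := Real.sqrt_nonneg (t * 4 ^ K)
    positivity
  have hη0 := Real.sqrt_nonneg ((s : ℝ) / p)
  have hl0 : 0 ≤ 1 / √(Λ : ℝ) + 1 / √(p : ℝ) := by positivity
  generalize ((p : ℝ) / s) ^ 2 * ((m : ℝ) ^ (-c) + √(t * 4 ^ K)) = W at *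
  generalize √((s : ℝ) / p) = η at *
  generalize 1 / √(Λ : ℝ) + 1 / √(p : ℝ) = Z at *
  have e1 : 0 ≤ C * Z := by positivity
  have e2 : 0 ≤ 40 * b * (η + W) := by positivity
  have e3 : (C + 40 * b) * (η + W + Z) = C * (η + W) + 40 * b * Z + C * Z +
      40 * b * (η + W) := by ring
  rw [e3]
  linarith

end

end Vale.Agent.P159.H340
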