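import Vale.Agent.P159.H340.Lt
import Vale.Agent.P159.H692.Fn1

/-!
P159, helper340, module M6: the noise of the exact law of the channel has sixth moments, at every
source, without near-convexity.

`nuE μ' J P` : law of `z = K - J`, `K` the source of the posterior.
`nuE_exp` : `E e^{<v,z>} = exp (|P v|²/2 + log Z'(J + Pᵀ P v) - log Z'(J))`.
`m6_fine` : channel `Pᵀ P = σ (1 - P_l)`, `σ ≤ t`, `t l² ≤ 1`: `M6` with `τ = 4 (b + 14)² t (1+U)²`,
`U ≥ log Z'(2J)/Z'(0)`, for every coercive mass form of the prior.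
-/

namespace Vale.Agent.P159.H340

open Finset Matrix MeasureTheory
open Vale.Agent.P159.TM.H104 (EM Ex Cv Lg li nh Gr)
open Vale.Agent.P159.TM.Spec (V)
open Vale.Agent.P159.TM.SpecC (wT)
open Vale.Agent.P159.H37
open Vale.Agent.P159.H692 (M6 meas_dot exp_Lg')

set_option linter.unusedSectionVars false

noncomputable section

/-! ### the law of the noise -/

section law

variable {V : Type*} [Fintype V] {I : Type*} [Fintype I] {μ' : (V → ℤ) → ℝ}

/-- the density of the noise -/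
def dnE (μ' : (V → ℤ) → ℝ) (J : V → ℝ) (P : Matrix I V ℝ) (g : I → ℝ) : ℝ :=
  Zs (post μ' P) (J + Pᵀ *ᵥ g) / Zs μ' J

/-- law of `K - J` under `Ech μ' J P` -/
def nuE (μ' : (V → ℤ) → ℝ) (J : V → ℝ) (P : Matrix I V ℝ) : Measure (V → ℝ) :=
  ((gau I).withDensity fun g => ENNReal.ofReal (dnE μ' J P g)).map fun g => Pᵀ *ᵥ g

lemma dnE_nonneg (hμ : EM μ') (J : V → ℝ) (P : Matrix I V ℝ) (g : I → ℝ) : 0 ≤ dnE μ' J P g :=
  div_nonneg (Zs_pos (em_post hμ P) _).le (Zs_pos hμ J).le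

lemma meas_tr (P : Matrix I V ℝ) : Measurable fun g : I → ℝ => Pᵀ *ᵥ g := by
  unfold Matrix.mulVec dotProduct
  fun_prop

lemma meas_Zs {μ : (V → ℤ) → ℝ} (hμ : EM μ) : Measurable (Zs μ) :=
  (TM.H104.continuous_T hμ (Gr.const 1)).measurable

lemma dnE_meas (hμ : EM μ') (J : V → ℝ) (P : Matrix I V ℝ) : Measurable (dnE μ' J P) := by
  unfold dnE
  exact ((meas_Zs (em_post hμ P)).comp (measurable_const.add (meas_tr P))).div_const _

/-- integrals over the law of the noise -/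
theorem nuE_integral (hμ : EM μ') (J : V → ℝ) (P : Matrix I V ℝ) {Φ : (V → ℝ) → ℝ}
    (hΦ : Measurable Φ) : ∫ z, Φ z ∂(nuE μ' J P) = Ech μ' J P fun K => Φ (K - J) := by
  unfold nuE
  rw [integral_map (meas_tr P).aemeasurable hΦ.aestronglyMeasurable,
    integral_withDensity_eq_integral_toReal_smul (dnE_meas hμ J P).ennreal_ofReal
      (Filter.Eventually.of_forall fun x => ENNReal.ofReal_lt_top)]
  unfold Ech
  rw [ch_norm hμ J P, ← integral_div]
  refine integral_congr_ae (Filter.Eventually.of_forall fun g => ?_)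
  simp only [smul_eq_mul, add_sub_cancel_left]
  rw [ENNReal.toReal_ofReal (dnE_nonneg hμ J P g)]
  unfold dnE
  ring

/-- integrability over the law of the noise -/
theorem nuE_integrable (hμ : EM μ') (J : V → ℝ) (P : Matrix I V ℝ) {Φ : (V → ℝ) → ℝ}
    (hΦ : Measurable Φ)
    (h : Integrable (fun g => Φ (Pᵀ *ᵥ g) * Zs (post μ' P) (J + Pᵀ *ᵥ g)) (gau I)) :
    Integrable Φ (nuE μ' J P) := by
  unfold nuE
  rw [integrable_map_measure hΦ.aestronglyMeasurable (meas_tr P).aemeasurable,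
    integrable_withDensity_iff (dnE_meas hμ J P).ennreal_ofReal
      (Filter.Eventually.of_forall fun x => ENNReal.ofReal_lt_top)]
  refine (h.div_const (Zs μ' J)).congr (Filter.Eventually.of_forall fun g => ?_)
  simp only [Function.comp]
  rw [ENNReal.toReal_ofReal (dnE_nonneg hμ J P g)]
  unfold dnE
  ring

lemma dnE_integrable (hμ : EM μ') (J : V → ℝ) (P : Matrix I V ℝ) :
    Integrable (dnE μ' J P) (gau I) := by
  have h := ch_int hμ J P (EGr.const (V := V) 1)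
  simp only [one_mul] at h
  exact h.div_const _

lemma nuE_prob (hμ : EM μ') (J : V → ℝ) (P : Matrix I V ℝ) : IsProbabilityMeasure (nuE μ' J P) := by
  refine ⟨?_⟩
  unfold nuE
  rw [Measure.map_apply (meas_tr P) MeasurableSet.univ, Set.preimage_univ,
    withDensity_apply _ MeasurableSet.univ, Measure.restrict_univ,
    ← ofReal_integral_eq_lintegral_ofReal (dnE_integrable hμ J P)
      (Filter.Eventually.of_forall fun g => dnE_nonneg hμ J P g)]
  unfold dnE
  rw [integral_div, ch_norm hμ J P, div_self (Zs_pos hμ J).ne', ENNReal.ofReal_one]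

lemma dot_tr (P : Matrix I V ℝ) (v : V → ℝ) (g : I → ℝ) :
    v ⬝ᵥ (Pᵀ *ᵥ g) = ∑ i, (P *ᵥ v) i * g i := by
  rw [dotProduct_mulVec, vecMul_transpose]
  rfl

/-- the exponential of a linear functional is integrable -/
theorem nuE_exp_int (hμ : EM μ') (J : V → ℝ) (P : Matrix I V ℝ) (v : V → ℝ) :
    Integrable (fun z => Real.exp (v ⬝ᵥ z)) (nuE μ' J P) := by
  refine nuE_integrable hμ J P ((meas_dot v).exp) ?_
  have e1 : EGr fun K : V → ℝ => Real.exp (v ⬝ᵥ (K - J)) :=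
    H692.egr_sub_right (H663.EGr.exp_dot v) J
  have h2 := ch_int hμ J P e1
  simp only [add_sub_cancel_left] at h2
  exact h2

/-- **exponential moments of the noise** -/
theorem nuE_exp (hμ : EM μ') (J : V → ℝ) (P : Matrix I V ℝ) (v : V → ℝ) :
    ∫ z, Real.exp (v ⬝ᵥ z) ∂(nuE μ' J P) =
      Real.exp (qf (Pᵀ * P) v / 2 + (Lg μ' (J + Pᵀ *ᵥ (P *ᵥ v)) - Lg μ' J)) := by
  rw [nuE_integral hμ J P ((meas_dot v).exp)]
  unfold Ech
  rw [ch_norm hμ J P]
  simp only [add_sub_cancel_left, dot_tr]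
  rw [gau_exp_mul (P *ᵥ v) fun g => Zs (post μ' P) (J + Pᵀ *ᵥ g)]
  have h1 : ∫ g, Zs (post μ' P) (J + Pᵀ *ᵥ (g + P *ᵥ v)) ∂(gau I) =
      Zs μ' (J + Pᵀ *ᵥ (P *ᵥ v)) := by
    rw [← ch_norm hμ (J + Pᵀ *ᵥ (P *ᵥ v)) P]
    refine integral_congr_ae (Filter.Eventually.of_forall fun g => ?_)
    simp only
    congr 1
    rw [mulVec_add]
    abel
  rw [h1, ← qf_gram, Real.exp_add, Real.exp_sub, exp_Lg' hμ, exp_Lg' hμ]
  ring

end law

/-! ### moments from exponential moments -/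

lemma pow_six_le {x a : ℝ} (hx : 0 ≤ x) (ha : 6 ≤ a) : x ^ 6 ≤ a ^ 6 * (1 + Real.exp (x - a)) := by
  have ha0 : 0 < a := by linarith
  rcases le_or_gt x a with h | h
  · have h1 := pow_le_pow_left₀ hx h 6
    have h2 : 0 ≤ a ^ 6 * Real.exp (x - a) := by positivity
    linarith
  · have h1 : x / a ≤ Real.exp (x / a - 1) := by
      have := Real.add_one_le_exp (x / a - 1)
      linarith
    have h2 : (x / a) ^ 6 ≤ Real.exp (x - a) := by
      refine (pow_le_pow_left₀ (by positivity) h1 6).trans ?_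
      rw [← Real.exp_nat_mul]
      refine Real.exp_le_exp.2 ?_
      have h3 : x / a - 1 = (x - a) / a := by field_simp
      rw [h3]
      push_cast
      rw [mul_div_assoc', div_le_iff₀ ha0]
      nlinarith
    have h3 : x ^ 6 = a ^ 6 * (x / a) ^ 6 := by
      field_simp
    rw [h3]
    have h4 := mul_le_mul_of_nonneg_left h2 (show 0 ≤ a ^ 6 by positivity)
    have h5 : 0 < a ^ 6 := by positivity
    linarith

lemma pow_six_abs (x : ℝ) : x ^ 6 = |x| ^ 6 := by
  rw [show (6 : ℕ) = 2 * 3 from rfl, pow_mul, pow_mul, sq_abs]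

lemma pow_six_le' (x : ℝ) {a : ℝ} (ha : 6 ≤ a) :
    x ^ 6 ≤ a ^ 6 * (1 + Real.exp (-a) * (Real.exp x + Real.exp (-x))) := by
  have h := pow_six_le (abs_nonneg x) ha
  rw [pow_six_abs]
  refine h.trans (mul_le_mul_of_nonneg_left ?_ (by positivity))
  have h1 : Real.exp (|x| - a) = Real.exp (-a) * Real.exp |x| := by
    rw [← Real.exp_add]
    congr 1
    ring
  rw [h1]
  have h2 : Real.exp |x| ≤ Real.exp x + Real.exp (-x) := by
    rcases abs_cases x with ⟨h, _⟩ | ⟨h, _⟩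
    · rw [h]; linarith [Real.exp_pos (-x)]
    · rw [h]; linarith [Real.exp_pos x]
  have h3 := mul_le_mul_of_nonneg_left h2 (Real.exp_pos (-a)).le
  linarith

lemma sqrt_six {x : ℝ} (hx : 0 ≤ x) : √x ^ 6 = x ^ 3 := by
  have h := Real.sq_sqrt hx
  calc √x ^ 6 = (√x ^ 2) ^ 3 := by ring
    _ = x ^ 3 := by rw [h]

/-- sixth moment from two exponential moments -/
theorem mom6_of_exp {Ω : Type*} [MeasurableSpace Ω] {ν : Measure Ω} [IsProbabilityMeasure ν]
    {X : Ω → ℝ} (hX : Measurable X) (i1 : Integrable (fun z => Real.exp (X z)) ν)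
    (i2 : Integrable (fun z => Real.exp (-X z)) ν) {B : ℝ} (hB : 0 ≤ B)
    (h1 : ∫ z, Real.exp (X z) ∂ν ≤ Real.exp B) (h2 : ∫ z, Real.exp (-X z) ∂ν ≤ Real.exp B) :
    Integrable (fun z => X z ^ 6) ν ∧ ∫ z, X z ^ 6 ∂ν ≤ 2 * (B + 6) ^ 6 := by
  set a := B + 6 with ha
  have ha6 : 6 ≤ a := by linarith
  have i12 : Integrable (fun z => Real.exp (X z) + Real.exp (-X z)) ν := i1.add i2
  have i13 : Integrable (fun z => Real.exp (-a) * (Real.exp (X z) + Real.exp (-X z))) ν :=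
    i12.const_mul _
  have i14 : Integrable (fun z => 1 + Real.exp (-a) * (Real.exp (X z) + Real.exp (-X z))) ν :=
    (integrable_const (1 : ℝ)).add i13
  have i3 := i14.const_mul (a ^ 6)
  have i0 : Integrable (fun z => X z ^ 6) ν := by
    refine i3.mono' (hX.pow_const 6).aestronglyMeasurable (Filter.Eventually.of_forall fun z => ?_)
    rw [Real.norm_eq_abs, abs_of_nonneg (by positivity)]
    exact pow_six_le' _ ha6
  refine ⟨i0, (integral_mono i0 i3 fun z => pow_six_le' _ ha6).trans ?_⟩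
  rw [integral_const_mul, integral_add (integrable_const _) i13, integral_const_mul,
    integral_add i1 i2]
  simp only [integral_const, probReal_univ, smul_eq_mul, one_mul]
  have h3 : Real.exp (-a) * (∫ z, Real.exp (X z) ∂ν + ∫ z, Real.exp (-X z) ∂ν) ≤ 1 := by
    have h4 : Real.exp (-a) * (∫ z, Real.exp (X z) ∂ν + ∫ z, Real.exp (-X z) ∂ν) ≤
        Real.exp (-a) * (2 * Real.exp B) :=
      mul_le_mul_of_nonneg_left (by linarith) (Real.exp_pos _).le
    refine h4.trans ?_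
    have h5 : Real.exp (-a) * (2 * Real.exp B) = 2 * Real.exp (-6) := by
      rw [ha]
      have : Real.exp (-(B + 6)) = Real.exp (-B) * Real.exp (-6) := by
        rw [← Real.exp_add]
        congr 1
        ring
      rw [this, Real.exp_neg B]
      field_simp
    rw [h5]
    have h6 : Real.exp (-6) ≤ 1 / 2 := by
      have h7 : (6 : ℝ) + 1 ≤ Real.exp 6 := Real.add_one_le_exp 6
      rw [Real.exp_neg, ← one_div]
      exact one_div_le_one_div_of_le (by norm_num) (by linarith)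
    linarith
  have h4 : 0 ≤ a ^ 6 := by positivity
  nlinarith

/-! ### the fine channel -/

section fine

variable {N l : ℕ} [NeZero N] {I : Type*} [Fintype I]

/-- **sixth moments of the noise of the fine channel** -/
theorem m6_fine {b : ℝ} (hb : 0 ≤ b) (hl : l ∣ N) {M : Matrix (V N) (V N) ℝ} (hMs : Mᵀ = M)
    {m0 : ℝ} (hm0 : 0 < m0) (hM : ∀ u : V N → ℝ, m0 * ∑ x, u x ^ 2 ≤ qf M u) {t σ : ℝ}
    (ht : 0 < t) (hσ : 0 ≤ σ) (hσt : σ ≤ t) (htl : t * (l : ℝ) ^ 2 ≤ 1) {P : Matrix I (V N) ℝ}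
    (hP : Pᵀ * P = σ • (1 - cellP N l)) (J : V N → ℝ) {U : ℝ}
    (hU : Lg (wM (wT b N) M) ((2 : ℝ) • J) - Lg (wM (wT b N) M) 0 ≤ U) :
    M6 (nuE (wM (wT b N) M) J P) (4 * (b + 14) ^ 2 * t * (1 + U) ^ 2) := by
  have hE := H789.em_wM_wT hb hm0 hM
  have hev := H789.ev_wM_wT (b := b) M
  set μ := wM (wT b N) M with hμ
  have hU0 : 0 ≤ U := by
    have := lg_zero_le hE hev ((2 : ℝ) • J)
    linarith
  have hpr := nuE_prob hE J P
  have hτ : 0 < 4 * (b + 14) ^ 2 * t * (1 + U) ^ 2 := by positivity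
  -- exponential moments
  have key : ∀ v : V N → ℝ, 8 * t * ∑ x, v x ^ 2 ≤ 1 →
      ∫ z, Real.exp (v ⬝ᵥ z) ∂(nuE μ J P) ≤ Real.exp (U / 2 + b / 2 + 1) := by
    intro v hv
    rw [nuE_exp hE J P v]
    refine Real.exp_le_exp.2 ?_
    have hs := fine_le hl v
    set s := ∑ x, v x ^ 2 with hs'
    have hs0 : 0 ≤ s := Finset.sum_nonneg fun _ _ => sq_nonneg _
    set s' := ∑ x, ((1 - cellP N l) *ᵥ v) x ^ 2 with hs1
    have hs10 : 0 ≤ s' := Finset.sum_nonneg fun _ _ => sq_nonneg _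
    have h1 : qf (Pᵀ * P) v = σ * s' := by
      rw [hP, qf_eq, smul_mulVec, dotProduct_smul, smul_eq_mul, fine_dot hl]
    have h2 : Pᵀ *ᵥ (P *ᵥ v) = σ • ((1 - cellP N l) *ᵥ v) := by
      rw [Matrix.mulVec_mulVec, hP, smul_mulVec]
    rw [h1, h2]
    have hσs : σ * s' ≤ t * s := mul_le_mul hσt hs hs10 ht.le
    have h3 : 2 * (l : ℝ) ^ 2 * ∑ x, ((2 : ℝ) • σ • ((1 - cellP N l) *ᵥ v)) x ^ 2 ≤ 1 := by
      have e : ∑ x, ((2 : ℝ) • σ • ((1 - cellP N l) *ᵥ v)) x ^ 2 = 4 * σ * (σ * s') := by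
        rw [hs1, Finset.mul_sum, Finset.mul_sum]
        refine Finset.sum_congr rfl fun x _ => ?_
        simp only [Pi.smul_apply, smul_eq_mul]
        ring
      rw [e]
      have h4 : σ * (l : ℝ) ^ 2 ≤ 1 := (mul_le_mul_of_nonneg_right hσt (sq_nonneg _)).trans htl
      have h5 : 0 ≤ σ * s' := by positivity
      have h6 : 0 ≤ σ * (l : ℝ) ^ 2 := by positivity
      nlinarith
    have h4 := lg_neutral hb hl hMs hm0 hM (y := (2 : ℝ) • σ • ((1 - cellP N l) *ᵥ v)) (by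
      rw [smul_smul, Matrix.mulVec_smul, cellP_fine hl, smul_zero]) h3
    have h5 : 2 * b * (l : ℝ) ^ 2 * ∑ x, ((2 : ℝ) • σ • ((1 - cellP N l) *ᵥ v)) x ^ 2 ≤ b := by
      have := mul_le_mul_of_nonneg_left h3 hb
      linarith
    have h6 := lg_add_le hE hev J (σ • ((1 - cellP N l) *ᵥ v))
    linarith
  -- a non-zero vector
  have main : ∀ v : V N → ℝ, 0 < ∑ x, v x ^ 2 →
      Integrable (fun z => (v ⬝ᵥ z) ^ 6) (nuE μ J P) ∧ ∫ z, (v ⬝ᵥ z) ^ 6 ∂(nuE μ J P) ≤
        (4 * (b + 14) ^ 2 * t * (1 + U) ^ 2 * ∑ x, v x ^ 2) ^ 3 := by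
    intro v h0
    set s := ∑ x, v x ^ 2 with hs
    set c := (√(8 * t * s))⁻¹ with hc
    have hc2 : c ^ 2 = (8 * t * s)⁻¹ := by
      rw [hc, inv_pow, Real.sq_sqrt (by positivity)]
    have hc6 : (8 * t * s) ^ 3 * c ^ 6 = 1 := by
      rw [hc, inv_pow, sqrt_six (by positivity)]
      field_simp
    have e1 : ∑ x, (c • v) x ^ 2 = c ^ 2 * s := by
      rw [hs, Finset.mul_sum]
      exact Finset.sum_congr rfl fun x _ => by rw [Pi.smul_apply, smul_eq_mul]; ring
    have e2 : 8 * t * (c ^ 2 * s) ≤ 1 := by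
      rw [hc2]
      exact le_of_eq (by field_simp)
    have e3 : ∑ x, (-(c • v)) x ^ 2 = c ^ 2 * s := by
      rw [← e1]
      exact Finset.sum_congr rfl fun x _ => by rw [Pi.neg_apply]; ring
    have k1 := key (c • v) (by rw [e1]; exact e2)
    have k2 := key (-(c • v)) (by rw [e3]; exact e2)
    have i2 := nuE_exp_int hE J P (-(c • v))
    simp only [neg_dotProduct] at k2 i2
    have h6 := mom6_of_exp (ν := nuE μ J P) (X := fun z => (c • v) ⬝ᵥ z) (meas_dot _)
      (nuE_exp_int hE J P _) i2 (B := U / 2 + b / 2 + 1) (by positivity) k1 k2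
    have e4 : ∀ z : V N → ℝ, (v ⬝ᵥ z) ^ 6 = (8 * t * s) ^ 3 * ((c • v) ⬝ᵥ z) ^ 6 := by
      intro z
      rw [smul_dotProduct, smul_eq_mul]
      calc (v ⬝ᵥ z) ^ 6 = 1 * (v ⬝ᵥ z) ^ 6 := (one_mul _).symm
        _ = (8 * t * s) ^ 3 * c ^ 6 * (v ⬝ᵥ z) ^ 6 := by rw [hc6]
        _ = _ := by ring
    refine ⟨(h6.1.const_mul ((8 * t * s) ^ 3)).congr
      (Filter.Eventually.of_forall fun z => (e4 z).symm), ?_⟩
    simp only [e4]
    rw [integral_const_mul]
    refine (mul_le_mul_of_nonneg_left h6.2 (by positivity)).trans ?_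
    have h7 : U / 2 + b / 2 + 1 + 6 ≤ (b + 14) / 2 * (1 + U) := by nlinarith
    have h8 : (8 * t * s) ^ 3 * (2 * (U / 2 + b / 2 + 1 + 6) ^ 6) ≤
        (8 * t * s) ^ 3 * (8 * ((b + 14) / 2 * (1 + U)) ^ 6) := by
      refine mul_le_mul_of_nonneg_left ?_ (by positivity)
      have h9 := pow_le_pow_left₀ (by positivity) h7 6
      have h10 : 0 ≤ ((b + 14) / 2 * (1 + U)) ^ 6 := by positivity
      linarith
    refine h8.trans (le_of_eq ?_)
    ring
  have zero : ∀ v : V N → ℝ, ¬ 0 < ∑ x, v x ^ 2 → v = 0 := by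
    intro v h0
    have hs0 : 0 ≤ ∑ x, v x ^ 2 := Finset.sum_nonneg fun _ _ => sq_nonneg _
    funext x
    have := (Finset.sum_eq_zero_iff_of_nonneg (fun x _ => sq_nonneg (v x))).1
      (le_antisymm (not_lt.1 h0) hs0) x (Finset.mem_univ x)
    simpa using this
  refine ⟨hτ, fun v => ?_, fun v => ?_⟩
  · by_cases h0 : 0 < ∑ x, v x ^ 2
    · exact (main v h0).1
    · rw [zero v h0]
      simp
  · by_cases h0 : 0 < ∑ x, v x ^ 2
    · exact (main v h0).2
    · rw [zero v h0]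
      simp

end fine

end

end Vale.Agent.P159.H340
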