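import Vale.Agent.P159.H340.M6
import Vale.Agent.P159.H462.P2a

/-!
P159, helper340, module M6 in the letters of H462 (`chm`) and H692 (`eta_eq`).
-/

namespace Vale.Agent.P159.H340

open Finset Matrix MeasureTheory
open Vale.Agent.P159.TM.H104 (EM Ex Cv Lg li nh Gr)
open Vale.Agent.P159.TM.Spec (V)
open Vale.Agent.P159.TM.SpecC (wT)
open Vale.Agent.P159.H37
open Vale.Agent.P159.H692 (M6)
open Vale.Agent.P159.H462 (chm)

set_option linter.unusedSectionVars false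

noncomputable section

/-- the two forms of the law of the noise -/
theorem nuE_eq_chm {V : Type*} [Fintype V] {I : Type*} [Fintype I] {μ' : (V → ℤ) → ℝ}
    (hμ : EM μ') (J : V → ℝ) (P : Matrix I V ℝ) :
    nuE μ' J P = (chm μ' J P).map fun g => Pᵀ *ᵥ g := by
  unfold nuE Vale.Agent.P159.H462.chm
  congr 2
  funext g
  unfold dnE Vale.Agent.P159.H462.chd
  rw [ch_norm hμ J P]

/-- **sixth moments of the noise of the fine channel** (any coercive mass form of the prior) -/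
theorem m6_fine_chm {N l : ℕ} [NeZero N] {I : Type*} [Fintype I] {b : ℝ} (hb : 0 ≤ b) (hl : l ∣ N)
    {M : Matrix (V N) (V N) ℝ} (hMs : Mᵀ = M)
    {m0 : ℝ} (hm0 : 0 < m0) (hM : ∀ u : V N → ℝ, m0 * ∑ x, u x ^ 2 ≤ qf M u) {t σ : ℝ}
    (ht : 0 < t) (hσ : 0 ≤ σ) (hσt : σ ≤ t) (htl : t * (l : ℝ) ^ 2 ≤ 1) {P : Matrix I (V N) ℝ}
    (hP : Pᵀ * P = σ • (1 - cellP N l)) (J : V N → ℝ) {U : ℝ}
    (hU : Lg (wM (wT b N) M) ((2 : ℝ) • J) - Lg (wM (wT b N) M) 0 ≤ U) :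
    M6 ((chm (wM (wT b N) M) J P).map fun g => Pᵀ *ᵥ g)
      (4 * (b + 14) ^ 2 * t * (1 + U) ^ 2) := by
  rw [← nuE_eq_chm (H789.em_wM_wT hb hm0 hM)]
  exact m6_fine hb hl hMs hm0 hM ht hσ hσt htl hP J hU

end

end Vale.Agent.P159.H340
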