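import Vale.Agent.P159.H340.Dlx
import Vale.Agent.P159.H529.Pr4

/-!
P159 (helper340): the base data `PrN` (helper529) of every far pair of the scales `2^k` of the window,
on the tori `sd i (2^k)` and `sd i (2^(k+1))`, along the flow (inputs of helper612's `lcK_flow`).
-/

set_option linter.unusedSectionVars false

namespace Vale.Agent.P159.H340.Prf

open Finset Matrix MeasureTheory Filter Topology
open Vale.Agent.P159 Vale.Agent.P159.TM.H331 Vale.Agent.P159.H773 Vale.Agent.P159.H253.Rec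
open Vale.Agent.P159.TM.Spec (V)
open Vale.Agent.P159.TM.SpecC (wT)
open Vale.Agent.P159.H817 (gr nrm eF sz bD CG IsPath v1 v2)
open Vale.Agent.P159.H770 (wTD Ed wTD_zero)
open Vale.Agent.P159.H883 (CT CT_pos)
open Vale.Agent.P159.H856.Dl (Del)
open Vale.Agent.P159.H972 (Par Good tn lg)
open Vale.Agent.P159.H801 (SFlow xa)
open Vale.Agent.P159.H37.Sf (kf kE1)
open Vale.Agent.P159.H27 (Rb)
open Vale.Agent.P159.H513 (LkS)
open Vale.Agent.P159.H529.Pr (PrN prN_far)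
open Vale.Agent.P159.H340.Dlv (del_flow)

noncomputable section

lemma PrN_mono {N : ℕ} [NeZero N] {b t Δ Δ' c c' : ℝ} {r : ℕ} {p q : V N} (hb : 0 < b)
    (h : PrN N b t r p q Δ c) (hΔ : Δ ≤ Δ') (hc : c ≤ c') : PrN N b t r p q Δ' c' := by
  obtain ⟨L, η, φ, h1, h2, h3, h4⟩ := h
  exact ⟨L, η, φ, h1, h2, h3.trans hΔ, h4.trans
    (mul_le_mul_of_nonneg_right (Real.exp_le_exp.2 hc) (CT_pos hb η).le)⟩

/-- the number of the cores -/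
lemma cp_num {α C : ℝ} (hα1 : α ≤ 1) (hC : 1 ≤ C) {n k s rc : ℕ} (hk : n ≤ k)
    (hrc : 2 ^ (n - s) ≤ rc) (h8 : 8 * rc ≤ 2 ^ k) :
    α * Real.log (((2 ^ k : ℕ) : ℝ) / rc) + C ≤ C * (1 + ((k - n : ℕ) : ℝ) + s) := by
  have hrc0 : 0 < rc := (Nat.pos_of_ne_zero (by positivity) : 0 < 2 ^ (n - s)).trans_le hrc
  have hr0 : (0 : ℝ) < rc := by exact_mod_cast hrc0
  have h1 : ((2 ^ k : ℕ) : ℝ) / rc ≤ 2 ^ (k - (n - s)) := by
    rw [div_le_iff₀ hr0]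
    have h2 : 2 ^ k = 2 ^ (k - (n - s)) * 2 ^ (n - s) := by
      rw [← pow_add]
      congr 1
      omega
    have h3 : 2 ^ k ≤ 2 ^ (k - (n - s)) * rc := by
      rw [h2]
      exact Nat.mul_le_mul_left _ hrc
    exact_mod_cast h3
  have h0 : (1 : ℝ) ≤ ((2 ^ k : ℕ) : ℝ) / rc := by
    rw [one_le_div hr0]
    have : rc ≤ 2 ^ k := by omega
    exact_mod_cast this
  have hl0 := Real.log_nonneg h0
  have h4 := Real.log_le_log (by linarith) h1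
  rw [Real.log_pow] at h4
  have h5 : ((k - (n - s) : ℕ) : ℝ) ≤ ((k - n : ℕ) : ℝ) + s := by
    have : k - (n - s) ≤ (k - n) + s := by omega
    exact_mod_cast this
  have h6 : ((k - (n - s) : ℕ) : ℝ) * Real.log 2 ≤ ((k - (n - s) : ℕ) : ℝ) * 1 :=
    mul_le_mul_of_nonneg_left Dlv.log2_up (Nat.cast_nonneg _)
  have h7 : α * Real.log (((2 ^ k : ℕ) : ℝ) / rc) ≤ 1 * Real.log (((2 ^ k : ℕ) : ℝ) / rc) :=
    mul_le_mul_of_nonneg_right hα1 hl0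
  have h8' : (0 : ℝ) ≤ ((k - n : ℕ) : ℝ) := Nat.cast_nonneg _
  have h9 : (0 : ℝ) ≤ s := Nat.cast_nonneg _
  nlinarith

/-- **`PrN` of every far pair of the scales of the window, along the flow** -/
theorem prN_flow {b b1 b2 pf : ℝ} (hb1 : 0 < b1) (h1 : b1 ≤ b) (hpf : 2 / 3 ≤ pf) (Q : ℕ)
    (hh : 0 < helicity b) (hs : 1 / helicity b < 5 / 2)
    (hSi : ∀ i, 2 / Real.pi ≤ stiff (2 ^ i) b) (hL : LkS b (2 / Real.pi)) :
    H801.Ev b1 b2 pf Q fun P c1 =>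
      ∀ {σ c q2 qx : ℝ} {a y ε xs : ℕ → ℝ} {c' r q A : ℝ} {N : ℕ},
      SFlow P b σ c c1 q2 qx a y ε xs c' r q A N → 0 ≤ σ → σ ≤ 1 / 6 → 0 ≤ c → c < 3 / 16 →
      ∀ ck : ℝ, 0 < ck → 2 * P.th ≤ ck → ck ≤ P.thp →
      ∀ α C1 : ℝ, 1 / 4 ≤ α → α < 1 / 2 → 1 ≤ C1 →
      ∃ (C : ℝ) (i0 : ℕ), 1 ≤ C ∧ ∀ i, i0 ≤ i → ∀ᶠ n : ℕ in atTop,
        ∀ k : ℕ, n + kf ck y n ≤ k → k ≤ kE1 P ck y ε n → RecAt b α C1 (2 ^ k) →
        ∀ rc s : ℕ, 2 ^ (n - s) ≤ rc → 8 * rc ≤ 2 ^ k → ∀ p q : V (sd i (2 ^ k)),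
        H817.Far (2 ^ k) p q → PrN (sd i (2 ^ k)) b (tn n) rc p q
          (C * (1 + Real.log (1 / y n)) ^ 2) (C * (1 + ((k - n : ℕ) : ℝ) + s)) := by
  have hb : 0 < b := hb1.trans_le h1
  refine (del_flow (b2 := b2) hb1 h1 hpf Q hh hs hSi hL).mono fun P c1 hA hT => ?_
  intro σ c q2 qx a y ε xs c' r q A N h hσ0 hσ hc hc3 ck hck hck2 hck1 α C1 hα hα2 hC1
  obtain ⟨C, i0, hC, H⟩ := hT h hσ0 hσ hc hc3 ck hck hck2 hck1 α C1 hα hα2 hC1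
  obtain ⟨C', A0, hC', hA0, H'⟩ := prN_far (b := b) (α := α) (C1 := C1) hb (by linarith)
    (by linarith) hC1
  obtain ⟨i1, hi1⟩ := pow_unbounded_of_one_lt A0 (one_lt_two (α := ℝ))
  refine ⟨max C C', max i0 i1, hC.trans (le_max_left _ _), fun i hi => ?_⟩
  filter_upwards [H i ((le_max_left _ _).trans hi), eventually_ge_atTop 5] with n g1 g2 k hk0 hk1
    hrec rc s hrc h8 p q' hfar
  have hR0 : 2 ^ (n + kf ck y n) ≤ 2 ^ k := Nat.pow_le_pow_right (by norm_num) hk0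
  have hR1 : 2 ^ k ≤ 2 ^ (n + P.w (ε n) + kf ck y (n + P.w (ε n))) :=
    Nat.pow_le_pow_right (by norm_num) hk1
  have hR32 : 32 ≤ 2 ^ k := by
    have : 2 ^ 5 ≤ 2 ^ k := Nat.pow_le_pow_right (by norm_num) (by omega)
    omega
  have hAR : A0 * ((2 ^ k : ℕ) : ℝ) ≤ (sd i (2 ^ k) : ℝ) := by
    have h1 : 2 ^ i * 2 ^ k ≤ sd i (2 ^ k) := H773.sd_ge i (2 ^ k)
    have h4 : (2 : ℝ) ^ i * ((2 ^ k : ℕ) : ℝ) ≤ sd i (2 ^ k) := by exact_mod_cast h1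
    have h5 : A0 ≤ 2 ^ i := hi1.le.trans
      (pow_le_pow_right₀ one_lt_two.le ((le_max_right _ _).trans hi))
    exact (mul_le_mul_of_nonneg_right h5 (Nat.cast_nonneg _)).trans h4
  have hrc1 : 1 ≤ rc := (Nat.one_le_two_pow).trans hrc
  have key := H' (sd i (2 ^ k)) rc (2 ^ k) (tn n) (C * (1 + Real.log (1 / y n)) ^ 2) p q' hrec hR32
    hfar hAR hrc1 h8 fun L η φ hpath hφ =>
      g1 (2 ^ k) hR0 hR1 hrec L η p q' φ hfar.1 hfar.2 hpath hφ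
  refine PrN_mono hb key (mul_le_mul_of_nonneg_right (le_max_left _ _) (by positivity)) ?_
  refine (cp_num (by linarith) hC' (by omega) hrc h8).trans ?_
  exact mul_le_mul_of_nonneg_right (le_max_right _ _) (by positivity)

/-- the two tori of a scale -/
lemma sd_succ (i k : ℕ) : sd (i + 1) (2 ^ k) = sd i (2 ^ (k + 1)) := by
  rw [H773.sd_pow, H773.sd_pow]
  congr 1
  omega

/-- **both lines of `lcK_flow` in helper37's form `Win`** (knowledge at `R`, `2 ≤ Am`, every scale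
`n + kf ≤ k ≤ clog 2 R`) -/
theorem prN_win {b b1 b2 pf : ℝ} (hb1 : 0 < b1) (h1 : b1 ≤ b) (hpf : 2 / 3 ≤ pf) (Q : ℕ)
    (hh : 0 < helicity b) (hs : 1 / helicity b < 5 / 2)
    (hSi : ∀ i, 2 / Real.pi ≤ stiff (2 ^ i) b) (hL : LkS b (2 / Real.pi)) :
    H801.Ev b1 b2 pf Q fun P c1 =>
      ∀ {σ c q2 qx : ℝ} {a y ε xs : ℕ → ℝ} {c' r q A : ℝ} {N : ℕ},
      SFlow P b σ c c1 q2 qx a y ε xs c' r q A N → 0 ≤ σ → σ ≤ 1 / 6 → 0 ≤ c → c < 3 / 16 →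
      ∀ ck : ℝ, 0 < ck → 2 * P.th ≤ ck → ck ≤ P.thp →
      ∀ (β C2 A0 : ℝ) (Am : ℕ), 1 / 4 ≤ β → β < 1 / 2 → 1 ≤ C2 → 2 ≤ Am →
      ∃ (C : ℝ) (i0 : ℕ), 1 ≤ C ∧ ∀ i, i0 ≤ i →
        H37.Sf.Win P b β C2 A0 Am i ck a y ε fun n R =>
          ∀ k : ℕ, n + kf ck y n ≤ k → k ≤ Nat.clog 2 R →
          ∀ rc s : ℕ, 2 ^ (n - s) ≤ rc → 8 * rc ≤ 2 ^ k →
          (∀ p q : V (sd i (2 ^ k)), H817.Far (2 ^ k) p q → PrN (sd i (2 ^ k)) b (tn n) rc p q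
            (C * (1 + Real.log (1 / y n)) ^ 2) (C * (1 + ((k - n : ℕ) : ℝ) + s))) ∧
          (∀ p q : V (sd i (2 ^ (k + 1))), H817.Far (2 ^ k) p q →
            PrN (sd i (2 ^ (k + 1))) b (tn n) rc p q
            (C * (1 + Real.log (1 / y n)) ^ 2) (C * (1 + ((k - n : ℕ) : ℝ) + s))) := by
  refine (prN_flow (b2 := b2) hb1 h1 hpf Q hh hs hSi hL).mono fun P c1 hA hT => ?_
  intro σ c q2 qx a y ε xs c' r q A N h hσ0 hσ hc hc3 ck hck hck2 hck1 β C2 A0 Am hβ hβ2 hC2 hAm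
  obtain ⟨C, i0, hC, H⟩ := hT h hσ0 hσ hc hc3 ck hck hck2 hck1 β C2 hβ hβ2 hC2
  refine ⟨C, i0, hC, fun i hi => ?_⟩
  unfold H37.Sf.Win
  filter_upwards [H i hi, H (i + 1) (hi.trans (Nat.le_succ i)), eventually_ge_atTop 5] with n g1 g2
    g3 n0 j hnj R hR0 hR1 K k hk0 hk1 rc s hrc h8
  obtain ⟨κ, slo⟩ := K.slo
  have r0 : Rb (kf ck y) (fun n => P.w (ε n)) n0 0 ≤ Rb (kf ck y) (fun n => P.w (ε n)) n0 j :=
    slo.Rb_mono (Nat.zero_le j)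
  have r1 : Rb (kf ck y) (fun n => P.w (ε n)) n0 j = 2 ^ (n + kf ck y n) := by
    unfold H27.Rb H552.Dx7.kk
    rw [← hnj]
  have hRb : Rb (kf ck y) (fun n => P.w (ε n)) n0 0 ≤ 2 ^ k := by
    rw [r1] at r0
    exact r0.trans (Nat.pow_le_pow_right (by norm_num) hk0)
  have hk2 : 2 ^ k ≤ 2 * R := by
    have h2 : 2 ^ k ≤ 2 ^ Nat.clog 2 R := Nat.pow_le_pow_right (by norm_num) hk1
    have hR2 : 2 ≤ R := by
      have : 2 ^ 1 ≤ 2 ^ (n + kf ck y n) := Nat.pow_le_pow_right (by norm_num) (by omega)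
      omega
    have h3 : 2 ^ (Nat.clog 2 R - 1) < R := Nat.pow_pred_clog_lt_self (by norm_num) (by omega)
    have h4 : 1 ≤ Nat.clog 2 R := Nat.clog_pos (by norm_num) hR2
    have h5 : 2 ^ Nat.clog 2 R = 2 * 2 ^ (Nat.clog 2 R - 1) := by
      rw [← pow_succ']
      congr 1
      omega
    omega
  have hrec := K.rcd (2 ^ k) hRb (hk2.trans (Nat.mul_le_mul_right R hAm))
  have hkE : k ≤ kE1 P ck y ε n := by
    have h2 := Nat.clog_mono_right 2 hR1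
    rw [Nat.clog_pow 2 _ one_lt_two] at h2
    omega
  refine ⟨g1 k hk0 hkE hrec rc s hrc h8, ?_⟩
  have g4 := g2 k hk0 hkE hrec rc s hrc h8
  have e := sd_succ i k
  have gen : ∀ (N M : ℕ) [i1 : NeZero N] [i2 : NeZero M], N = M →
      (∀ p q : V N, H817.Far (2 ^ k) p q → PrN N b (tn n) rc p q
        (C * (1 + Real.log (1 / y n)) ^ 2) (C * (1 + ((k - n : ℕ) : ℝ) + s))) →
      ∀ p q : V M, H817.Far (2 ^ k) p q → PrN M b (tn n) rc p q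
        (C * (1 + Real.log (1 / y n)) ^ 2) (C * (1 + ((k - n : ℕ) : ℝ) + s)) := by
    intro N M i1 i2 hNM hN
    subst hNM
    have e : i1 = i2 := Subsingleton.elim _ _
    subst e
    exact hN
  exact gen _ _ e g4

end

end Vale.Agent.P159.H340.Prf
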