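import Vale.Agent.P159.H340.Tr1
import Vale.Agent.P159.H375.FineM

/-!
P159, module TR (helper340), part 2: crude bound in a free block, sum over all cells of one level.
-/

open Filter Topology MeasureTheory

namespace Vale.Agent.P159.H340

open Vale.Agent.P159.TM
open Vale.Agent.P159.TM.H22 (SG Gle lin)
open Vale.Agent.P159.TM.SpecI
open Vale.Agent.P159.TM.H574
open Vale.Agent.P159.H353 (wI wI_nonneg wI_neg wI_zero_pos)
open Vale.Agent.P159.R2.H254 (Fa Eb blf brt bcur Hgt hWt hWt_eq)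
open Finset

section crude

variable {n : ℕ} [NeZero n] {b : ℝ}

/-- crude bound in a free block -/
theorem blk_crude (hb : 0 ≤ b) {L r : ℕ} {P q : ℕ × ℕ} (hr : 2 ≤ r) (hP1 : P.1 + L ≤ n)
    (hP2 : P.2 + L ≤ n) (h1 : P.1 ≤ q.1) (h2 : P.2 ≤ q.2) (h3 : q.1 + r ≤ P.1 + L)
    (h4 : q.2 + r ≤ P.2 + L) {g : V n → ℝ} (hg : ∑ x, g x = 0)
    (hgs : ∀ x, x ∉ bx q r → g x = 0) (hgb : ∀ x, |g x| ≤ 1 / (r : ℝ) ^ 2) :
    ex b (eb P L) ((bx P L)ᶜ ∪ {cnr P}) (fun _ => 0) (fun h => pr g h ^ 2) ≤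
      76800 * Real.exp b + 1 := by
  classical
  obtain ⟨N, rfl⟩ : ∃ N, L = N + 1 := ⟨L - 1, by omega⟩
  have hq1 : q.1 + r ≤ n := by omega
  have hq2 : q.2 + r ≤ n := by omega
  have i1 := H928.prob_mw (b := b) hb N
  have hem : ∀ i j, i < r → j < r → H928.vp n (q.1 + i) (q.2 + j) =
      H928.em n N P (H928.fp N (q.1 - P.1 + i) (q.2 - P.2 + j)) := by
    intro i j hi hj
    rw [H928.em_fp (by omega) (by omega)]
    congr 1 <;> omega
  have hprx : ∀ h : Fa N → ℤ, pr g (H928.xt n P h) = ∑ i ∈ range r, ∑ j ∈ range r,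
      g (H928.vp n (q.1 + i) (q.2 + j)) *
        (h (H928.fp N (q.1 - P.1 + i) (q.2 - P.2 + j)) : ℝ) := by
    intro h
    rw [H928.pr_coord hq1 hq2 hgs]
    refine sum_congr rfl fun i hi => sum_congr rfl fun j hj => ?_
    rw [mem_range] at hi hj
    congr 1
    rw [hem i j hi hj, H928.xt_em (by omega) (by omega)]
  have hgr : H928.IsGrid (brt (N := N)) blf
      (fun i j => H928.fp N (q.1 - P.1 + i) (q.2 - P.2 + j)) r r :=
    (H928.grid_hgt N).shift (by omega) (by omega)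
  have hsum0 : ∑ i ∈ range r, ∑ j ∈ range r, g (H928.vp n (q.1 + i) (q.2 + j)) = 0 := by
    rw [← H928.sum_coord hq1 hq2 hgs, hg]
  have hM := H928.neut_mom4 (H928.conn_hgt N) (fun _ => hb) (fun _ => le_rfl) hb
    (Set.singleton_nonempty ((0, 0) : Fa N)) hr hgr
    (fun i j => g (H928.vp n (q.1 + i) (q.2 + j))) hsum0 (fun i j _ _ => hgb _)
  rw [H928.ex_eb hb (by omega) (by omega)]
  simp only [hprx]
  have h5 : ∫ h : Fa N → ℤ, (∑ i ∈ range r, ∑ j ∈ range r,
      g (H928.vp n (q.1 + i) (q.2 + j)) *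
        (h (H928.fp N (q.1 - P.1 + i) (q.2 - P.2 + j)) : ℝ)) ^ 2 ∂(H928.mw N b) ≤
      ∫ h : Fa N → ℤ, ((∑ i ∈ range r, ∑ j ∈ range r,
        g (H928.vp n (q.1 + i) (q.2 + j)) *
          (h (H928.fp N (q.1 - P.1 + i) (q.2 - P.2 + j)) : ℝ)) ^ 4 + 1) ∂(H928.mw N b) := by
    refine integral_mono (hM.1 2) ((hM.1 4).add (integrable_const _)) fun h => ?_
    simp only
    nlinarith [sq_nonneg ((∑ i ∈ range r, ∑ j ∈ range r,
        g (H928.vp n (q.1 + i) (q.2 + j)) *
          (h (H928.fp N (q.1 - P.1 + i) (q.2 - P.2 + j)) : ℝ)) ^ 2 - 1),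
      sq_nonneg ((∑ i ∈ range r, ∑ j ∈ range r,
        g (H928.vp n (q.1 + i) (q.2 + j)) *
          (h (H928.fp N (q.1 - P.1 + i) (q.2 - P.2 + j)) : ℝ)) ^ 2)]
  rw [integral_add (hM.1 4) (integrable_const _)] at h5
  simp only [integral_const, probReal_univ, smul_eq_mul, mul_one] at h5
  linarith [hM.2]

end crude

/-! ### counting -/

/-- the parent of the cell `d` (of the block) is at distance `≥ m + 1` parents from the boundary -/
def Ok (m X d : ℕ) : Prop := m + 1 ≤ d / 2 ∧ d / 2 + m + 2 ≤ X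

instance (m X d : ℕ) : Decidable (Ok m X d) := by unfold Ok; infer_instance

lemma card_bad0 (m X : ℕ) :
    ((range (2 * X)).filter fun d => ¬ Ok m X d).card ≤ 4 * (m + 1) := by
  have h1 : (range (2 * X)).filter (fun d => ¬ Ok m X d) ⊆
      range (2 * (m + 1)) ∪ Ico (2 * X - 2 * (m + 1)) (2 * X) := by
    intro x hx
    rw [mem_filter, mem_range] at hx
    obtain ⟨h2, h3⟩ := hx
    rw [mem_union, mem_range, mem_Ico]
    unfold Ok at h3
    omega
  refine (card_le_card h1).trans ((card_union_le _ _).trans ?_)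
  rw [card_range, Nat.card_Ico]
  omega

lemma card_bad1 (nb m X : ℕ) :
    ((range (nb * (2 * X))).filter fun c => ¬ Ok m X (c % (2 * X))).card ≤
      nb * (4 * (m + 1)) := by
  classical
  have h1 : (range (nb * (2 * X))).filter (fun c => ¬ Ok m X (c % (2 * X))) ⊆
      (range nb ×ˢ ((range (2 * X)).filter fun d => ¬ Ok m X d)).image
        fun p => p.1 * (2 * X) + p.2 := by
    intro c hc
    rw [mem_filter, mem_range] at hc
    obtain ⟨h2, h3⟩ := hc
    have hX : 0 < 2 * X := by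
      by_contra h
      have : 2 * X = 0 := by omega
      rw [this, mul_zero] at h2
      omega
    rw [mem_image]
    refine ⟨(c / (2 * X), c % (2 * X)), ?_, ?_⟩
    · rw [mem_product, mem_range, mem_filter, mem_range]
      refine ⟨?_, Nat.mod_lt _ hX, h3⟩
      rw [Nat.div_lt_iff_lt_mul hX]
      exact h2
    · simp only
      exact Nat.div_add_mod' c (2 * X)
  refine (card_le_card h1).trans (card_image_le.trans ?_)
  rw [card_product, card_range]
  exact Nat.mul_le_mul_left _ (card_bad0 m X)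

lemma card_bad2 (nb m X : ℕ) :
    ((range (nb * (2 * X)) ×ˢ range (nb * (2 * X))).filter fun c : ℕ × ℕ =>
      ¬ (Ok m X (c.1 % (2 * X)) ∧ Ok m X (c.2 % (2 * X)))).card ≤
      2 * ((nb * (2 * X)) * (nb * (4 * (m + 1)))) := by
  set S := range (nb * (2 * X)) with hS
  have hSc : S.card = nb * (2 * X) := card_range _
  have h1 : (S ×ˢ S).filter (fun c : ℕ × ℕ =>
      ¬ (Ok m X (c.1 % (2 * X)) ∧ Ok m X (c.2 % (2 * X)))) ⊆
      ((S.filter fun x => ¬ Ok m X (x % (2 * X))) ×ˢ S) ∪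
        (S ×ˢ (S.filter fun x => ¬ Ok m X (x % (2 * X)))) := by
    intro c hc
    rw [mem_filter, mem_product] at hc
    rw [mem_union, mem_product, mem_product, mem_filter, mem_filter]
    tauto
  refine (card_le_card h1).trans ((card_union_le _ _).trans ?_)
  rw [card_product, card_product, hSc]
  have h2 := card_bad1 nb m X
  rw [← hS] at h2
  have h3 := Nat.mul_le_mul_left (nb * (2 * X)) h2
  have h4 := Nat.mul_le_mul_right (nb * (2 * X)) h2
  have e : nb * (4 * (m + 1)) * (nb * (2 * X)) = nb * (2 * X) * (nb * (4 * (m + 1))) :=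
    Nat.mul_comm _ _
  rw [e] at h4
  linarith

/-- splitting a sum into good and bad cells -/
lemma sum_split {S : Finset (ℕ × ℕ)} {F : ℕ × ℕ → ℝ} {G : ℕ × ℕ → Prop} [DecidablePred G]
    {B₁ B₂ : ℝ} (hB1 : 0 ≤ B₁) (h1 : ∀ c ∈ S, G c → F c ≤ B₁)
    (h2 : ∀ c ∈ S, F c ≤ B₂) :
    ∑ c ∈ S, F c ≤ S.card * B₁ + (S.filter fun c => ¬ G c).card * B₂ := by
  have h3 : ∀ c ∈ S, F c ≤ B₁ + if ¬ G c then B₂ else 0 := by
    intro c hc
    by_cases h : G c
    · rw [if_neg (not_not.2 h), add_zero]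
      exact h1 c hc h
    · rw [if_pos h]
      linarith [h2 c hc]
  refine (sum_le_sum h3).trans (le_of_eq ?_)
  rw [sum_add_distrib, sum_const, nsmul_eq_mul, ← sum_filter, sum_const, nsmul_eq_mul]

end Vale.Agent.P159.H340
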