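import Vale.Agent.P159.H340.Tr2

/-!
P159, module TR (helper340), part 3: the quadratic part of FN: sum over all cells of side `r` of
(free block variance - torus variance) of the Haar functionals, `≤ C N² (r / L)^c`.
-/

open Filter Topology MeasureTheory

namespace Vale.Agent.P159.H340

open Vale.Agent.P159.TM
open Vale.Agent.P159.TM.H22 (SG Gle lin)
open Vale.Agent.P159.TM.SpecI
open Vale.Agent.P159.TM.H574
open Vale.Agent.P159.TM.SpecC (wT)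
open Vale.Agent.P159.H353 (wI wI_nonneg wI_neg wI_zero_pos)
open Vale.Agent.P159.H37 (qf wM Gm)
open Vale.Agent.P159.H375 (mf)
open Finset Matrix

noncomputable section

/-- corner of the block of the cell `c`; `Y` cells per block side, `L` sites per block side -/
def pk (Y L : ℕ) (c : ℕ × ℕ) : ℕ × ℕ := (c.1 / Y * L, c.2 / Y * L)

/-- the Haar functional of the cell `c` of side `r` -/
def fc {N : ℕ} [NeZero N] (r : ℕ) (c : ℕ × ℕ) (x : V N) : ℝ := (r : ℝ) * dc r c x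

/-- variance of a functional in the free block of side `L` with corner `P` -/
def vk {N : ℕ} [NeZero N] (b : ℝ) (L : ℕ) (P : ℕ × ℕ) (g : V N → ℝ) : ℝ :=
  ex b (eb P L) ((bx P L)ᶜ ∪ {cnr P}) (fun _ => 0) (fun h => pr g h ^ 2)

section cell

variable {N : ℕ} [NeZero N] {b : ℝ}

lemma pr_cmul (a : ℝ) (g : V N → ℝ) (h : V N → ℤ) : pr (fun x => a * g x) h = a * pr g h := by
  unfold pr
  rw [mul_sum]
  exact sum_congr rfl fun x _ => by ring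

lemma vk_cmul (L : ℕ) (P : ℕ × ℕ) (a : ℝ) (g : V N → ℝ) :
    vk b L P (fun x => a * g x) = a ^ 2 * vk b L P g := by
  unfold vk
  rw [← ex_smul]
  congr 1
  funext h
  rw [pr_cmul]
  ring

lemma qf_cmul (M : Matrix (V N) (V N) ℝ) (a : ℝ) (g : V N → ℝ) :
    qf M (fun x => a * g x) = a ^ 2 * qf M g := by
  have := H37.qf_smul M a g
  exact this

/-- geometry of a cell inside its block -/
lemma cell_geo {X r nb : ℕ} (hX : 0 < X) {c : ℕ} (hc : c < nb * (2 * X)) :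
    c / 2 * (2 * r) = c / (2 * X) * (2 * X * r) + c % (2 * X) / 2 * (2 * r) ∧
    c % (2 * X) / 2 + 1 ≤ X ∧ c / (2 * X) * (2 * X * r) + 2 * X * r ≤ nb * (2 * X * r) := by
  have h1 := Nat.div_add_mod c (2 * X)
  have h2 : c / 2 = c / (2 * X) * X + c % (2 * X) / 2 := by
    have h3 : c = 2 * (c / (2 * X) * X) + c % (2 * X) := by
      calc c = 2 * X * (c / (2 * X)) + c % (2 * X) := h1.symm
        _ = _ := by ring
    omega
  have h4 := Nat.mod_lt c (show 0 < 2 * X by omega)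
  have h5 : c / (2 * X) + 1 ≤ nb := by
    rw [Nat.succ_le_iff, Nat.div_lt_iff_lt_mul (by omega)]
    exact hc
  refine ⟨?_, by omega, ?_⟩
  · rw [h2]
    ring
  · calc c / (2 * X) * (2 * X * r) + 2 * X * r = (c / (2 * X) + 1) * (2 * X * r) := by ring
      _ ≤ _ := Nat.mul_le_mul_right _ h5


/-- the Haar functional of a cell, normalised -/
lemma cell_fun {X r nb : ℕ} (hX1 : 1 ≤ X) (hr1 : 1 ≤ r) (hN : N = nb * (2 * X * r)) (c : ℕ × ℕ)
    (h1 : c.1 < nb * (2 * X)) (h2 : c.2 < nb * (2 * X)) :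
    ∃ g : V N → ℝ, ∑ x, g x = 0 ∧
      (∀ x, x ∉ bx (c.1 / 2 * (2 * r), c.2 / 2 * (2 * r)) (2 * r) → g x = 0) ∧
      (∀ x, |g x| ≤ 1 / ((2 * r : ℕ) : ℝ) ^ 2) ∧
      (fc r c : V N → ℝ) = fun x => (3 * r) * g x := by
  obtain ⟨a1, a2, a3⟩ := cell_geo (r := r) hX1 h1
  obtain ⟨b1, b2, b3⟩ := cell_geo (r := r) hX1 h2
  have q1 : (c.1 / 2 + 1) * (2 * r) ≤ N := by
    have : (c.1 % (2 * X) / 2 + 1) * (2 * r) ≤ X * (2 * r) := Nat.mul_le_mul_right _ a2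
    calc (c.1 / 2 + 1) * (2 * r) = c.1 / 2 * (2 * r) + 2 * r := by ring
      _ = c.1 / (2 * X) * (2 * X * r) + (c.1 % (2 * X) / 2 + 1) * (2 * r) := by rw [a1]; ring
      _ ≤ c.1 / (2 * X) * (2 * X * r) + X * (2 * r) := by omega
      _ = c.1 / (2 * X) * (2 * X * r) + 2 * X * r := by ring
      _ ≤ N := by rw [hN]; exact a3
  have q2 : (c.2 / 2 + 1) * (2 * r) ≤ N := by
    have : (c.2 % (2 * X) / 2 + 1) * (2 * r) ≤ X * (2 * r) := Nat.mul_le_mul_right _ b2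
    calc (c.2 / 2 + 1) * (2 * r) = c.2 / 2 * (2 * r) + 2 * r := by ring
      _ = c.2 / (2 * X) * (2 * X * r) + (c.2 % (2 * X) / 2 + 1) * (2 * r) := by rw [b1]; ring
      _ ≤ c.2 / (2 * X) * (2 * X * r) + X * (2 * r) := by omega
      _ = c.2 / (2 * X) * (2 * X * r) + 2 * X * r := by ring
      _ ≤ N := by rw [hN]; exact b3
  refine ⟨fun x => dc r c x / 3, ?_, fun x hx => ?_, fun x => ?_, ?_⟩
  · rw [← sum_div, sum_dc hr1 c, zero_div]
  · simp only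
    rw [(dc_facts hr1 q1 q2 x).2 hx, zero_div]
  · simp only
    rw [abs_div, abs_of_pos (show (0 : ℝ) < 3 by norm_num), div_le_iff₀ (by norm_num)]
    calc |dc r c x| ≤ 3 / ((2 * r : ℕ) : ℝ) ^ 2 := (dc_facts hr1 q1 q2 x).1
      _ = _ := by ring
  · funext x
    unfold fc
    ring

/-- crude bound of the variance in the block -/
lemma vk_crude (hb : 0 ≤ b) {X r nb : ℕ} (hX1 : 1 ≤ X) (hr1 : 1 ≤ r)
    (hN : N = nb * (2 * X * r)) (c : ℕ × ℕ)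
    (h1 : c.1 < nb * (2 * X)) (h2 : c.2 < nb * (2 * X)) :
    vk b (2 * X * r) (pk (2 * X) (2 * X * r) c) (fc (N := N) r c) ≤
      9 * (r : ℝ) ^ 2 * (76800 * Real.exp b + 1) := by
  obtain ⟨a1, a2, a3⟩ := cell_geo (r := r) hX1 h1
  obtain ⟨b1, b2, b3⟩ := cell_geo (r := r) hX1 h2
  obtain ⟨g, g1, g2, g3, g4⟩ := cell_fun hX1 hr1 hN c h1 h2
  have l1 : (c.1 % (2 * X) / 2 + 1) * (2 * r) ≤ X * (2 * r) := Nat.mul_le_mul_right _ a2
  have l2 : (c.2 % (2 * X) / 2 + 1) * (2 * r) ≤ X * (2 * r) := Nat.mul_le_mul_right _ b2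
  have l3 : X * (2 * r) = 2 * X * r := by ring
  have l4 : (c.1 % (2 * X) / 2 + 1) * (2 * r) = c.1 % (2 * X) / 2 * (2 * r) + 2 * r := by ring
  have l5 : (c.2 % (2 * X) / 2 + 1) * (2 * r) = c.2 % (2 * X) / 2 * (2 * r) + 2 * r := by ring
  have h3 := blk_crude (n := N) hb (L := 2 * X * r) (r := 2 * r)
    (P := pk (2 * X) (2 * X * r) c) (q := (c.1 / 2 * (2 * r), c.2 / 2 * (2 * r)))
    (by omega) (by unfold pk; simp only; rw [hN]; exact a3)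
    (by unfold pk; simp only; rw [hN]; exact b3)
    (by unfold pk; simp only; rw [a1]; omega) (by unfold pk; simp only; rw [b1]; omega)
    (by unfold pk; simp only; rw [a1]; omega) (by unfold pk; simp only; rw [b1]; omega)
    g1 g2 g3
  rw [g4, vk_cmul]
  unfold vk
  have h4 := mul_le_mul_of_nonneg_left h3 (sq_nonneg (3 * (r : ℝ)))
  refine h4.trans (le_of_eq ?_)
  ring

/-- a cell away from the boundary of its block -/
lemma vk_good {C₁ c₁ : ℝ}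
    (hG : ∀ (n : ℕ) [NeZero n] (K r m L : ℕ) (P q : ℕ × ℕ), 2 ≤ r → 1 ≤ m →
    (2 * m + 1) * r ≤ 2 ^ K → 2 ^ (K + 1) + 1 ≤ n → P.1 + L ≤ n → P.2 + L ≤ n →
    P.1 + m * r + 1 ≤ q.1 → P.2 + m * r + 1 ≤ q.2 →
    q.1 + r + m * r + 1 ≤ P.1 + L → q.2 + r + m * r + 1 ≤ P.2 + L →
    ∀ t : ℝ, 0 ≤ t → t * 4 ^ K ≤ 1 →
    ∀ g : V n → ℝ, ∑ x, g x = 0 → (∀ x, x ∉ bx q r → g x = 0) →
      (∀ x, |g x| ≤ 1 / (r : ℝ) ^ 2) →
    ∀ M R : (V n → ℤ) → ℝ, SQ M → Coe univ ∅ M → SQ R → (∀ h, M h + R h = full t h) →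
      ex b (eb P L) ((bx P L)ᶜ ∪ {cnr P}) (fun _ => 0) (fun h => pr g h ^ 2) -
        ex b univ ∅ M (fun h => pr g h ^ 2) ≤ C₁ * (m : ℝ) ^ (-c₁) + C₁ * √(t * 4 ^ K))
    {X r nb K m : ℕ} (hX1 : 1 ≤ X) (hr1 : 1 ≤ r) (hm1 : 1 ≤ m) (hK : (2 * m + 1) * (2 * r) ≤ 2 ^ K)
    (hKN : 2 ^ (K + 1) + 1 ≤ N) (hN : N = nb * (2 * X * r)) {t : ℝ} (ht : 0 ≤ t)
    (ht1 : t * 4 ^ K ≤ 1) {M R : (V N → ℤ) → ℝ} (sM : SQ M) (cM : Coe univ ∅ M) (sR : SQ R)
    (hMR : ∀ h, M h + R h = full t h) (c : ℕ × ℕ)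
    (h1 : c.1 < nb * (2 * X)) (h2 : c.2 < nb * (2 * X))
    (o1 : Ok m X (c.1 % (2 * X))) (o2 : Ok m X (c.2 % (2 * X))) :
    vk b (2 * X * r) (pk (2 * X) (2 * X * r) c) (fc (N := N) r c) -
      ex b univ ∅ M (fun h => pr (fc r c) h ^ 2) ≤
        9 * (r : ℝ) ^ 2 * (C₁ * (m : ℝ) ^ (-c₁) + C₁ * √(t * 4 ^ K)) := by
  obtain ⟨a1, a2, a3⟩ := cell_geo (r := r) hX1 h1
  obtain ⟨b1, b2, b3⟩ := cell_geo (r := r) hX1 h2
  obtain ⟨g, g1, g2, g3, g4⟩ := cell_fun hX1 hr1 hN c h1 h2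
  unfold Ok at o1 o2
  obtain ⟨o1, o3⟩ := o1
  obtain ⟨o2, o4⟩ := o2
  have l1 : (m + 1) * (2 * r) ≤ c.1 % (2 * X) / 2 * (2 * r) := Nat.mul_le_mul_right _ o1
  have l2 : (c.1 % (2 * X) / 2 + m + 2) * (2 * r) ≤ X * (2 * r) := Nat.mul_le_mul_right _ o3
  have l3 : (m + 1) * (2 * r) ≤ c.2 % (2 * X) / 2 * (2 * r) := Nat.mul_le_mul_right _ o2
  have l4 : (c.2 % (2 * X) / 2 + m + 2) * (2 * r) ≤ X * (2 * r) := Nat.mul_le_mul_right _ o4
  have l5 : X * (2 * r) = 2 * X * r := by ring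
  have l6 : (m + 1) * (2 * r) = m * (2 * r) + 2 * r := by ring
  have l7 : (c.1 % (2 * X) / 2 + m + 2) * (2 * r) =
    c.1 % (2 * X) / 2 * (2 * r) + m * (2 * r) + 2 * (2 * r) := by ring
  have l8 : (c.2 % (2 * X) / 2 + m + 2) * (2 * r) =
    c.2 % (2 * X) / 2 * (2 * r) + m * (2 * r) + 2 * (2 * r) := by ring
  have h3 := hG N K (2 * r) m (2 * X * r) (pk (2 * X) (2 * X * r) c)
    (c.1 / 2 * (2 * r), c.2 / 2 * (2 * r)) (by omega) hm1 hK hKN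
    (by unfold pk; simp only; rw [hN]; exact a3)
    (by unfold pk; simp only; rw [hN]; exact b3)
    (by unfold pk; simp only; rw [a1]; omega) (by unfold pk; simp only; rw [b1]; omega)
    (by unfold pk; simp only; rw [a1]; omega) (by unfold pk; simp only; rw [b1]; omega)
    t ht ht1 g g1 g2 g3 M R sM cM sR hMR
  have e1 : ex b univ ∅ M (fun h => pr (fc (N := N) r c) h ^ 2) =
      (3 * (r : ℝ)) ^ 2 * ex b univ ∅ M (fun h => pr g h ^ 2) := by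
    rw [g4, ← ex_smul]
    congr 1
    funext h
    rw [pr_cmul]
    ring
  rw [e1, g4, vk_cmul]
  unfold vk
  rw [← mul_sub]
  have h4 := mul_le_mul_of_nonneg_left h3 (sq_nonneg (3 * (r : ℝ)))
  refine h4.trans (le_of_eq ?_)
  ring

end cell

/-- the rate -/
lemma rate {m X r c' : ℝ} (hm : 1 ≤ m) (hX : 0 < X) (hr : 0 < r) (hmX : X ≤ 2 * (m * m))
    (hc0 : 0 < c') (hc1 : c' ≤ 1) : m ^ (-c') ≤ 2 * (r / (2 * X * r)) ^ (c' / 2) := by
  have m0 : 0 < m := by linarith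
  have hmp : 0 < m ^ (-c') := Real.rpow_pos_of_pos m0 _
  have h1 : r / (2 * X * r) = (2 * X)⁻¹ := by field_simp
  rw [h1]
  have h2 : ((2 * m) ^ 2)⁻¹ ≤ (2 * X)⁻¹ := by
    refine inv_anti₀ (by positivity) ?_
    nlinarith
  have h3 : (((2 * m) ^ 2)⁻¹) ^ (c' / 2) ≤ ((2 * X)⁻¹) ^ (c' / 2) :=
    Real.rpow_le_rpow (by positivity) h2 (by positivity)
  have h4 : (((2 * m) ^ 2)⁻¹) ^ (c' / 2) = (2 : ℝ) ^ (-c') * m ^ (-c') := by
    rw [← Real.rpow_natCast, ← Real.rpow_neg (by positivity), ← Real.rpow_mul (by positivity),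
      ← Real.mul_rpow (by norm_num) m0.le]
    congr 1
    push_cast
    ring
  have h5 : (2 : ℝ)⁻¹ ≤ (2 : ℝ) ^ (-c') := by
    have : (2 : ℝ)⁻¹ = (2 : ℝ) ^ (-(1 : ℝ)) := by
      rw [Real.rpow_neg (by norm_num), Real.rpow_one]
    rw [this]
    exact Real.rpow_le_rpow_of_exponent_le (by norm_num) (by linarith)
  rw [h4] at h3
  have h6 := mul_le_mul_of_nonneg_right h5 hmp.le
  linarith

/-- numbers of the choice `m = 2 ^ (e / 2)` -/
lemma mass_num {m X r t : ℝ} (hm : 8 ≤ m) (hX : 0 < X) (hr : 0 < r) (hmX : m * m ≤ X)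
    (ht : t * (2 * X * r) ^ 2 ≤ 1) {K : ℕ} (hK : (4 : ℝ) ^ K = (8 * m * r) ^ 2) :
    t * 4 ^ K ≤ 1 ∧ √(t * 4 ^ K) ≤ 4 / m := by
  have m0 : 0 < m := by linarith
  have ht4 : t * 4 ^ K ≤ (4 / m) ^ 2 := by
    rw [hK]
    have h1 : (8 * m * r) ^ 2 = (2 * X * r) ^ 2 * (4 * m / X) ^ 2 := by
      field_simp
      ring
    rw [h1, ← mul_assoc]
    have h2 : (4 * m / X) ^ 2 ≤ (4 / m) ^ 2 := by
      refine pow_le_pow_left₀ (by positivity) ?_ 2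
      rw [div_le_div_iff₀ hX m0]
      nlinarith
    calc t * (2 * X * r) ^ 2 * (4 * m / X) ^ 2 ≤ 1 * (4 * m / X) ^ 2 :=
          mul_le_mul_of_nonneg_right ht (sq_nonneg _)
      _ ≤ _ := by rw [one_mul]; exact h2
  refine ⟨ht4.trans ?_, ?_⟩
  · rw [div_pow, div_le_one (by positivity)]
    nlinarith
  · rw [← Real.sqrt_sq (show (0 : ℝ) ≤ 4 / m by positivity)]
    exact Real.sqrt_le_sqrt ht4

lemma bad_num (nb m X : ℕ) (hm : 1 ≤ m) (hmX : m * m ≤ X) :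
    (((range (nb * (2 * X)) ×ˢ range (nb * (2 * X))).filter fun c : ℕ × ℕ =>
      ¬ (Ok m X (c.1 % (2 * X)) ∧ Ok m X (c.2 % (2 * X)))).card : ℝ) ≤
      (nb * (2 * X)) ^ 2 * (8 * (1 / m)) := by
  have m0' : (0 : ℝ) < m := by exact_mod_cast (by omega : 0 < m)
  have m1' : (1 : ℝ) ≤ m := by exact_mod_cast hm
  have hmX' : (m : ℝ) * m ≤ X := by exact_mod_cast hmX
  have h1 : (((range (nb * (2 * X)) ×ˢ range (nb * (2 * X))).filter fun c : ℕ × ℕ =>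
    ¬ (Ok m X (c.1 % (2 * X)) ∧ Ok m X (c.2 % (2 * X)))).card : ℝ) ≤
    ((2 * ((nb * (2 * X)) * (nb * (4 * (m + 1)))) : ℕ) : ℝ) := by
    exact_mod_cast card_bad2 nb m X
  refine h1.trans ?_
  push_cast
  have h2 : ((m : ℝ) + 1) * m ≤ 2 * X := by nlinarith
  have h3 : ((m : ℝ) + 1) ≤ 2 * X * (1 / m) := by
    rw [mul_one_div, le_div_iff₀ m0']
    exact h2
  calc 2 * ((nb : ℝ) * (2 * X) * (nb * (4 * (m + 1)))) =
        16 * (nb : ℝ) ^ 2 * X * (m + 1) / 1 := by ring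
    _ ≤ 16 * (nb : ℝ) ^ 2 * X * (2 * X * (1 / m)) := by
        rw [div_one]
        exact mul_le_mul_of_nonneg_left h3 (by positivity)
    _ = _ := by ring

/-- the algebra of the large scale case -/
lemma alg_large {S n2 r A C c0 m1 mc sq cd bd : ℝ} (hr : 0 ≤ r) (hA : 0 ≤ A) (hC : 0 ≤ C)
    (hn2 : 0 ≤ n2) (hmc : 0 ≤ mc) (h1 : c0 ≤ mc) (h2 : sq ≤ 4 * m1) (h3 : m1 ≤ mc)
    (hcd : cd = n2) (hbd : bd ≤ n2 * (8 * m1))
    (hS : S ≤ cd * (9 * r * (C * c0 + C * sq)) + bd * (9 * r * A)) :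
    S ≤ (9 * (5 * C + 8 * A) + 72 * A) * (n2 * r) * mc := by
  have k1 : C * c0 + C * sq ≤ 5 * C * mc := by nlinarith
  have k2 : cd * (9 * r * (C * c0 + C * sq)) ≤ n2 * (9 * r * (5 * C * mc)) := by
    rw [hcd]
    exact mul_le_mul_of_nonneg_left (mul_le_mul_of_nonneg_left k1 (by positivity)) hn2
  have k3 : bd * (9 * r * A) ≤ n2 * (8 * mc) * (9 * r * A) := by
    refine mul_le_mul_of_nonneg_right (hbd.trans ?_) (by positivity)
    exact mul_le_mul_of_nonneg_left (by linarith) hn2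
  have k4 : 0 ≤ 72 * A * (n2 * r) * mc := by positivity
  nlinarith

/-- the algebra of the small scale case -/
lemma alg_small {S n2 r A C mc cd : ℝ} (hr : 0 ≤ r) (hA : 0 ≤ A) (hC : 0 ≤ C)
    (hn2 : 0 ≤ n2) (hmc : 1 / 8 ≤ mc) (hcd : cd = n2) (hS : S ≤ cd * (9 * r * A)) :
    S ≤ (9 * (5 * C + 8 * A) + 72 * A) * (n2 * r) * mc := by
  rw [hcd] at hS
  have k1 : 0 ≤ A * (n2 * r) := by positivity
  have k2 : 0 ≤ C * (n2 * r) * mc := mul_nonneg (by positivity) (by linarith)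
  have k3 : A * (n2 * r) * (1 / 8) ≤ A * (n2 * r) * mc := mul_le_mul_of_nonneg_left hmc k1
  nlinarith

/-- **(TR)**, in terms of `m` -/
theorem tr_m {b : ℝ} (hb : 0 ≤ b) : ∃ C c : ℝ, 0 < C ∧ 0 < c ∧ c ≤ 1 ∧
    ∀ (N : ℕ) [NeZero N] (i e nb : ℕ), N = nb * (2 * 2 ^ e * 2 ^ i) →
    ∀ t : ℝ, 0 ≤ t → t * (2 * (2 : ℝ) ^ e * 2 ^ i) ^ 2 ≤ 1 →
    ∀ M R : (V N → ℤ) → ℝ, SQ M → Coe univ ∅ M → SQ R → (∀ h, M h + R h = full t h) →
    ∑ c ∈ range (nb * (2 * 2 ^ e)) ×ˢ range (nb * (2 * 2 ^ e)),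
      (vk b (2 * 2 ^ e * 2 ^ i) (pk (2 * 2 ^ e) (2 * 2 ^ e * 2 ^ i) c) (fc (N := N) (2 ^ i) c) -
        ex b univ ∅ M (fun h => pr (fc (2 ^ i) c) h ^ 2)) ≤
      C * (N : ℝ) ^ 2 * ((2 ^ (e / 2) : ℕ) : ℝ) ^ (-c) := by
  classical
  obtain ⟨C₁, c₁, hC₁, hc₁, hG⟩ := blk_good hb
  set A : ℝ := 76800 * Real.exp b + 1 with hA
  have hA0 : 0 < A := by positivity
  set c' : ℝ := min c₁ 1 with hc'
  have hc'0 : 0 < c' := lt_min hc₁ one_pos
  have hc'1 : c' ≤ 1 := min_le_right _ _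
  have hc'2 : c' ≤ c₁ := min_le_left _ _
  refine ⟨9 * (5 * C₁ + 8 * A) + 72 * A, c', by positivity, hc'0, hc'1, ?_⟩
  intro N _ i e nb hN t ht0 ht1 M R sM cM sR hMR
  obtain ⟨X, hX⟩ : ∃ X, X = 2 ^ e := ⟨_, rfl⟩
  obtain ⟨r, hr⟩ : ∃ r, r = 2 ^ i := ⟨_, rfl⟩
  obtain ⟨m, hm⟩ : ∃ m, m = 2 ^ (e / 2) := ⟨_, rfl⟩
  have hX1 : 1 ≤ X := hX ▸ Nat.one_le_two_pow
  have hm1 : 1 ≤ m := hm ▸ Nat.one_le_two_pow
  have hr1 : 1 ≤ r := hr ▸ Nat.one_le_two_pow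
  have hmX : m * m ≤ X := by
    rw [hm, hX, ← pow_add]
    exact Nat.pow_le_pow_right (by norm_num) (by omega)
  have hXc : ((2 : ℝ) ^ e) = X := by rw [hX]; push_cast; rfl
  have hrc : ((2 : ℝ) ^ i) = r := by rw [hr]; push_cast; rfl
  rw [hXc, hrc] at ht1
  rw [← hX, ← hr] at hN
  rw [← hX, ← hr, ← hm]
  have hnb : 1 ≤ nb := by
    rcases Nat.eq_zero_or_pos nb with h | h
    · rw [h, zero_mul] at hN
      exact absurd hN (NeZero.ne N)
    · exact h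
  have m0' : (0 : ℝ) < m := by exact_mod_cast (by omega : 0 < m)
  have m1' : (1 : ℝ) ≤ m := by exact_mod_cast hm1
  have r0' : (0 : ℝ) < r := by exact_mod_cast (by omega : 0 < r)
  have X0' : (0 : ℝ) < X := by exact_mod_cast (by omega : 0 < X)
  have hmX' : (m : ℝ) * m ≤ X := by exact_mod_cast hmX
  have hN2 : (N : ℝ) ^ 2 = (nb * (2 * X)) ^ 2 * (r : ℝ) ^ 2 := by
    rw [hN]
    push_cast
    ring
  rw [hN2]
  have hcard : ((range (nb * (2 * X)) ×ˢ range (nb * (2 * X))).card : ℝ) =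
      (nb * (2 * X)) ^ 2 := by
    rw [card_product, card_range]
    push_cast
    ring
  have hmc : (1 : ℝ) / m ≤ (m : ℝ) ^ (-c') := by
    have : (1 : ℝ) / m = (m : ℝ) ^ (-(1 : ℝ)) := by
      rw [Real.rpow_neg m0'.le, Real.rpow_one, one_div]
    rw [this]
    exact Real.rpow_le_rpow_of_exponent_le m1' (by linarith)
  have hmc1 : (m : ℝ) ^ (-c₁) ≤ (m : ℝ) ^ (-c') :=
    Real.rpow_le_rpow_of_exponent_le m1' (by linarith)
  have hmp : 0 < (m : ℝ) ^ (-c') := Real.rpow_pos_of_pos m0' _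
  have hcr : ∀ c ∈ range (nb * (2 * X)) ×ˢ range (nb * (2 * X)),
      vk b (2 * X * r) (pk (2 * X) (2 * X * r) c) (fc (N := N) r c) -
        ex b univ ∅ M (fun h => pr (fc r c) h ^ 2) ≤ 9 * (r : ℝ) ^ 2 * A := by
    intro c hc
    rw [mem_product, mem_range, mem_range] at hc
    have h1 := vk_crude hb hX1 hr1 hN c hc.1 hc.2
    have h2 : 0 ≤ ex b univ ∅ M (fun h => pr (fc (N := N) r c) h ^ 2) :=
      H375.ex_nonneg' hb fun _ => sq_nonneg _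
    rw [← hA] at h1
    linarith
  by_cases he7 : 7 ≤ e
  · obtain ⟨K, hK⟩ : ∃ K, K = i + e / 2 + 3 := ⟨_, rfl⟩
    have hKe : 2 ^ K = 4 * m * (2 * r) := by
      rw [hK, hm, hr, pow_add, pow_add]
      ring
    have hKN : 2 ^ (K + 1) + 1 ≤ N := by
      have h1 : 2 ^ (K + 2) ≤ 2 ^ (e + i + 1) := Nat.pow_le_pow_right (by norm_num) (by omega)
      have h2 : 2 ^ (K + 2) = 2 * 2 ^ (K + 1) := pow_succ' 2 (K + 1)
      have h3 : 1 ≤ 2 ^ (K + 1) := Nat.one_le_two_pow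
      have h4 : 2 ^ (e + i + 1) = 2 * X * r := by
        rw [hX, hr, pow_succ, pow_add]
        ring
      have h5 : 2 * X * r ≤ N := by
        rw [hN]
        exact Nat.le_mul_of_pos_left _ hnb
      omega
    have hm8 : 8 ≤ m := by
      rw [hm]
      calc 8 = 2 ^ 3 := by norm_num
        _ ≤ 2 ^ (e / 2) := Nat.pow_le_pow_right (by norm_num) (by omega)
    have hK4 : ((4 : ℝ) ^ K) = (8 * m * r) ^ 2 := by
      have h1 : (4 : ℝ) ^ K = ((2 ^ K : ℕ) : ℝ) ^ 2 := by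
        push_cast
        rw [← pow_mul, mul_comm, pow_mul]
        norm_num
      rw [h1, hKe]
      push_cast
      ring
    obtain ⟨ht4, hsq⟩ := mass_num (by exact_mod_cast hm8) X0' r0' hmX' ht1 hK4
    have hsum := sum_split (S := range (nb * (2 * X)) ×ˢ range (nb * (2 * X)))
      (G := fun c : ℕ × ℕ => Ok m X (c.1 % (2 * X)) ∧ Ok m X (c.2 % (2 * X)))
      (B₁ := 9 * (r : ℝ) ^ 2 * (C₁ * (m : ℝ) ^ (-c₁) + C₁ * √(t * 4 ^ K)))
      (B₂ := 9 * (r : ℝ) ^ 2 * A) (by positivity) (fun c hc hok => by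
        rw [mem_product, mem_range, mem_range] at hc
        exact vk_good hG hX1 hr1 hm1 (by
          rw [hKe]
          exact Nat.mul_le_mul_right _ (by omega)) hKN hN ht0 ht4 sM cM sR hMR c hc.1 hc.2
          hok.1 hok.2) hcr
    refine alg_large (by positivity) hA0.le hC₁.le (by positivity) hmp.le hmc1 (hsq.trans
      (le_of_eq ?_)) hmc hcard (bad_num nb m X hm1 hmX) hsum
    ring
  · have h1 : ∑ c ∈ range (nb * (2 * X)) ×ˢ range (nb * (2 * X)),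
        (vk b (2 * X * r) (pk (2 * X) (2 * X * r) c) (fc (N := N) r c) -
        ex b univ ∅ M (fun h => pr (fc r c) h ^ 2)) ≤
        ((range (nb * (2 * X)) ×ˢ range (nb * (2 * X))).card : ℝ) * (9 * (r : ℝ) ^ 2 * A) := by
      refine (sum_le_sum hcr).trans (le_of_eq ?_)
      rw [sum_const, nsmul_eq_mul]
    have hm8 : m ≤ 8 := by
      rw [hm]
      calc 2 ^ (e / 2) ≤ 2 ^ 3 := Nat.pow_le_pow_right (by norm_num) (by omega)
        _ = 8 := by norm_num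
    have m8' : (m : ℝ) ≤ 8 := by exact_mod_cast hm8
    have h2 : (1 : ℝ) / 8 ≤ 1 / m := one_div_le_one_div_of_le m0' m8'
    exact alg_small (by positivity) hA0.le hC₁.le (by positivity) (h2.trans hmc) hcard h1

/-- **(TR)** -/
theorem tr_quad {b : ℝ} (hb : 0 ≤ b) : ∃ C c : ℝ, 0 < C ∧ 0 < c ∧
    ∀ (N : ℕ) [NeZero N] (i j nb : ℕ), i + 1 ≤ j → N = nb * 2 ^ j →
    ∀ t : ℝ, t * ((2 : ℝ) ^ j) ^ 2 ≤ 1 →
    ∀ (m0 : ℝ) (M : Matrix (V N) (V N) ℝ), 0 < m0 → Mᵀ = M →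
      (∀ u : V N → ℝ, m0 * ∑ x, u x ^ 2 ≤ qf M u) → (∀ u : V N → ℝ, qf M u ≤ t * ∑ x, u x ^ 2) →
    ∑ c ∈ range (N / 2 ^ i) ×ˢ range (N / 2 ^ i),
      (vk b (2 ^ j) (pk (2 ^ (j - i)) (2 ^ j) c) (fc (N := N) (2 ^ i) c) -
        qf (Gm (wM (wT b N) M)) (fc (2 ^ i) c)) ≤
      C * (N : ℝ) ^ 2 * ((2 : ℝ) ^ i / 2 ^ j) ^ c := by
  classical
  obtain ⟨C, c', hC, hc0, hc1, hT⟩ := tr_m hb
  refine ⟨2 * C, c' / 2, by positivity, by positivity, ?_⟩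
  intro N _ i j nb hij hN t ht1 m0 M hm0 hMs hMl hMu
  obtain ⟨e, he⟩ : ∃ e, j = i + 1 + e := ⟨j - (i + 1), by omega⟩
  have hL : 2 ^ j = 2 * 2 ^ e * 2 ^ i := by
    rw [he, pow_add, pow_succ]
    ring
  have hL' : ((2 : ℝ) ^ j) = 2 * 2 ^ e * 2 ^ i := by exact_mod_cast hL
  have hY : 2 ^ (j - i) = 2 * 2 ^ e := by
    rw [he, show i + 1 + e - i = e + 1 by omega, pow_succ]
    ring
  have hNr : N / 2 ^ i = nb * (2 * 2 ^ e) := by
    rw [hN, hL, show nb * (2 * 2 ^ e * 2 ^ i) = nb * (2 * 2 ^ e) * 2 ^ i by ring,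
      Nat.mul_div_cancel _ (by positivity)]
  have ht0 : 0 < t := by
    have h1 := (hMl (fun _ => 1)).trans (hMu fun _ => 1)
    have h2 : (0 : ℝ) < ∑ _x : V N, (1 : ℝ) ^ 2 := by
      have : Nonempty (V N) := ⟨0⟩
      exact sum_pos (fun _ _ => by norm_num) univ_nonempty
    have h3 : 0 < m0 * ∑ _x : V N, (1 : ℝ) ^ 2 := by positivity
    by_contra h4
    push Not at h4
    nlinarith
  have sM : SQ (mf M) := H375.sq_mf hMs fun u => le_trans (by positivity) (hMl u)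
  have cM : Coe univ ∅ (mf M) := H375.coe_of_full hm0 fun k => hMl (H37.re k)
  have sR : SQ (mf (t • 1 - M)) := H375.sq_mf (by
      rw [Matrix.transpose_sub, hMs, Matrix.transpose_smul, Matrix.transpose_one]) fun u => by
    have := hMu u
    rw [H864.qf_sub_mat, H37.qf_smul_one]
    linarith
  have hMR : ∀ h : V N → ℤ, mf M h + mf (t • 1 - M) h = full t h := fun h => by
    rw [H375.mf_sum, H375.mf_sum, H864.qf_sub_mat, H37.qf_smul_one, H375.full_eq]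
    ring
  have hGm : ∀ g : V N → ℝ, qf (Gm (wM (wT b N) M)) g =
      ex b univ ∅ (mf M) (fun h => pr g h ^ 2) := fun g => H375.qf_Gm_ex hb hm0 hMl g
  rw [hL] at hN
  rw [hL'] at ht1
  have h1 := hT N i e nb hN t ht0.le ht1 (mf M) (mf (t • 1 - M)) sM cM sR hMR
  rw [hNr, hY, hL, hL']
  simp only [hGm]
  refine h1.trans ?_
  have hXm : (2 : ℕ) ^ e ≤ 2 * (2 ^ (e / 2) * 2 ^ (e / 2)) := by
    rw [← pow_add, ← pow_succ']
    exact Nat.pow_le_pow_right (by norm_num) (by omega)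
  have hm1 : (1 : ℝ) ≤ ((2 ^ (e / 2) : ℕ) : ℝ) := by
    exact_mod_cast (Nat.one_le_two_pow : 1 ≤ 2 ^ (e / 2))
  have h2 := rate (X := (2 : ℝ) ^ e) (r := (2 : ℝ) ^ i) hm1 (by positivity) (by positivity)
    (by exact_mod_cast hXm) hc0 hc1
  have h3 := mul_le_mul_of_nonneg_left h2 (show 0 ≤ C * (N : ℝ) ^ 2 by positivity)
  linarith

end

end Vale.Agent.P159.H340
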