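import Vale.Agent.P159.H896.Flow
import Vale.Agent.P159.H963.NeuQ

/-!
P159, helper340, module VBV, part 1: two mass forms whose partition functions are proportional up to
the factor `e^d` along the constants have charge functionals which differ by at most `2 d`.
-/

namespace Vale.Agent.P159.H340

open Finset Matrix MeasureTheory
open Vale.Agent.P159.H37 (qf ZM Zn Zq)
open Vale.Agent.P159.H896 (WM Ph)

noncomputable section

variable {V : Type} [Fintype V] {w : (V → ℤ) → ℝ} {M M₁ : Matrix V V ℝ}

lemma norm_ph (q : ℤ) (c : ℝ) : ‖Complex.exp (-(2 * Real.pi * q * c) * Complex.I)‖ = 1 :=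
  H963.norm_chr q c

/-- `|Zq| ≤ Zn` -/
lemma norm_Zq_le (hW : WM w M) (q : ℤ) (F : V → ℝ) : ‖Zq w M q F‖ ≤ Zn w M F := by
  unfold Vale.Agent.P159.H37.Zq Vale.Agent.P159.H37.Zn
  refine (intervalIntegral.norm_integral_le_integral_norm zero_le_one).trans (le_of_eq ?_)
  refine intervalIntegral.integral_congr fun c _ => ?_
  rw [norm_mul, norm_ph, mul_one, Complex.norm_real, Real.norm_eq_abs,
    abs_of_pos (H37.ZM_pos hW.sym hW.em _)]

/-- `|Ph| ≤ 1` -/
lemma norm_Ph_le_one' (hW : WM w M) (q : ℤ) (F : V → ℝ) : ‖Ph w M q F‖ ≤ 1 := by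
  have h0 := H896.Zn_pos hW F
  unfold Vale.Agent.P159.H896.Ph
  rw [norm_div, Complex.norm_real, Real.norm_eq_abs, abs_of_pos h0, div_le_one h0]
  exact norm_Zq_le hW q F

lemma exp_min {d x : ℝ} (h1 : x ≤ Real.exp d - 1) (h2 : x ≤ 2) (hd : 0 ≤ d) : x ≤ 2 * d := by
  rcases le_total d 1 with h | h
  · have h3 : Real.exp d ≤ 1 + d + d ^ 2 := by
      have := Real.abs_exp_sub_one_sub_id_le (x := d) (by rw [abs_of_nonneg hd]; exact h)
      linarith [abs_le.1 this]
    nlinarith
  · linarith

/-- **proportional partition functions** -/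
theorem ph_ratio (hW : WM w M) (hW₁ : WM w M₁) (F : V → ℝ) {κ d : ℝ} (hd : 0 ≤ d)
    (h : ∀ c : ℝ, 0 ≤ c → c ≤ 1 → κ * ZM w M₁ (fun x => F x + c) ≤ ZM w M (fun x => F x + c) ∧
      ZM w M (fun x => F x + c) ≤ κ * Real.exp d * ZM w M₁ (fun x => F x + c)) (q : ℤ) :
    ‖Ph w M q F - Ph w M₁ q F‖ ≤ 2 * d := by
  have hA0 := H896.Zn_pos hW F
  have hB0 := H896.Zn_pos hW₁ F
  set A := Zn w M F with hA
  set B := Zn w M₁ F with hB
  have hcF : Continuous fun c : ℝ => fun x => F x + c := by fun_prop
  have cf : Continuous fun c : ℝ => ZM w M fun x => F x + c := (H896.continuous_ZM hW).comp hcF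
  have cg : Continuous fun c : ℝ => ZM w M₁ fun x => F x + c := (H896.continuous_ZM hW₁).comp hcF
  have hg0 : ∀ c, 0 < ZM w M₁ fun x => F x + c := fun c => H37.ZM_pos hW₁.sym hW₁.em _
  have hed : 1 ≤ Real.exp d := Real.one_le_exp hd
  -- the totals
  have hAB : κ * B ≤ A := by
    rw [hA, hB]
    unfold Vale.Agent.P159.H37.Zn
    rw [← intervalIntegral.integral_const_mul]
    refine intervalIntegral.integral_mono_on zero_le_one ((cg.const_mul κ).intervalIntegrable _ _)
      (cf.intervalIntegrable _ _) fun c hc => ?_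
    exact (h c hc.1 hc.2).1
  have hAB' : A ≤ κ * Real.exp d * B := by
    rw [hA, hB]
    unfold Vale.Agent.P159.H37.Zn
    rw [← intervalIntegral.integral_const_mul]
    refine intervalIntegral.integral_mono_on zero_le_one (cf.intervalIntegrable _ _)
      ((cg.const_mul _).intervalIntegrable _ _) fun c hc => ?_
    exact (h c hc.1 hc.2).2
  refine exp_min ?_ ?_ hd
  · have hAc : (A : ℂ) ≠ 0 := by exact_mod_cast hA0.ne'
    have hBc : (B : ℂ) ≠ 0 := by exact_mod_cast hB0.ne'
    have e1 : Ph w M q F - Ph w M₁ q F = (B * Zq w M q F - A * Zq w M₁ q F) / (A * B) := by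
      unfold Vale.Agent.P159.H896.Ph
      rw [← hA, ← hB]
      field_simp
    have hph : Continuous fun c : ℝ => Complex.exp (-(2 * Real.pi * q * c) * Complex.I) := by
      fun_prop
    have e2 : (B : ℂ) * Zq w M q F - A * Zq w M₁ q F = ∫ c in (0 : ℝ)..1,
        ((B * ZM w M (fun x => F x + c) - A * ZM w M₁ (fun x => F x + c) : ℝ) : ℂ) *
          Complex.exp (-(2 * Real.pi * q * c) * Complex.I) := by
      unfold Vale.Agent.P159.H37.Zq
      rw [← intervalIntegral.integral_const_mul, ← intervalIntegral.integral_const_mul,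
        ← intervalIntegral.integral_sub]
      · refine intervalIntegral.integral_congr fun c _ => ?_
        push_cast
        ring
      · exact (((Complex.continuous_ofReal.comp cf).mul hph).const_mul _).intervalIntegrable _ _
      · exact (((Complex.continuous_ofReal.comp cg).mul hph).const_mul _).intervalIntegrable _ _
    have e3 : ‖(B : ℂ) * Zq w M q F - A * Zq w M₁ q F‖ ≤ κ * (Real.exp d - 1) * B * B := by
      rw [e2]
      have h3 : κ * (Real.exp d - 1) * B * B =
          ∫ c in (0 : ℝ)..1, κ * (Real.exp d - 1) * B * ZM w M₁ (fun x => F x + c) := by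
        rw [intervalIntegral.integral_const_mul]
        rfl
      rw [h3]
      refine intervalIntegral.norm_integral_le_of_norm_le zero_le_one
        (Filter.Eventually.of_forall fun c hc => ?_) ((cg.const_mul _).intervalIntegrable _ _)
      rw [norm_mul, norm_ph, mul_one, Complex.norm_real, Real.norm_eq_abs]
      obtain ⟨h4, h5⟩ := h c hc.1.le hc.2
      have hg := hg0 c
      set f := ZM w M fun x => F x + c with hf
      set g := ZM w M₁ fun x => F x + c with hg'
      have b1 : B * (κ * g) ≤ B * f := mul_le_mul_of_nonneg_left h4 hB0.le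
      have b2 : B * f ≤ B * (κ * Real.exp d * g) := mul_le_mul_of_nonneg_left h5 hB0.le
      have b3 : κ * B * g ≤ A * g := mul_le_mul_of_nonneg_right hAB hg.le
      have b4 : A * g ≤ κ * Real.exp d * B * g := mul_le_mul_of_nonneg_right hAB' hg.le
      rw [abs_le]
      constructor <;> nlinarith
    rw [e1, norm_div, norm_mul, Complex.norm_real, Complex.norm_real, Real.norm_eq_abs,
      Real.norm_eq_abs, abs_of_pos hA0, abs_of_pos hB0, div_le_iff₀ (by positivity)]
    refine e3.trans ?_
    have h6 : (Real.exp d - 1) * B * (κ * B) ≤ (Real.exp d - 1) * B * A :=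
      mul_le_mul_of_nonneg_left hAB (mul_nonneg (by linarith) hB0.le)
    calc κ * (Real.exp d - 1) * B * B = (Real.exp d - 1) * B * (κ * B) := by ring
      _ ≤ (Real.exp d - 1) * B * A := h6
      _ = (Real.exp d - 1) * (A * B) := by ring
  · have h1 := norm_sub_le (Ph w M q F) (Ph w M₁ q F)
    have h2 := norm_Ph_le_one' hW q F
    have h3 := norm_Ph_le_one' hW₁ q F
    linarith

end

end Vale.Agent.P159.H340
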