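import Vale.Agent.P159.H340.Vb1
import Vale.Agent.P159.H340.Al1
import Vale.Agent.P159.H692.Fn8
import Vale.Agent.P159.H375.Fine0
import Vale.Agent.P159.H447.MassG
import Vale.Agent.P159.H239.Ray1

/-!
P159, helper340, module VBV, part 2: mass forms between `τ P` and `t (1 - P) + τ P`, `P` = projection on
the cell functions: action on cell fields, monotonicity of the free energies, partition functions of
cell fields.
-/

namespace Vale.Agent.P159.H340

open Finset Matrix MeasureTheory Filter Topology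
open Vale.Agent.P159.TM.H104 (EM Ex Cv Lg li Gr)
open Vale.Agent.P159.TM.Spec (V)
open Vale.Agent.P159.TM.SpecC (wT)
open Vale.Agent.P159.H37 (qf re wM wt Gm cellP Ev PK Rs Tq Zs ZM post)
open Vale.Agent.P159.H864 (lapM MC)
open Vale.Agent.P159.H896 (WM Ph)

set_option linter.unusedSectionVars false

noncomputable section

variable {N : ℕ} [NeZero N] {b t τ : ℝ} {l : ℕ}

/-- **the free energy is decreasing in the mass form** -/
theorem lg_mono_mass (hb : 0 ≤ b) {M₀ M₁ : Matrix (V N) (V N) ℝ} (h0 : M₀ᵀ = M₀) (h1 : M₁ᵀ = M₁)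
    {m0 : ℝ} (hm0 : 0 < m0) (hM : ∀ u : V N → ℝ, m0 * ∑ x, u x ^ 2 ≤ qf M₀ u)
    (hle : ∀ u, qf M₀ u ≤ qf M₁ u) (J : V N → ℝ) :
    Lg (wM (wT b N) M₁) J - Lg (wM (wT b N) M₁) 0 ≤
      Lg (wM (wT b N) M₀) J - Lg (wM (wT b N) M₀) 0 := by
  obtain ⟨C, hC⟩ := H239.exists_increment (H375.psd_of (M := M₁ - M₀)
    (by rw [Matrix.transpose_sub, h1, h0]) fun u => by
      rw [H864.qf_sub_mat]
      linarith [hle u])
  have hE := H864.em_wTM hb hm0 hM
  have hG : H159.GT (wM (wT b N) M₀) := H159.gt_wM (H789.wT_le hb) hm0 hM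
  have hEv : Ev (wM (wT b N) M₀) := H864.ev_wTM M₀
  have hpost : post (wM (wT b N) M₀) Cᵀ = wM (wT b N) M₁ := by
    rw [H37.post_wM, Matrix.transpose_transpose, ← hC]
    congr 1
    abel
  have hK : PK (wM (wT b N) M₁) := H789.pk_wM_wT' hb hm0 fun u => (hM u).trans (hle u)
  have h := H692.Lg_mass_mono hE hG hEv Cᵀ (hpost ▸ hK) J
  rwa [hpost] at h

/-- mass forms between `τ P` and `t (1 - P) + τ P` -/
structure Bt (N l : ℕ) [NeZero N] (t τ : ℝ) (M : Matrix (V N) (V N) ℝ) : Prop where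
  sym : Mᵀ = M
  lo : ∀ u, τ * qf (cellP N l) u ≤ qf M u
  up : ∀ u, qf M u ≤ qf (MC N l t τ) u

lemma MC_cell (t τ : ℝ) {F : V N → ℝ} (hF : cellP N l *ᵥ F = F) : MC N l t τ *ᵥ F = τ • F := by
  unfold Vale.Agent.P159.H864.MC
  rw [Matrix.add_mulVec, Matrix.smul_mulVec, Matrix.smul_mulVec, Matrix.sub_mulVec,
    Matrix.one_mulVec, hF, sub_self, smul_zero, zero_add]

lemma qf_of_fix {M : Matrix (V N) (V N) ℝ} {F : V N → ℝ} (h : M *ᵥ F = τ • F) :
    qf M F = τ * ∑ x, F x ^ 2 := by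
  rw [H37.qf_eq, h, dotProduct_smul, smul_eq_mul]
  unfold dotProduct
  congr 1
  exact Finset.sum_congr rfl fun x _ => (pow_two (F x)).symm

/-- **action on cell fields** -/
theorem Bt.fix {M : Matrix (V N) (V N) ℝ} (h : Bt N l t τ M) {F : V N → ℝ}
    (hF : cellP N l *ᵥ F = F) : M *ᵥ F = τ • F := by
  obtain ⟨C, hC⟩ := H239.exists_increment (H375.psd_of (M := M - τ • cellP N l)
    (by rw [Matrix.transpose_sub, Matrix.transpose_smul, H864.cellP_tr, h.sym]) fun u => by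
      rw [H864.qf_sub_mat, H864.qf_smul_mat]
      linarith [h.lo u])
  have hP : qf (cellP N l) F = ∑ x, F x ^ 2 := by
    have := qf_of_fix (M := cellP N l) (τ := 1) (F := F) (by rw [one_smul, hF])
    rw [this, one_mul]
  have h1 : qf (M - τ • cellP N l) F = 0 := by
    have h2 := h.up F
    have h3 := h.lo F
    rw [qf_of_fix (MC_cell t τ hF)] at h2
    rw [hP] at h3
    rw [H864.qf_sub_mat, H864.qf_smul_mat, hP]
    linarith
  have h4 : Cᵀ *ᵥ F = 0 := by
    have h5 : qf (M - τ • cellP N l) F = ∑ i, (Cᵀ *ᵥ F) i ^ 2 := by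
      rw [hC, ← H37.qf_gram, Matrix.transpose_transpose]
    rw [h1] at h5
    funext i
    have h6 := (Finset.sum_eq_zero_iff_of_nonneg fun i _ => pow_two_nonneg ((Cᵀ *ᵥ F) i)).1 h5.symm
      i (Finset.mem_univ i)
    exact pow_eq_zero_iff (by norm_num) |>.1 h6
  have h7 : (M - τ • cellP N l) *ᵥ F = 0 := by
    rw [hC, ← Matrix.mulVec_mulVec, h4, Matrix.mulVec_zero]
  rw [Matrix.sub_mulVec, Matrix.smul_mulVec, hF, sub_eq_zero] at h7
  exact h7

/-- the form `s (1 - P) + τ P` -/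
lemma bt_MC (hl : l ∣ N) {s : ℝ} (hs : 0 ≤ s) (hst : s ≤ t) : Bt N l t τ (MC N l s τ) where
  sym := H864.MC_tr N l s τ
  lo u := by
    unfold Vale.Agent.P159.H864.MC
    rw [H37.qf_add_mat, H864.qf_smul_mat, H864.qf_smul_mat]
    have := mul_nonneg hs (H159.fine_nonneg hl u)
    linarith
  up u := by
    unfold Vale.Agent.P159.H864.MC
    rw [H37.qf_add_mat, H864.qf_smul_mat, H864.qf_smul_mat, H37.qf_add_mat, H864.qf_smul_mat,
      H864.qf_smul_mat]
    have := mul_le_mul_of_nonneg_right hst (H159.fine_nonneg hl u)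
    linarith

end

end Vale.Agent.P159.H340
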