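import Vale.Agent.P159.H340.Vb2

/-!
P159, helper340, module VBV, part 3: **FINE-φ, value level.** For every mass form `M` between `τ P` and
`t (1 - P) + τ P` (`P` = projection on the functions which are constant on the cells of side `2ⁿ`), every
cell field `F` and every charge `q`, the normalised charge functionals of `M` and of the scalar mass `τ`
at `F` differ by at most `C (1 + B)⁶ (t N²) (2ⁿ √t)^c`, if `τ |F + c|² ≤ B` and `R` of the scalar mass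
at the source `2 τ (F + c)` is at most `1`, `0 ≤ c ≤ 1`.
-/

namespace Vale.Agent.P159.H340

open Finset Matrix MeasureTheory Filter Topology
open Vale.Agent.P159.TM.H104 (EM Ex Cv Lg li Gr)
open Vale.Agent.P159.TM.Spec (V)
open Vale.Agent.P159.TM.SpecC (wT)
open Vale.Agent.P159.H37 (qf re wM wt Gm cellP Ev PK Rs Tq Zs ZM post)
open Vale.Agent.P159.H864 (lapM MC)
open Vale.Agent.P159.H896 (WM Ph)
open Vale.Agent.P159.H513 (dvT e2_bare)

set_option linter.unusedSectionVars false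

noncomputable section

variable {N : ℕ} [NeZero N] {b t τ : ℝ} {l : ℕ}

lemma cell_add (hl : l ∣ N) {F : V N → ℝ} (hF : cellP N l *ᵥ F = F) (c : ℝ) :
    cellP N l *ᵥ (fun x => F x + c) = fun x => F x + c := by
  have := H159.nez_div hl
  have e : (fun x => F x + c) = F + fun _ => c := rfl
  rw [e, Matrix.mulVec_add, hF]
  congr 1
  funext x
  simp only [Matrix.mulVec, dotProduct]
  rw [← Finset.sum_mul, H963.cellP_ones hl, one_mul]

/-- partition function of a cell field -/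
lemma ZM_cell {M : Matrix (V N) (V N) ℝ} (hM : Bt N l t τ M) {F : V N → ℝ}
    (hF : cellP N l *ᵥ F = F) (w : (V N → ℤ) → ℝ) :
    ZM w M F = Real.exp (-(τ * ∑ x, F x ^ 2 / 2)) * Zs (wM w M) (τ • F) := by
  rw [H37.ZM_eq _ hM.sym, hM.fix hF, qf_of_fix (hM.fix hF), ← Finset.sum_div, mul_div_assoc]

/-- sources of cell fields: bare bound of the free energy -/
lemma lg_src (hb : 0 ≤ b) {M : Matrix (V N) (V N) ℝ} (hM : Bt N l t τ M) {m0 : ℝ} (hm0 : 0 < m0)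
    (hc : ∀ u : V N → ℝ, m0 * ∑ x, u x ^ 2 ≤ qf M u) {F : V N → ℝ} (hF : cellP N l *ᵥ F = F) :
    Lg (wM (wT b N) M) ((2 : ℝ) • (τ • F)) - Lg (wM (wT b N) M) 0 ≤ 2 * (τ * ∑ x, F x ^ 2) := by
  have h := e2_bare hb hM.sym hm0 hc ((2 : ℝ) • (τ • F)) ((2 : ℝ) • F) (fun _ _ => 0)
    (fun x => by
      rw [Matrix.mulVec_smul, hM.fix hF]
      unfold Vale.Agent.P159.H513.dvT
      ring)
  simp only [Real.cosh_zero, sub_self, add_zero, Finset.sum_const_zero, mul_zero] at h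
  rw [H37.qf_smul, qf_of_fix (hM.fix hF)] at h
  linarith

lemma sum_src (hτ : 0 < τ) (F : V N → ℝ) :
    (∑ x, ((2 : ℝ) • (τ • F)) x ^ 2) / τ = 4 * (τ * ∑ x, F x ^ 2) := by
  simp only [Pi.smul_apply, smul_eq_mul]
  have e : ∀ x, (2 * (τ * F x)) ^ 2 = 4 * τ ^ 2 * F x ^ 2 := fun x => by ring
  simp only [e]
  rw [← Finset.mul_sum]
  field_simp

/-- **`R` of the cell mass from `R` of the scalar mass** -/
theorem rs_cell {b : ℝ} (hb : 0 < b) : ∃ C c : ℝ, 0 < C ∧ 0 < c ∧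
    ∀ (N : ℕ) [NeZero N] (t : ℝ), 0 < t → 9 ≤ t * (N : ℝ) ^ 2 →
    ∀ l : ℕ, l ∣ N → t * (l : ℝ) ^ 2 ≤ 1 → ∀ τ : ℝ, 0 < τ → τ ≤ t → ∀ J : V N → ℝ,
      Rs (wM (wT b N) (MC N l t τ)) J ≤ Rs (wt N b τ) J +
        C * ((∑ x, J x ^ 2) / τ) * √(t * (N : ℝ) ^ 2) * (t * (l : ℝ) ^ 2) ^ c := by
  obtain ⟨C, c, hC, hc, hU⟩ := fine_rel (b := b) hb
  refine ⟨C, c, hC, hc, ?_⟩
  intro N _ t ht htN l hl htl τ hτ hτt J
  have := H159.nez_div hl
  set P : ℝ := √(t * (N : ℝ) ^ 2) * (t * (l : ℝ) ^ 2) ^ c with hP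
  have hP0 : 0 ≤ P := by positivity
  have eMC : MC N l t τ = τ • (1 : Matrix (V N) (V N) ℝ) + (t - τ) • (1 - cellP N l) := by
    unfold Vale.Agent.P159.H864.MC
    module
  have s0 : (τ • (1 : Matrix (V N) (V N) ℝ))ᵀ = τ • (1 : Matrix (V N) (V N) ℝ) := by
    rw [Matrix.transpose_smul, Matrix.transpose_one]
  have hlo : ∀ u : V N → ℝ, τ * ∑ x, u x ^ 2 ≤ qf (τ • (1 : Matrix (V N) (V N) ℝ)) u :=
    fun u => by rw [H37.qf_smul_one]
  have hmid : ∀ u : V N → ℝ, qf (τ • (1 : Matrix (V N) (V N) ℝ)) u ≤ qf (MC N l t τ) u :=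
    fun u => by
      rw [H37.qf_smul_one]
      exact H864.qf_MC_ge hl hτt u
  have hm : H375.MasM t τ (τ • (1 : Matrix (V N) (V N) ℝ)) (MC N l t τ) :=
    ⟨s0, H864.MC_tr N l t τ, hlo, hmid, fun u => H864.qf_MC_le hl hτt u⟩
  have h1 := (hU N t ht htN l hl htl τ (t - τ) _ _ hτ (sub_nonneg.2 hτt) (by linarith) eMC hm J).2
  have h2 := lg_mono_mass hb.le s0 (H864.MC_tr N l t τ) hτ hlo hmid J
  have hmf := mf_add_lap (H963.mf_smul (N := N) hτ) (inv_nonneg.2 hb.le)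
  have h3 := hmf.qf_inv_le hτ (fun u => by
    rw [H37.qf_add_mat, H37.qf_smul_one, H864.qf_smul_mat, H864.qf_lapM]
    have h0 : 0 ≤ TM.H764.grd u := add_nonneg (TM.H764.Q_nonneg _ _) (TM.H764.Q_nonneg _ _)
    have := mul_nonneg (inv_nonneg.2 hb.le) h0
    linarith) J
  have h4 : C * qf (τ • (1 : Matrix (V N) (V N) ℝ) + b⁻¹ • lapM)⁻¹ J * √(t * (N : ℝ) ^ 2) *
      (t * (l : ℝ) ^ 2) ^ c ≤ C * ((∑ x, J x ^ 2) / τ) * P := by
    rw [mul_assoc, ← hP]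
    exact mul_le_mul_of_nonneg_right (mul_le_mul_of_nonneg_left h3 hC.le) hP0
  have h5 : 0 ≤ C * ((∑ x, J x ^ 2) / τ) * P := by positivity
  have e5 : C * ((∑ x, J x ^ 2) / τ) * √(t * (N : ℝ) ^ 2) * (t * (l : ℝ) ^ 2) ^ c =
      C * ((∑ x, J x ^ 2) / τ) * P := by rw [hP]; ring
  rw [e5]
  have d0 : Rs (wt N b τ) J = Lg (wM (wT b N) (τ • (1 : Matrix (V N) (V N) ℝ))) J -
      Lg (wM (wT b N) (τ • (1 : Matrix (V N) (V N) ℝ))) 0 -
      qf (Gm (wM (wT b N) (τ • (1 : Matrix (V N) (V N) ℝ)))) J / 2 := rfl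
  have d1 : Rs (wM (wT b N) (MC N l t τ)) J = Lg (wM (wT b N) (MC N l t τ)) J -
      Lg (wM (wT b N) (MC N l t τ)) 0 - qf (Gm (wM (wT b N) (MC N l t τ))) J / 2 := rfl
  rw [d0, d1]
  linarith

/-! ### the value level -/

/-- scalar bookkeeping of the good case -/
lemma vb_num1 {C R T Z y : ℝ} (hC : 0 ≤ C) (hR : R ≤ 2) (hT : T ≤ 2) (hZ : 0 ≤ Z) (hy : 0 ≤ y) :
    C * (R + Real.exp (T / 2) + 1) * Z * y ≤ 6 * C * Z * y := by
  have h1 : Real.exp (T / 2) ≤ 3 := by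
    have h2 : Real.exp (T / 2) ≤ Real.exp 1 := Real.exp_le_exp.2 (by linarith)
    have h3 := Real.exp_one_lt_d9
    linarith
  have h4 : C * (R + Real.exp (T / 2) + 1) ≤ 6 * C := by nlinarith
  exact mul_le_mul_of_nonneg_right (mul_le_mul_of_nonneg_right h4 hZ) hy

lemma vb_num2 {C₁ B S y : ℝ} (hC₁ : 0 ≤ C₁) (hB : 0 ≤ B) (hS : 0 ≤ S) (hy : 0 ≤ y) :
    2 * (6 * C₁ * ((1 + 2 * B) ^ 6 * S) * y) ≤ 768 * C₁ * ((1 + B) ^ 6 * S) * y := by
  have h1 : (1 + 2 * B) ^ 6 ≤ (2 * (1 + B)) ^ 6 := pow_le_pow_left₀ (by linarith) (by linarith) 6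
  have h2 : (2 * (1 + B)) ^ 6 = 64 * (1 + B) ^ 6 := by ring
  rw [h2] at h1
  have h3 := mul_le_mul_of_nonneg_right h1 (show 0 ≤ 12 * C₁ * S * y by positivity)
  calc 2 * (6 * C₁ * ((1 + 2 * B) ^ 6 * S) * y) = (1 + 2 * B) ^ 6 * (12 * C₁ * S * y) := by ring
    _ ≤ 64 * (1 + B) ^ 6 * (12 * C₁ * S * y) := h3
    _ = _ := by ring

lemma vb_num3 {C₂ B S y : ℝ} (hC₂ : 0 ≤ C₂) (hB : 0 ≤ B) (hS : 1 ≤ S) (hy : 0 ≤ y) :
    2 * (C₂ * (4 * B) * √S * y) ≤ 8 * C₂ * ((1 + B) ^ 6 * S) * y := by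
  have h1 : √S ≤ S := by
    rw [Real.sqrt_le_left (by linarith)]
    nlinarith
  have h2 : B ≤ (1 + B) ^ 6 := by
    have : 1 + B ≤ (1 + B) ^ 6 := le_self_pow₀ (by linarith) (by norm_num)
    linarith
  have h3 : B * √S ≤ (1 + B) ^ 6 * S :=
    mul_le_mul h2 h1 (Real.sqrt_nonneg _) (by positivity)
  have h4 := mul_le_mul_of_nonneg_right h3 (show 0 ≤ 8 * C₂ * y by positivity)
  calc 2 * (C₂ * (4 * B) * √S * y) = B * √S * (8 * C₂ * y) := by ring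
    _ ≤ (1 + B) ^ 6 * S * (8 * C₂ * y) := h4
    _ = _ := by ring

end

end Vale.Agent.P159.H340
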