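import Vale.Agent.P159.H340.Vb3

/-!
P159, helper340, module VBV, part 4: **FINE-φ, value level**: main theorems `vb_core`, `vb_lim`, `vbv`.
-/

namespace Vale.Agent.P159.H340

open Finset Matrix MeasureTheory Filter Topology
open Vale.Agent.P159.TM.H104 (EM Ex Cv Lg li Gr)
open Vale.Agent.P159.TM.Spec (V)
open Vale.Agent.P159.TM.SpecC (wT)
open Vale.Agent.P159.H37 (qf re wM wt Gm cellP Ev PK Rs Tq Zs ZM post)
open Vale.Agent.P159.H864 (lapM MC)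
open Vale.Agent.P159.H896 (WM Ph)

set_option linter.unusedSectionVars false

noncomputable section

section one

variable {N : ℕ} [NeZero N] {b t τ : ℝ} {l : ℕ}

lemma Zs_exp {μ : (V N → ℤ) → ℝ} (hμ : EM μ) (J : V N → ℝ) : Zs μ J = Real.exp (Lg μ J) :=
  (Real.exp_log (TM.H104.T_one_pos hμ J)).symm

/-- from the free energies to the partition functions of cell fields -/
lemma ZM_cell_ratio {w : (V N → ℤ) → ℝ} {M M₁ : Matrix (V N) (V N) ℝ} (hM : Bt N l t τ M)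
    (hM₁ : Bt N l t τ M₁) (hE : EM (wM w M)) (hE₁ : EM (wM w M₁)) {F : V N → ℝ}
    (hF : cellP N l *ᵥ F = F) {d : ℝ}
    (h0 : 0 ≤ (Lg (wM w M) (τ • F) - Lg (wM w M) 0) - (Lg (wM w M₁) (τ • F) - Lg (wM w M₁) 0))
    (h1 : (Lg (wM w M) (τ • F) - Lg (wM w M) 0) - (Lg (wM w M₁) (τ • F) - Lg (wM w M₁) 0) ≤ d) :
    Real.exp (Lg (wM w M) 0 - Lg (wM w M₁) 0) * ZM w M₁ F ≤ ZM w M F ∧
      ZM w M F ≤ Real.exp (Lg (wM w M) 0 - Lg (wM w M₁) 0) * Real.exp d * ZM w M₁ F := by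
  rw [ZM_cell hM hF, ZM_cell hM₁ hF, Zs_exp hE, Zs_exp hE₁]
  rw [← Real.exp_add, ← Real.exp_add, ← Real.exp_add, ← Real.exp_add, ← Real.exp_add]
  exact ⟨Real.exp_le_exp.2 (by linarith), Real.exp_le_exp.2 (by linarith)⟩

end one

/-- the scalar side: `x = 2ⁿ √t` -/
lemma vb_x {n : ℕ} {t : ℝ} (ht : 0 < t) (htn : t * ((2 : ℝ) ^ n) ^ 2 ≤ 1) {c : ℝ} :
    0 < (2 : ℝ) ^ n * √t ∧ (2 : ℝ) ^ n * √t ≤ 1 ∧
      (t * (((2 ^ n : ℕ) : ℝ)) ^ 2) ^ c = ((2 : ℝ) ^ n * √t) ^ (2 * c) := by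
  have hst : 0 < √t := Real.sqrt_pos.2 ht
  have hx0 : 0 < (2 : ℝ) ^ n * √t := by positivity
  have hx2 : ((2 : ℝ) ^ n * √t) ^ 2 = t * ((2 : ℝ) ^ n) ^ 2 := by
    rw [mul_pow, Real.sq_sqrt ht.le]
    ring
  refine ⟨hx0, ?_, ?_⟩
  · have h1 : ((2 : ℝ) ^ n * √t) ^ 2 ≤ 1 := by rw [hx2]; exact htn
    exact (pow_le_one_iff_of_nonneg hx0.le (by norm_num)).1 h1
  · push_cast
    rw [← hx2, ← Real.rpow_natCast, ← Real.rpow_mul hx0.le]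
    push_cast
    rfl

/-- **value level, coercive mass forms** -/
theorem vb_core {b : ℝ} (hb : 0 < b) : ∃ C c : ℝ, 0 ≤ C ∧ 0 < c ∧ c ≤ 1 ∧
    ∀ (N : ℕ) [NeZero N] (n p : ℕ), 2 ^ n ∣ N → 2 ^ p ∣ N →
    ∀ t : ℝ, 0 < t → t * ((2 : ℝ) ^ n) ^ 2 ≤ 1 → 1 < t * 4 ^ (p + 1) → 9 ≤ t * (N : ℝ) ^ 2 →
    ∀ τ : ℝ, 0 < τ → τ ≤ t → ∀ (s : ℝ) (M : Matrix (V N) (V N) ℝ), 0 < s → s ≤ t →
      Bt N (2 ^ n) t τ M → (∀ u, qf (MC N (2 ^ n) s τ) u ≤ qf M u) →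
    ∀ F : V N → ℝ, cellP N (2 ^ n) *ᵥ F = F → ∀ B : ℝ,
      (∀ c : ℝ, 0 ≤ c → c ≤ 1 → τ * ∑ x, (F x + c) ^ 2 ≤ B) →
      (∀ c : ℝ, 0 ≤ c → c ≤ 1 → Rs (wt N b τ) ((2 : ℝ) • (τ • fun x => F x + c)) ≤ 1) →
    ∀ q : ℤ, ‖Ph (wT b N) M q F - Ph (wT b N) (MC N (2 ^ n) t τ) q F‖ ≤
      C * ((1 + B) ^ 6 * (t * (N : ℝ) ^ 2)) * ((2 : ℝ) ^ n * √t) ^ c := by
  obtain ⟨C₁, c₁, hC₁, hc₁, hc₁1, h₁⟩ := H692.fine_b_MC hb.le
  obtain ⟨C₂, c₂, hC₂, hc₂, h₂⟩ := rs_cell hb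
  refine ⟨768 * C₁ + 8 * C₂, min c₁ (2 * c₂), by positivity, lt_min hc₁ (by positivity),
    (min_le_left _ _).trans hc₁1, ?_⟩
  intro N _ n p hn hp t ht htn htp htN τ hτ hτt s M hs hst hM hlow F hF B hB hR q
  have := H159.nez_div hn
  have hB0 : 0 ≤ B := le_trans (by positivity) (hB 0 le_rfl zero_le_one)
  obtain ⟨hx0, hx1, hxe⟩ := vb_x (n := n) ht htn (c := c₂)
  set x : ℝ := (2 : ℝ) ^ n * √t with hx
  set S : ℝ := t * (N : ℝ) ^ 2 with hS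
  have hS0 : 0 < S := by linarith
  set ε : ℝ := C₂ * (4 * B) * √S * x ^ (2 * c₂) with hε
  have hM1 : Bt N (2 ^ n) t τ (MC N (2 ^ n) t τ) := bt_MC hn ht.le le_rfl
  have hMs : Bt N (2 ^ n) t τ (MC N (2 ^ n) s τ) := bt_MC hn hs.le hst
  have hW : WM (wT b N) M := H375.wm_cell hb hn hτ hM.sym hM.lo
  have hW1 : WM (wT b N) (MC N (2 ^ n) t τ) := H375.wm_cell hb hn hτ hM1.sym hM1.lo
  have hy1 : x ^ c₁ ≤ x ^ min c₁ (2 * c₂) :=
    Real.rpow_le_rpow_of_exponent_ge hx0 hx1 (min_le_left _ _)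
  have hy2 : x ^ (2 * c₂) ≤ x ^ min c₁ (2 * c₂) :=
    Real.rpow_le_rpow_of_exponent_ge hx0 hx1 (min_le_right _ _)
  have hy0 : 0 < x ^ min c₁ (2 * c₂) := Real.rpow_pos_of_pos hx0 _
  have hZ0 : 0 ≤ (1 + B) ^ 6 * S := by positivity
  by_cases hε1 : ε ≤ 1
  · -- the good case
    set d : ℝ := 6 * C₁ * ((1 + 2 * B) ^ 6 * S) * x ^ c₁ with hd
    have hd0 : 0 ≤ d := by
      have := (Real.rpow_pos_of_pos hx0 c₁).le
      positivity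
    have key : ‖Ph (wT b N) M q F - Ph (wT b N) (MC N (2 ^ n) t τ) q F‖ ≤ 2 * d := by
      refine ph_ratio hW hW1 F
        (κ := Real.exp (Lg (wM (wT b N) M) 0 - Lg (wM (wT b N) (MC N (2 ^ n) t τ)) 0)) hd0
        (fun c hc0 hc1 => ?_) q
      have hv := cell_add hn hF c
      set v : V N → ℝ := fun x => F x + c with hvd
      have hBv : τ * ∑ x, v x ^ 2 ≤ B := hB c hc0 hc1
      have hcs : ∀ u : V N → ℝ, min s τ * ∑ x, u x ^ 2 ≤ qf (MC N (2 ^ n) s τ) u :=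
        fun u => H692.qf_MC_min hn u
      have hmin : 0 < min s τ := lt_min hs hτ
      have hcM : ∀ u : V N → ℝ, min s τ * ∑ x, u x ^ 2 ≤ qf M u :=
        fun u => (hcs u).trans (hlow u)
      have hc1' : ∀ u : V N → ℝ, min s τ * ∑ x, u x ^ 2 ≤ qf (MC N (2 ^ n) t τ) u :=
        fun u => (hcM u).trans (hM.up u)
      have m1 := lg_mono_mass hb.le hM.sym hM1.sym hmin hcM hM.up (τ • v)
      have m2 := lg_mono_mass hb.le hMs.sym hM.sym hmin hcs hlow (τ • v)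
      have hU := (lg_src hb.le hMs hmin hcs hv).trans
        (mul_le_mul_of_nonneg_left hBv (by norm_num : (0 : ℝ) ≤ 2))
      have hf := (h₁ N n p hn hp t ht htn htp s τ hs hst hτ hτt (τ • v) (2 * B) hU).2
      have hr := h₂ N t ht htN (2 ^ n) hn (by push_cast; exact htn) τ hτ hτt
        ((2 : ℝ) • (τ • v))
      rw [sum_src hτ v, hxe, ← hS] at hr
      have hr1 : C₂ * (4 * (τ * ∑ x, v x ^ 2)) * √S * x ^ (2 * c₂) ≤ ε := by
        rw [hε]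
        have h5 : 4 * (τ * ∑ x, v x ^ 2) ≤ 4 * B := by linarith
        have h6 : 0 ≤ x ^ (2 * c₂) := (Real.rpow_pos_of_pos hx0 _).le
        exact mul_le_mul_of_nonneg_right (mul_le_mul_of_nonneg_right
          (mul_le_mul_of_nonneg_left h5 hC₂.le) (Real.sqrt_nonneg _)) h6
      have hR2 : Rs (wM (wT b N) (MC N (2 ^ n) t τ)) ((2 : ℝ) • (τ • v)) ≤ 2 := by
        have := hR c hc0 hc1
        linarith
      have hT2 : Tq (wM (wT b N) (MC N (2 ^ n) t τ)) (τ • v) ≤ 2 :=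
        (H692.Tq_le_Rs (H864.em_wTM hb.le hmin hc1') (H864.ev_wTM _)
          (H789.pk_wM_wT' hb.le hmin hc1') _).trans hR2
      have hnum := vb_num1 hC₁ hR2 hT2 (Z := (1 + 2 * B) ^ 6 * S) (y := x ^ c₁) (by positivity)
        (Real.rpow_pos_of_pos hx0 _).le
      exact ZM_cell_ratio hM hM1 hW.em hW1.em hv (by linarith) (by linarith)
    refine key.trans ?_
    have h7 := vb_num2 hC₁ hB0 hS0.le (y := x ^ c₁) (Real.rpow_pos_of_pos hx0 _).le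
    rw [← hd] at h7
    refine h7.trans ?_
    have h8 : 768 * C₁ * ((1 + B) ^ 6 * S) * x ^ c₁ ≤
        768 * C₁ * ((1 + B) ^ 6 * S) * x ^ min c₁ (2 * c₂) :=
      mul_le_mul_of_nonneg_left hy1 (by positivity)
    have h9 : 0 ≤ 8 * C₂ * ((1 + B) ^ 6 * S) * x ^ min c₁ (2 * c₂) := by positivity
    linarith
  · -- trivial bound
    have h5 : ‖Ph (wT b N) M q F - Ph (wT b N) (MC N (2 ^ n) t τ) q F‖ ≤ 2 * ε := by
      have e1 := norm_sub_le (Ph (wT b N) M q F) (Ph (wT b N) (MC N (2 ^ n) t τ) q F)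
      have e2 := norm_Ph_le_one' hW q F
      have e3 := norm_Ph_le_one' hW1 q F
      linarith [not_le.1 hε1]
    refine h5.trans ?_
    have h6 := vb_num3 hC₂.le hB0 (S := S) (by linarith) (y := x ^ (2 * c₂))
      (Real.rpow_pos_of_pos hx0 _).le
    rw [← hε] at h6
    refine h6.trans ?_
    have h8 : 8 * C₂ * ((1 + B) ^ 6 * S) * x ^ (2 * c₂) ≤
        8 * C₂ * ((1 + B) ^ 6 * S) * x ^ min c₁ (2 * c₂) :=
      mul_le_mul_of_nonneg_left hy2 (by positivity)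
    have h9 : 0 ≤ 768 * C₁ * ((1 + B) ^ 6 * S) * x ^ min c₁ (2 * c₂) := by positivity
    linarith

end

end Vale.Agent.P159.H340
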