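import Vale.Agent.P159.H340.Vb4
import Vale.Agent.P159.H363.Acl

/-!
P159, helper340, module VBV, part 5: **FINE-φ, value level**, mass forms which vanish on modes, scalar
mass; instances.
-/

namespace Vale.Agent.P159.H340

open Finset Matrix MeasureTheory Filter Topology
open Vale.Agent.P159.TM.H104 (EM Ex Cv Lg li Gr)
open Vale.Agent.P159.TM.Spec (V)
open Vale.Agent.P159.TM.SpecC (wT)
open Vale.Agent.P159.H37 (qf re wM wt Gm cellP Ev PK Rs Tq Zs ZM post)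
open Vale.Agent.P159.H864 (lapM MC cobV)
open Vale.Agent.P159.H896 (WM Ph)
open Vale.Agent.P159.H363 (lf)

set_option linter.unusedSectionVars false

noncomputable section

section one

variable {N : ℕ} [NeZero N] {b t τ : ℝ} {l : ℕ}

/-- the segment from `M` to `t (1 - P) + τ P` -/
lemma bt_seg {M : Matrix (V N) (V N) ℝ} (hM : Bt N l t τ M) {s : ℝ} (hs : 0 ≤ s) (hs1 : s ≤ 1) :
    Bt N l t τ (M + s • (MC N l t τ - M)) where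
  sym := by
    rw [Matrix.transpose_add, Matrix.transpose_smul, Matrix.transpose_sub, hM.sym, H864.MC_tr]
  lo u := by
    rw [H37.qf_add_mat, H864.qf_smul_mat, H864.qf_sub_mat]
    have h1 := mul_nonneg hs (sub_nonneg.2 (hM.up u))
    linarith [hM.lo u]
  up u := by
    rw [H37.qf_add_mat, H864.qf_smul_mat, H864.qf_sub_mat]
    have h1 := mul_nonneg (sub_nonneg.2 hs1) (sub_nonneg.2 (hM.up u))
    linarith

lemma seg_low {M : Matrix (V N) (V N) ℝ} (hM : Bt N l t τ M) {s : ℝ}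
    (hs1 : s ≤ 1) (u : V N → ℝ) :
    qf (MC N l (s * t) τ) u ≤ qf (M + s • (MC N l t τ - M)) u := by
  have h1 := mul_le_mul_of_nonneg_left (hM.lo u) (sub_nonneg.2 hs1)
  unfold Vale.Agent.P159.H864.MC
  simp only [H37.qf_add_mat, H864.qf_smul_mat, H864.qf_sub_mat]
  linarith

end one

/-- **value level, mass forms between `τ P` and `t (1 - P) + τ P`** -/
theorem vb_lim {b : ℝ} (hb : 0 < b) : ∃ C c : ℝ, 0 ≤ C ∧ 0 < c ∧ c ≤ 1 ∧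
    ∀ (N : ℕ) [NeZero N] (n p : ℕ), 2 ^ n ∣ N → 2 ^ p ∣ N →
    ∀ t : ℝ, 0 < t → t * ((2 : ℝ) ^ n) ^ 2 ≤ 1 → 1 < t * 4 ^ (p + 1) → 9 ≤ t * (N : ℝ) ^ 2 →
    ∀ τ : ℝ, 0 < τ → τ ≤ t → ∀ M : Matrix (V N) (V N) ℝ, Bt N (2 ^ n) t τ M →
    ∀ F : V N → ℝ, cellP N (2 ^ n) *ᵥ F = F → ∀ B : ℝ,
      (∀ c : ℝ, 0 ≤ c → c ≤ 1 → τ * ∑ x, (F x + c) ^ 2 ≤ B) →
      (∀ c : ℝ, 0 ≤ c → c ≤ 1 → Rs (wt N b τ) ((2 : ℝ) • (τ • fun x => F x + c)) ≤ 1) →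
    ∀ q : ℤ, ‖Ph (wT b N) M q F - Ph (wT b N) (MC N (2 ^ n) t τ) q F‖ ≤
      C * ((1 + B) ^ 6 * (t * (N : ℝ) ^ 2)) * ((2 : ℝ) ^ n * √t) ^ c := by
  obtain ⟨C, c, hC, hc, hc1, h⟩ := vb_core hb
  refine ⟨C, c, hC, hc, hc1, ?_⟩
  intro N _ n p hn hp t ht htn htp htN τ hτ hτt M hM F hF B hB hR q
  have hW : WM (wT b N) M := H375.wm_cell hb hn hτ hM.sym hM.lo
  have hD : H375.Dwn (𝓝[>] 0) (fun s : ℝ => M + s • (MC N (2 ^ n) t τ - M)) M :=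
    H375.dwn_add hM.sym (by rw [Matrix.transpose_sub, hM.sym, H864.MC_tr]) fun u => by
      rw [H864.qf_sub_mat]
      linarith [hM.up u]
  have hlim := ((hD.Ph hW q F).sub_const (Ph (wT b N) (MC N (2 ^ n) t τ) q F)).norm
  refine le_of_tendsto hlim ?_
  filter_upwards [Ioo_mem_nhdsGT (zero_lt_one' ℝ)] with s hs
  exact h N n p hn hp t ht htn htp htN τ hτ hτt (s * t) _ (mul_pos hs.1 ht)
    (by nlinarith [hs.1, hs.2]) (bt_seg hM hs.1.le hs.2.le) (seg_low hM hs.2.le) F hF B hB hR q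

/-- **FINE-φ, value level** -/
theorem vbv {b : ℝ} (hb : 0 < b) : ∃ C c : ℝ, 0 ≤ C ∧ 0 < c ∧ c ≤ 1 ∧
    ∀ (N : ℕ) [NeZero N] (n p : ℕ), 2 ^ n ∣ N → 2 ^ p ∣ N →
    ∀ t : ℝ, 0 < t → t * ((2 : ℝ) ^ n) ^ 2 ≤ 1 → 1 < t * 4 ^ (p + 1) → 9 ≤ t * (N : ℝ) ^ 2 →
    ∀ τ : ℝ, 0 < τ → τ ≤ t → ∀ M : Matrix (V N) (V N) ℝ, Bt N (2 ^ n) t τ M →
    ∀ F : V N → ℝ, cellP N (2 ^ n) *ᵥ F = F → ∀ B : ℝ,
      (∀ c : ℝ, 0 ≤ c → c ≤ 1 → τ * ∑ x, (F x + c) ^ 2 ≤ B) →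
      (∀ c : ℝ, 0 ≤ c → c ≤ 1 → Rs (wt N b τ) ((2 : ℝ) • (τ • fun x => F x + c)) ≤ 1) →
    ∀ q : ℤ, ‖Ph (wT b N) (τ • (1 : Matrix (V N) (V N) ℝ)) q F - Ph (wT b N) M q F‖ ≤
      C * ((1 + B) ^ 6 * (t * (N : ℝ) ^ 2)) * ((2 : ℝ) ^ n * √t) ^ c := by
  obtain ⟨C, c, hC, hc, hc1, h⟩ := vb_lim hb
  refine ⟨2 * C, c, by positivity, hc, hc1, ?_⟩
  intro N _ n p hn hp t ht htn htp htN τ hτ hτt M hM F hF B hB hR q
  have h1 := h N n p hn hp t ht htn htp htN τ hτ hτt M hM F hF B hB hR q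
  have h2 := h N n p hn hp t ht htn htp htN τ hτ hτt _ (bt_MC hn hτ.le hτt) F hF B hB hR q
  rw [H864.MC_self] at h2
  have h3 : Ph (wT b N) (τ • (1 : Matrix (V N) (V N) ℝ)) q F - Ph (wT b N) M q F =
      (Ph (wT b N) (τ • (1 : Matrix (V N) (V N) ℝ)) q F -
        Ph (wT b N) (MC N (2 ^ n) t τ) q F) -
      (Ph (wT b N) M q F - Ph (wT b N) (MC N (2 ^ n) t τ) q F) := by ring
  rw [h3]
  refine (norm_sub_le _ _).trans ?_
  linarith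

/-! ### instances -/

section inst

variable {N : ℕ} [NeZero N] {b t τ : ℝ} {l L : ℕ}

lemma qf_cellP_mono [NeZero (N / l)] [NeZero (N / L)] (hl : l ∣ N) (hL : L ∣ N) (h : l ∣ L)
    (u : V N → ℝ) : qf (cellP N L) u ≤ qf (cellP N l) u := by
  have h1 := H447.cellP_mul_cellP hl hL h
  have h2 : cellP N L * cellP N l = cellP N L := by
    have := congrArg Matrix.transpose h1
    rwa [Matrix.transpose_mul, H864.cellP_tr, H864.cellP_tr] at this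
  have key : ∀ m : ℕ, m ∣ N → ∀ v : V N → ℝ, qf (cellP N m) v = ∑ x, (cellP N m *ᵥ v) x ^ 2 := by
    intro m hm v
    have := H159.nez_div hm
    have h3 : qf (cellP N m) v = (cellP N m *ᵥ v) ⬝ᵥ (cellP N m *ᵥ v) := by
      rw [H37.qf_eq]
      conv_lhs => rw [← H864.cellP_mul_self hm, ← Matrix.mulVec_mulVec, Matrix.dotProduct_mulVec,
        ← Matrix.mulVec_transpose, H864.cellP_tr]
    rw [h3]
    simp only [dotProduct]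
    exact Finset.sum_congr rfl fun x _ => by ring
  rw [key l hl u]
  have h4 : qf (cellP N L) u = qf (cellP N L) (cellP N l *ᵥ u) := by
    rw [key L hL u, key L hL (cellP N l *ᵥ u), Matrix.mulVec_mulVec, h2]
  rw [h4]
  exact H864.qf_cellP_le hL _

/-- helper889's mass form, `t` on the fine modes, `0` between `l` and `L`, `τ` on the cells `L` -/
theorem bt_MB (hl : l ∣ N) (hL : L ∣ N) (h : l ∣ L) (ht : 0 ≤ t) :
    Bt N L t τ (H375.MB N l L t τ) where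
  sym := H375.MB_tr N l L t τ
  lo u := by
    rw [H375.qf_MB]
    have := mul_nonneg ht (H159.fine_nonneg hl u)
    linarith
  up u := by
    have i1 := H159.nez_div hl
    have i2 := H159.nez_div hL
    rw [H375.qf_MB]
    unfold Vale.Agent.P159.H864.MC
    rw [H37.qf_add_mat, H864.qf_smul_mat, H864.qf_smul_mat, H864.qf_sub_mat, H864.qf_sub_mat]
    have h1 := mul_le_mul_of_nonneg_left (qf_cellP_mono hl hL h u) ht
    linarith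

/-- cell fields -/
lemma cell_lf [NeZero (N / l)] (hl : l ∣ N) (f : V (N / l) → ℝ) :
    cellP N l *ᵥ lf N l f = lf N l f := by
  rw [H363.lf_eq hl, Matrix.mulVec_smul, H864.cellP_eq hl, Matrix.mulVec_mulVec, Matrix.mul_assoc,
    H864.cobV_mul_tr hl, Matrix.mul_one]

/-- the energies along the constants -/
lemma sum_add_const_le (F : V N → ℝ) {c : ℝ} (h0 : 0 ≤ c) (h1 : c ≤ 1) :
    ∑ x, (F x + c) ^ 2 ≤ 2 * ∑ x, F x ^ 2 + 2 * (N : ℝ) ^ 2 := by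
  have hc : c ^ 2 ≤ 1 := pow_le_one₀ h0 h1
  have h2 : ∀ x ∈ (univ : Finset (V N)), (F x + c) ^ 2 ≤ 2 * F x ^ 2 + 2 := by
    intro x _
    nlinarith [pow_two_nonneg (F x - c)]
  refine (Finset.sum_le_sum h2).trans ?_
  rw [Finset.sum_add_distrib, ← Finset.mul_sum, Finset.sum_const, Finset.card_univ, nsmul_eq_mul,
    TM.H764.card_V]
  linarith

end inst

/-- **FINE-φ, value level**, energies without the constants -/
theorem vbv' {b : ℝ} (hb : 0 < b) : ∃ C c : ℝ, 0 ≤ C ∧ 0 < c ∧ c ≤ 1 ∧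
    ∀ (N : ℕ) [NeZero N] (n p : ℕ), 2 ^ n ∣ N → 2 ^ p ∣ N →
    ∀ t : ℝ, 0 < t → t * ((2 : ℝ) ^ n) ^ 2 ≤ 1 → 1 < t * 4 ^ (p + 1) → 9 ≤ t * (N : ℝ) ^ 2 →
    ∀ τ : ℝ, 0 < τ → τ ≤ t → ∀ M : Matrix (V N) (V N) ℝ, Bt N (2 ^ n) t τ M →
    ∀ F : V N → ℝ, cellP N (2 ^ n) *ᵥ F = F →
      (∀ c : ℝ, 0 ≤ c → c ≤ 1 → Rs (wt N b τ) ((2 : ℝ) • (τ • fun x => F x + c)) ≤ 1) →
    ∀ q : ℤ, ‖Ph (wT b N) (τ • (1 : Matrix (V N) (V N) ℝ)) q F - Ph (wT b N) M q F‖ ≤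
      C * ((1 + τ * (N : ℝ) ^ 2 + τ * ∑ x, F x ^ 2) ^ 6 * (t * (N : ℝ) ^ 2)) *
        ((2 : ℝ) ^ n * √t) ^ c := by
  obtain ⟨C, c, hC, hc, hc1, h⟩ := vbv hb
  refine ⟨64 * C, c, by positivity, hc, hc1, ?_⟩
  intro N _ n p hn hp t ht htn htp htN τ hτ hτt M hM F hF hR q
  set B : ℝ := 2 * (τ * (N : ℝ) ^ 2 + τ * ∑ x, F x ^ 2) with hB
  have h1 := h N n p hn hp t ht htn htp htN τ hτ hτt M hM F hF B (fun c h0 h1 => by
    have := mul_le_mul_of_nonneg_left (sum_add_const_le F h0 h1) hτ.le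
    rw [hB]
    linarith) hR q
  refine h1.trans ?_
  obtain ⟨hx0, hx1, -⟩ := vb_x (n := n) ht htn (c := c)
  have hy : 0 < ((2 : ℝ) ^ n * √t) ^ c := Real.rpow_pos_of_pos hx0 _
  have hs : 0 ≤ τ * (N : ℝ) ^ 2 + τ * ∑ x, F x ^ 2 := by positivity
  have h2 : (1 + B) ^ 6 ≤ (2 * (1 + τ * (N : ℝ) ^ 2 + τ * ∑ x, F x ^ 2)) ^ 6 := by
    refine pow_le_pow_left₀ (by rw [hB]; linarith) (by rw [hB]; linarith) 6
  have h3 : (2 * (1 + τ * (N : ℝ) ^ 2 + τ * ∑ x, F x ^ 2)) ^ 6 =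
      64 * (1 + τ * (N : ℝ) ^ 2 + τ * ∑ x, F x ^ 2) ^ 6 := by ring
  rw [h3] at h2
  have h4 := mul_le_mul_of_nonneg_right h2 (show 0 ≤ C * (t * (N : ℝ) ^ 2) *
    ((2 : ℝ) ^ n * √t) ^ c by positivity)
  calc C * ((1 + B) ^ 6 * (t * (N : ℝ) ^ 2)) * ((2 : ℝ) ^ n * √t) ^ c
      = (1 + B) ^ 6 * (C * (t * (N : ℝ) ^ 2) * ((2 : ℝ) ^ n * √t) ^ c) := by ring
    _ ≤ 64 * (1 + τ * (N : ℝ) ^ 2 + τ * ∑ x, F x ^ 2) ^ 6 *
        (C * (t * (N : ℝ) ^ 2) * ((2 : ℝ) ^ n * √t) ^ c) := h4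
    _ = _ := by ring

end

end Vale.Agent.P159.H340
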