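import Vale.Agent.P159.H340.Vb6

/-!
P159, helper340, module VBV, part 7: **FINE-φ, value level, neutral hypotheses.** `vbv_N`: as `vbv`, but
only `R` of the neutral model with the scalar mass `τ` at twice the neutral source of `F` enters (one
number), and the total activity at the scalar mass `t` is at most `1/2`.
-/

namespace Vale.Agent.P159.H340

open Finset Matrix MeasureTheory Filter Topology
open Vale.Agent.P159.TM.H104 (EM Ex Cv Lg li Gr)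
open Vale.Agent.P159.TM.Spec (V)
open Vale.Agent.P159.TM.SpecC (wT)
open Vale.Agent.P159.H37 (qf re wM wt Gm cellP Ev PK Rs Tq Zs ZM Zn post)
open Vale.Agent.P159.H864 (lapM MC cobV)
open Vale.Agent.P159.H896 (WM Ph Chn om)
open Vale.Agent.P159.H963 (Neu nM nMC nwt MF ntr gw_wT mf_MC mf_smul)
open Vale.Agent.P159.H43 (omT omH)
open Vale.Agent.P159.H145 (OscZ cs T0)

set_option linter.unusedSectionVars false

noncomputable section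

lemma vb_num4 {C R T T₀ B S y : ℝ} (hC : 0 ≤ C) (hB : 0 ≤ B) (hR : R ≤ 2 * B) (hT : T ≤ T₀)
    (hT₀ : 0 ≤ T₀) (hS : 0 ≤ S) (hy : 0 ≤ y) :
    C * (R + Real.exp (T / 2) + 1) * ((1 + 2 * B) ^ 6 * S) * y ≤
      128 * C * Real.exp (T₀ / 2) * ((1 + B) ^ 7 * S) * y := by
  have h1 : Real.exp (T / 2) ≤ Real.exp (T₀ / 2) := Real.exp_le_exp.2 (by linarith)
  have h2 : 1 ≤ Real.exp (T₀ / 2) := Real.one_le_exp (by linarith)
  have h3 : R + Real.exp (T / 2) + 1 ≤ 2 * Real.exp (T₀ / 2) * (1 + B) := by nlinarith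
  have h4 : (1 + 2 * B) ^ 6 ≤ (2 * (1 + B)) ^ 6 := pow_le_pow_left₀ (by linarith) (by linarith) 6
  have h5 : (2 * (1 + B)) ^ 6 = 64 * (1 + B) ^ 6 := by ring
  rw [h5] at h4
  have h6 : C * (R + Real.exp (T / 2) + 1) ≤ C * (2 * Real.exp (T₀ / 2) * (1 + B)) :=
    mul_le_mul_of_nonneg_left h3 hC
  have h7 : 0 ≤ C * (2 * Real.exp (T₀ / 2) * (1 + B)) := by positivity
  calc C * (R + Real.exp (T / 2) + 1) * ((1 + 2 * B) ^ 6 * S) * y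
      ≤ C * (2 * Real.exp (T₀ / 2) * (1 + B)) * ((1 + 2 * B) ^ 6 * S) * y := by gcongr
    _ ≤ C * (2 * Real.exp (T₀ / 2) * (1 + B)) * ((64 * (1 + B) ^ 6) * S) * y := by gcongr
    _ = _ := by ring

/-- **value level, coercive mass forms**, bound of `T` as a hypothesis -/
theorem vb_core_T {b : ℝ} (hb : 0 < b) : ∃ C c : ℝ, 0 ≤ C ∧ 0 < c ∧ c ≤ 1 ∧
    ∀ (N : ℕ) [NeZero N] (n p : ℕ), 2 ^ n ∣ N → 2 ^ p ∣ N →
    ∀ t : ℝ, 0 < t → t * ((2 : ℝ) ^ n) ^ 2 ≤ 1 → 1 < t * 4 ^ (p + 1) →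
    ∀ τ : ℝ, 0 < τ → τ ≤ t → ∀ (s : ℝ) (M : Matrix (V N) (V N) ℝ), 0 < s → s ≤ t →
      Bt N (2 ^ n) t τ M → (∀ u, qf (MC N (2 ^ n) s τ) u ≤ qf M u) →
    ∀ F : V N → ℝ, cellP N (2 ^ n) *ᵥ F = F → ∀ B T₀ : ℝ, 0 ≤ T₀ →
      (∀ c : ℝ, 0 ≤ c → c ≤ 1 → τ * ∑ x, (F x + c) ^ 2 ≤ B) →
      (∀ c : ℝ, 0 ≤ c → c ≤ 1 →
        Tq (wM (wT b N) (MC N (2 ^ n) t τ)) (τ • fun x => F x + c) ≤ T₀) →
    ∀ q : ℤ, ‖Ph (wT b N) M q F - Ph (wT b N) (MC N (2 ^ n) t τ) q F‖ ≤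
      C * Real.exp (T₀ / 2) * ((1 + B) ^ 7 * (t * (N : ℝ) ^ 2)) * ((2 : ℝ) ^ n * √t) ^ c := by
  obtain ⟨C₁, c₁, hC₁, hc₁, hc₁1, h₁⟩ := H692.fine_b_MC hb.le
  refine ⟨256 * C₁, c₁, by positivity, hc₁, hc₁1, ?_⟩
  intro N _ n p hn hp t ht htn htp τ hτ hτt s M hs hst hM hlow F hF B T₀ hT₀ hB hT q
  have := H159.nez_div hn
  have hB0 : 0 ≤ B := le_trans (by positivity) (hB 0 le_rfl zero_le_one)
  obtain ⟨hx0, hx1, -⟩ := vb_x (n := n) ht htn (c := c₁)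
  set x : ℝ := (2 : ℝ) ^ n * √t with hx
  have hN0 : (0 : ℝ) < N := by exact_mod_cast NeZero.pos N
  set S : ℝ := t * (N : ℝ) ^ 2 with hS
  have hS0 : 0 < S := by positivity
  have hM1 : Bt N (2 ^ n) t τ (MC N (2 ^ n) t τ) := bt_MC hn ht.le le_rfl
  have hMs : Bt N (2 ^ n) t τ (MC N (2 ^ n) s τ) := bt_MC hn hs.le hst
  have hW : WM (wT b N) M := H375.wm_cell hb hn hτ hM.sym hM.lo
  have hW1 : WM (wT b N) (MC N (2 ^ n) t τ) := H375.wm_cell hb hn hτ hM1.sym hM1.lo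
  have hy0 : 0 < x ^ c₁ := Real.rpow_pos_of_pos hx0 _
  set d : ℝ := 128 * C₁ * Real.exp (T₀ / 2) * ((1 + B) ^ 7 * S) * x ^ c₁ with hd
  have hd0 : 0 ≤ d := by positivity
  have key : ‖Ph (wT b N) M q F - Ph (wT b N) (MC N (2 ^ n) t τ) q F‖ ≤ 2 * d := by
    refine ph_ratio hW hW1 F
      (κ := Real.exp (Lg (wM (wT b N) M) 0 - Lg (wM (wT b N) (MC N (2 ^ n) t τ)) 0)) hd0
      (fun c hc0 hc1 => ?_) q
    have hv := cell_add hn hF c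
    have hTc := hT c hc0 hc1
    set v : V N → ℝ := fun x => F x + c with hvd
    have hBv : τ * ∑ x, v x ^ 2 ≤ B := hB c hc0 hc1
    have hcs : ∀ u : V N → ℝ, min s τ * ∑ x, u x ^ 2 ≤ qf (MC N (2 ^ n) s τ) u :=
      fun u => H692.qf_MC_min hn u
    have hmin : 0 < min s τ := lt_min hs hτ
    have hcM : ∀ u : V N → ℝ, min s τ * ∑ x, u x ^ 2 ≤ qf M u :=
      fun u => (hcs u).trans (hlow u)
    have hc1' : ∀ u : V N → ℝ, min s τ * ∑ x, u x ^ 2 ≤ qf (MC N (2 ^ n) t τ) u :=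
      fun u => (hcM u).trans (hM.up u)
    have m1 := lg_mono_mass hb.le hM.sym hM1.sym hmin hcM hM.up (τ • v)
    have m2 := lg_mono_mass hb.le hMs.sym hM.sym hmin hcs hlow (τ • v)
    have hU := (lg_src hb.le hMs hmin hcs hv).trans
      (mul_le_mul_of_nonneg_left hBv (by norm_num : (0 : ℝ) ≤ 2))
    have hU1 := (lg_src hb.le hM1 hmin hc1' hv).trans
      (mul_le_mul_of_nonneg_left hBv (by norm_num : (0 : ℝ) ≤ 2))
    have hf := (h₁ N n p hn hp t ht htn htp s τ hs hst hτ hτt (τ • v) (2 * B) hU).2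
    have hR2 : Rs (wM (wT b N) (MC N (2 ^ n) t τ)) ((2 : ℝ) • (τ • v)) ≤ 2 * B := by
      have hE1 := H864.em_wTM hb.le hmin hc1'
      have h0 : 0 ≤ qf (Gm (wM (wT b N) (MC N (2 ^ n) t τ))) ((2 : ℝ) • (τ • v)) := by
        rw [H789.qf_Gm hE1]
        exact H114.Cv_self_nonneg hE1 0 (Gr.li _)
      unfold Vale.Agent.P159.H37.Rs
      linarith
    have hnum := vb_num4 hC₁ hB0 hR2 hTc hT₀ hS0.le hy0.le
    exact ZM_cell_ratio hM hM1 hW.em hW1.em hv (by linarith) (by linarith)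
  refine key.trans (le_of_eq ?_)
  rw [hd]
  ring

/-- **value level**, bound of `T` as a hypothesis -/
theorem vb_lim_T {b : ℝ} (hb : 0 < b) : ∃ C c : ℝ, 0 ≤ C ∧ 0 < c ∧ c ≤ 1 ∧
    ∀ (N : ℕ) [NeZero N] (n p : ℕ), 2 ^ n ∣ N → 2 ^ p ∣ N →
    ∀ t : ℝ, 0 < t → t * ((2 : ℝ) ^ n) ^ 2 ≤ 1 → 1 < t * 4 ^ (p + 1) →
    ∀ τ : ℝ, 0 < τ → τ ≤ t → ∀ M : Matrix (V N) (V N) ℝ, Bt N (2 ^ n) t τ M →
    ∀ F : V N → ℝ, cellP N (2 ^ n) *ᵥ F = F → ∀ B T₀ : ℝ, 0 ≤ T₀ →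
      (∀ c : ℝ, 0 ≤ c → c ≤ 1 → τ * ∑ x, (F x + c) ^ 2 ≤ B) →
      (∀ c : ℝ, 0 ≤ c → c ≤ 1 →
        Tq (wM (wT b N) (MC N (2 ^ n) t τ)) (τ • fun x => F x + c) ≤ T₀) →
    ∀ q : ℤ, ‖Ph (wT b N) M q F - Ph (wT b N) (MC N (2 ^ n) t τ) q F‖ ≤
      C * Real.exp (T₀ / 2) * ((1 + B) ^ 7 * (t * (N : ℝ) ^ 2)) * ((2 : ℝ) ^ n * √t) ^ c := by
  obtain ⟨C, c, hC, hc, hc1, h⟩ := vb_core_T hb
  refine ⟨C, c, hC, hc, hc1, ?_⟩
  intro N _ n p hn hp t ht htn htp τ hτ hτt M hM F hF B T₀ hT₀ hB hT q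
  have hW : WM (wT b N) M := H375.wm_cell hb hn hτ hM.sym hM.lo
  have hD : H375.Dwn (𝓝[>] 0) (fun s : ℝ => M + s • (MC N (2 ^ n) t τ - M)) M :=
    H375.dwn_add hM.sym (by rw [Matrix.transpose_sub, hM.sym, H864.MC_tr]) fun u => by
      rw [H864.qf_sub_mat]
      linarith [hM.up u]
  have hlim := ((hD.Ph hW q F).sub_const (Ph (wT b N) (MC N (2 ^ n) t τ) q F)).norm
  refine le_of_tendsto hlim ?_
  filter_upwards [Ioo_mem_nhdsGT (zero_lt_one' ℝ)] with s hs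
  exact h N n p hn hp t ht htn htp τ hτ hτt (s * t) _ (mul_pos hs.1 ht)
    (by nlinarith [hs.1, hs.2]) (bt_seg hM hs.1.le hs.2.le) (seg_low hM hs.2.le) F hF B T₀ hT₀
    hB hT q

/-- bookkeeping of the trivial case -/
lemma vb_num5 {C₂ A S y E Z : ℝ} (hC₂ : 0 ≤ C₂) (hA : 0 ≤ A) (hAZ : 1 + A ≤ Z) (hS : 1 ≤ S)
    (hy : 0 ≤ y) (hE : 1 ≤ E) :
    2 * (C₂ * (4 * A) * √S * y) ≤ 8 * C₂ * E * (Z ^ 7 * S) * y := by
  have h1 : √S ≤ S := by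
    rw [Real.sqrt_le_left (by linarith)]
    nlinarith
  have hZ : 1 ≤ Z := by linarith
  have h2 : A ≤ Z ^ 7 := by
    have : Z ≤ Z ^ 7 := le_self_pow₀ hZ (by norm_num)
    linarith
  have h3 : A * √S ≤ Z ^ 7 * S := mul_le_mul h2 h1 (Real.sqrt_nonneg _) (by positivity)
  have h4 : A * √S ≤ E * (Z ^ 7 * S) := by
    refine h3.trans ?_
    have : 0 ≤ Z ^ 7 * S := by positivity
    nlinarith
  have h5 := mul_le_mul_of_nonneg_right h4 (show 0 ≤ 8 * C₂ * y by positivity)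
  calc 2 * (C₂ * (4 * A) * √S * y) = A * √S * (8 * C₂ * y) := by ring
    _ ≤ E * (Z ^ 7 * S) * (8 * C₂ * y) := h5
    _ = _ := by ring

/-- **FINE-φ, value level, neutral hypotheses** -/
theorem vbv_N {b : ℝ} (hb : 0 < b) : ∃ C c : ℝ, 0 ≤ C ∧ 0 < c ∧ c ≤ 1 ∧
    ∀ (N : ℕ) [NeZero N] (n p : ℕ), 2 ^ n ∣ N → 2 ^ p ∣ N →
    ∀ t : ℝ, 0 < t → t * ((2 : ℝ) ^ n) ^ 2 ≤ 1 → 1 < t * 4 ^ (p + 1) → 9 ≤ t * (N : ℝ) ^ 2 →
      omT (wT b N) (t • (1 : Matrix (V N) (V N) ℝ)) ≤ 1 / 2 →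
    ∀ τ : ℝ, 0 < τ → τ ≤ t → ∀ M : Matrix (V N) (V N) ℝ, Bt N (2 ^ n) t τ M →
    ∀ F : V N → ℝ, cellP N (2 ^ n) *ᵥ F = F → ∀ (x₀ : V N) (R₀ : ℝ),
      Rs (nwt N b τ x₀) ((2 : ℝ) • (ntr (τ • (1 : Matrix (V N) (V N) ℝ)) τ *ᵥ F)) ≤ R₀ →
    ∀ q : ℤ, ‖Ph (wT b N) (τ • (1 : Matrix (V N) (V N) ℝ)) q F - Ph (wT b N) M q F‖ ≤
      C * Real.exp (R₀ / 2) * ((1 + τ * (N : ℝ) ^ 2 + τ * ∑ x, F x ^ 2) ^ 7 *
        (t * (N : ℝ) ^ 2)) * ((2 : ℝ) ^ n * √t) ^ c := by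
  obtain ⟨C₁, c₁, hC₁, hc₁, hc₁1, h₁⟩ := vb_lim_T hb
  obtain ⟨C₂, c₂, hC₂, hc₂, h₂⟩ := rs_cell_N hb
  refine ⟨256 * Real.exp (9 / 2) * C₁ + 8 * C₂, min c₁ (2 * c₂), by positivity,
    lt_min hc₁ (by positivity), (min_le_left _ _).trans hc₁1, ?_⟩
  intro N _ n p hn hp t ht htn htp htN hom τ hτ hτt M hM F hF x₀ R₀ hR q
  have := H159.nez_div hn
  obtain ⟨hx0, hx1, hxe⟩ := vb_x (n := n) ht htn (c := c₂)
  set x : ℝ := (2 : ℝ) ^ n * √t with hx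
  set S : ℝ := t * (N : ℝ) ^ 2 with hS
  have hS0 : 0 < S := by linarith
  set A : ℝ := τ * ∑ x, F x ^ 2 with hA
  have hA0 : 0 ≤ A := by positivity
  set Z : ℝ := 1 + τ * (N : ℝ) ^ 2 + A with hZ
  have hZA : 1 + A ≤ Z := by
    have : 0 ≤ τ * (N : ℝ) ^ 2 := by positivity
    linarith
  have hZ1 : 1 ≤ Z := by linarith
  have hM1 : Bt N (2 ^ n) t τ (MC N (2 ^ n) t τ) := bt_MC hn ht.le le_rfl
  have hW : WM (wT b N) M := H375.wm_cell hb hn hτ hM.sym hM.lo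
  have hW0 : WM (wT b N) (τ • (1 : Matrix (V N) (V N) ℝ)) := H896.wm_t hb.le hτ
  have hw := gw_wT (N := N) hb.le
  have hR0 : 0 ≤ R₀ := by
    refine le_trans ?_ hR
    exact H789.Rs_nonneg (hw.em_nM (mf_smul hτ) x₀) (hw.ev_nM _ τ x₀)
      (hw.pk_nM (mf_smul hτ) x₀) _
  have hE1 : 1 ≤ Real.exp (R₀ / 2) := Real.one_le_exp (by linarith)
  set E : ℝ := Real.exp (R₀ / 2) with hE
  have hy1 : x ^ c₁ ≤ x ^ min c₁ (2 * c₂) :=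
    Real.rpow_le_rpow_of_exponent_ge hx0 hx1 (min_le_left _ _)
  have hy2 : x ^ (2 * c₂) ≤ x ^ min c₁ (2 * c₂) :=
    Real.rpow_le_rpow_of_exponent_ge hx0 hx1 (min_le_right _ _)
  have hy0 : 0 < x ^ min c₁ (2 * c₂) := Real.rpow_pos_of_pos hx0 _
  have hy20 : 0 < x ^ (2 * c₂) := Real.rpow_pos_of_pos hx0 _
  have hZS : 0 ≤ Z ^ 7 * S := by positivity
  set ε : ℝ := C₂ * (4 * A) * √S * x ^ (2 * c₂) with hε
  by_cases hε1 : ε ≤ 1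
  · -- the good case
    have hr := h₂ N n p hn hp t ht htn htp htN τ hτ hτt x₀
      ((2 : ℝ) • (ntr (τ • (1 : Matrix (V N) (V N) ℝ)) τ *ᵥ F)) ((neu_ntr_smul τ F).smul 2)
    rw [hxe, ← hS] at hr
    have hr1 : C₂ * ((∑ x, ((2 : ℝ) • (ntr (τ • (1 : Matrix (V N) (V N) ℝ)) τ *ᵥ F)) x ^ 2) / τ) *
        √S * x ^ (2 * c₂) ≤ ε := by
      rw [hε]
      exact mul_le_mul_of_nonneg_right (mul_le_mul_of_nonneg_right
        (mul_le_mul_of_nonneg_left (sum_ntr_le hτ F) hC₂.le) (Real.sqrt_nonneg _)) hy20.le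
    have hO := osc_MC hb.le hn hτ hτt hom
    have hT : ∀ c : ℝ, 0 ≤ c → c ≤ 1 →
        Tq (wM (wT b N) (MC N (2 ^ n) t τ)) (τ • fun x => F x + c) ≤ R₀ + 9 := by
      intro c _ _
      have h3 := tq_MC hb.le hn hτ hτt hO x₀ F c
      rw [MC_cell t τ (cell_add hn hF c), ntr_cell hF] at h3
      linarith
    have hB : ∀ c : ℝ, 0 ≤ c → c ≤ 1 → τ * ∑ x, (F x + c) ^ 2 ≤ 2 * (τ * (N : ℝ) ^ 2 + A) := by
      intro c h0 h1
      have := mul_le_mul_of_nonneg_left (sum_add_const_le F h0 h1) hτ.le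
      rw [hA]
      linarith
    have h3 := h₁ N n p hn hp t ht htn htp τ hτ hτt M hM F hF _ (R₀ + 9) (by linarith) hB hT q
    have h4 := h₁ N n p hn hp t ht htn htp τ hτ hτt _ (bt_MC hn hτ.le hτt) F hF _ (R₀ + 9)
      (by linarith) hB hT q
    rw [H864.MC_self] at h4
    have h5 : Ph (wT b N) (τ • (1 : Matrix (V N) (V N) ℝ)) q F - Ph (wT b N) M q F =
        (Ph (wT b N) (τ • (1 : Matrix (V N) (V N) ℝ)) q F -
          Ph (wT b N) (MC N (2 ^ n) t τ) q F) -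
        (Ph (wT b N) M q F - Ph (wT b N) (MC N (2 ^ n) t τ) q F) := by ring
    rw [h5]
    refine (norm_sub_le _ _).trans ?_
    have e6 : Real.exp ((R₀ + 9) / 2) = E * Real.exp (9 / 2) := by
      rw [hE, ← Real.exp_add]
      congr 1
      ring
    have h7 : (1 + 2 * (τ * (N : ℝ) ^ 2 + A)) ^ 7 ≤ 128 * Z ^ 7 := by
      have h8 : (1 + 2 * (τ * (N : ℝ) ^ 2 + A)) ^ 7 ≤ (2 * Z) ^ 7 :=
        pow_le_pow_left₀ (by positivity) (by rw [hZ]; linarith) 7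
      have h9 : (2 * Z) ^ 7 = 128 * Z ^ 7 := by ring
      linarith
    have h8 : C₁ * Real.exp ((R₀ + 9) / 2) * ((1 + 2 * (τ * (N : ℝ) ^ 2 + A)) ^ 7 * S) * x ^ c₁ ≤
        128 * Real.exp (9 / 2) * C₁ * E * (Z ^ 7 * S) * x ^ min c₁ (2 * c₂) := by
      rw [e6]
      calc C₁ * (E * Real.exp (9 / 2)) * ((1 + 2 * (τ * (N : ℝ) ^ 2 + A)) ^ 7 * S) * x ^ c₁
          ≤ C₁ * (E * Real.exp (9 / 2)) * ((128 * Z ^ 7) * S) * x ^ c₁ := by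
            have := (Real.rpow_pos_of_pos hx0 c₁).le
            gcongr
        _ ≤ C₁ * (E * Real.exp (9 / 2)) * ((128 * Z ^ 7) * S) * x ^ min c₁ (2 * c₂) := by gcongr
        _ = _ := by ring
    have h9 : 0 ≤ 8 * C₂ * E * (Z ^ 7 * S) * x ^ min c₁ (2 * c₂) := by positivity
    linarith
  · -- trivial bound
    have h5 : ‖Ph (wT b N) (τ • (1 : Matrix (V N) (V N) ℝ)) q F - Ph (wT b N) M q F‖ ≤ 2 * ε := by
      have e1 := norm_sub_le (Ph (wT b N) (τ • (1 : Matrix (V N) (V N) ℝ)) q F)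
        (Ph (wT b N) M q F)
      have e2 := norm_Ph_le_one' hW q F
      have e3 := norm_Ph_le_one' hW0 q F
      linarith [not_le.1 hε1]
    refine h5.trans ?_
    have h6 := vb_num5 hC₂.le hA0 hZA (S := S) (by linarith) hy20.le hE1
    rw [← hε] at h6
    refine h6.trans ?_
    have h8 : 8 * C₂ * E * (Z ^ 7 * S) * x ^ (2 * c₂) ≤
        8 * C₂ * E * (Z ^ 7 * S) * x ^ min c₁ (2 * c₂) :=
      mul_le_mul_of_nonneg_left hy2 (by positivity)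
    have h9 : 0 ≤ 256 * Real.exp (9 / 2) * C₁ * E * (Z ^ 7 * S) * x ^ min c₁ (2 * c₂) := by
      positivity
    linarith

end

end Vale.Agent.P159.H340
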