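import Vale.Agent.P159.H340.Vb7
import Vale.Agent.P159.H896.CombU

/-!
P159, helper340, module VBV, part 8: the value level in the letters of the combined step (896): `Mb`,
`lf2`.
-/

namespace Vale.Agent.P159.H340

open Finset Matrix MeasureTheory
open Vale.Agent.P159.TM.Spec (V)
open Vale.Agent.P159.TM.SpecC (wT)
open Vale.Agent.P159.H37 (qf wt cellP Rs)
open Vale.Agent.P159.H864 (MC)
open Vale.Agent.P159.H896 (Ph Mb lf2 tcf)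
open Vale.Agent.P159.H963 (nwt ntr)
open Vale.Agent.P159.H43 (omT)
open Vale.Agent.P159.H363 (lf Rcl)

set_option linter.unusedSectionVars false

noncomputable section

variable {N l ρ : ℕ} [NeZero N] [NeZero (N / l)] [NeZero (N / l / ρ)] [NeZero (N / (l * ρ))]
  {b t τ : ℝ}

/-- the mass form of the combined step lies between `τ P` and `t (1 - P) + τ P`, cells `l ρ` -/
theorem bt_Mb (hl : l ∣ N) (hρ : ρ ∣ N / l) (ht : 0 ≤ t) :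
    Bt N (l * ρ) t τ (Mb N l ρ t τ) := by
  rw [H896.Mb_eq hl hρ]
  exact bt_MB hl (dvd_lr hl hρ) (Nat.dvd_mul_right l ρ) ht

lemma cell_lf2 (hl : l ∣ N) (hρ : ρ ∣ N / l) (f : V (N / l / ρ) → ℝ) :
    cellP N (l * ρ) *ᵥ lf2 N l ρ f = lf2 N l ρ f := by
  rw [H896.lf2_eq hl hρ]
  exact cell_lf (dvd_lr hl hρ) _

omit [NeZero (N / l)] [NeZero (N / l / ρ)] [NeZero (N / (l * ρ))] in
/-- `R` of the scalar mass at the neutral source of a cell field, in the letters of 363 -/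
lemma rs_eq_Rcl [NeZero (N / l)] (f : V (N / l) → ℝ) :
    Rs (nwt N b τ 0) ((2 : ℝ) • (ntr (τ • (1 : Matrix (V N) (V N) ℝ)) τ *ᵥ lf N l f)) =
      Rcl N l b τ τ ((2 : ℝ) • f) := by
  unfold Vale.Agent.P159.H363.Rcl Vale.Agent.P159.H963.nMC Vale.Agent.P159.H963.nwt
  rw [H864.MC_self, H363.lf_smul, Matrix.mulVec_smul]

/-- **FINE-φ for the combined step** -/
theorem vbv_Mb {b : ℝ} (hb : 0 < b) : ∃ C c : ℝ, 0 ≤ C ∧ 0 < c ∧ c ≤ 1 ∧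
    ∀ (N l ρ n p : ℕ) [NeZero N] [NeZero (N / l)] [NeZero (N / l / ρ)] [NeZero (N / (l * ρ))],
      l ∣ N → ρ ∣ N / l → l * ρ = 2 ^ n → 2 ^ p ∣ N →
    ∀ t : ℝ, 0 < t → t * ((2 : ℝ) ^ n) ^ 2 ≤ 1 → 1 < t * 4 ^ (p + 1) → 9 ≤ t * (N : ℝ) ^ 2 →
      omT (wT b N) (t • (1 : Matrix (V N) (V N) ℝ)) ≤ 1 / 2 →
    ∀ τ : ℝ, 0 < τ → τ ≤ t → ∀ (f : V (N / l / ρ) → ℝ) (R₀ : ℝ),
      Rcl N (l * ρ) b τ τ ((2 : ℝ) • tcf N l ρ f) ≤ R₀ →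
    ∀ q : ℤ, ‖Ph (wT b N) (τ • (1 : Matrix (V N) (V N) ℝ)) q (lf2 N l ρ f) -
        Ph (wT b N) (Mb N l ρ t τ) q (lf2 N l ρ f)‖ ≤
      C * Real.exp (R₀ / 2) * ((1 + τ * (N : ℝ) ^ 2 + τ * ∑ x, lf2 N l ρ f x ^ 2) ^ 7 *
        (t * (N : ℝ) ^ 2)) * ((2 : ℝ) ^ n * √t) ^ c := by
  obtain ⟨C, c, hC, hc, hc1, h⟩ := vbv_N hb
  refine ⟨C, c, hC, hc, hc1, ?_⟩
  intro N l ρ n p _ _ _ _ hl hρ hn hp t ht htn htp htN hom τ hτ hτt f R₀ hR q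
  have hL := dvd_lr hl hρ
  have hB := bt_Mb (τ := τ) hl hρ ht.le
  have hF := cell_lf2 hl hρ f
  rw [← rs_eq_Rcl (b := b) (τ := τ), ← H896.lf2_eq hl hρ] at hR
  rw [hn] at hB hF hL
  exact h N n p hL hp t ht htn htp htN hom τ hτ hτt _ hB _ hF 0 R₀ hR q

end

end Vale.Agent.P159.H340
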